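import Vale.Agent.P192.H121.Shift

/-!
# P192: an explicit bound for presentations with relators in `[N,N]N^p`
-/

namespace Vale.Agent.P192.H121

open Monoid

section delta

variable {α : Type*} {p : ℕ} (N : Subgroup (FreeGroup α)) [N.Normal]

theorem over_cval (c : (FreeGroup α ⧸ N) → α → Multiplicative (ZMod p)) :
    Over (QuotientGroup.mk' N) (cval c) := by
  intro v w x
  rw [cval_mul]
  obtain ⟨x, rfl⟩ := QuotientGroup.mk_surjective x
  rfl

/-- the cochain of one edge -/
def delta [DecidableEq α] (p : ℕ) {X : Type*} [DecidableEq X] (e : X × α) (x : X) (a : α) :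
    Multiplicative (ZMod p) := if (x, a) = e then Multiplicative.ofAdd 1 else 1

theorem delta_ne [DecidableEq α] [DecidableEq (FreeGroup α ⧸ N)] [Fact p.Prime]
    (e : (FreeGroup α ⧸ N) × α) (hfin : IsOfFinOrder (QuotientGroup.mk' N (FreeGroup.of e.2))) :
    ∃ w ∈ N, ∀ x : FreeGroup α ⧸ N, x = e.1 → cval (delta p e) w x ≠ 1 := by
  set k := orderOf (QuotientGroup.mk' N (FreeGroup.of e.2)) with hk
  have hpos : 0 < k := orderOf_pos_iff.2 hfin
  have hsm : ∀ m : ℕ, (FreeGroup.of e.2) ^ m • e.1 =
      (QuotientGroup.mk' N (FreeGroup.of e.2)) ^ m * e.1 := by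
    intro m
    obtain ⟨x, hx⟩ := QuotientGroup.mk_surjective e.1
    rw [← hx]
    rfl
  have h1 : ∀ m, 0 < m → m ≤ k →
      cval (delta p e) ((FreeGroup.of e.2) ^ m) e.1 = Multiplicative.ofAdd 1 := by
    intro m
    induction m with
    | zero => intro h; exact absurd h (lt_irrefl _)
    | succ m ih =>
      intro _ hm
      rw [pow_succ', cval_mul, cval_of]
      rcases Nat.eq_zero_or_pos m with rfl | hm0
      · rw [pow_zero, one_smul, cval_one, mul_one]
        unfold delta
        rw [if_pos rfl]
      · rw [ih hm0 (by omega)]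
        unfold delta
        rw [if_neg, one_mul]
        intro h
        have h2 : (FreeGroup.of e.2) ^ m • e.1 = e.1 := congrArg Prod.fst h
        rw [hsm, mul_eq_right] at h2
        have h3 := Nat.le_of_dvd hm0 (orderOf_dvd_of_pow_eq_one h2)
        omega
  refine ⟨(FreeGroup.of e.2) ^ k, ?_, ?_⟩
  · rw [← QuotientGroup.eq_one_iff]
    exact pow_orderOf_eq_one (QuotientGroup.mk' N (FreeGroup.of e.2))
  · rintro x rfl
    rw [h1 k hpos le_rfl]
    intro h
    exact one_ne_zero (Multiplicative.ofAdd.injective h)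

end delta

/-- the sum of the squares of the lengths of the relators -/
def rsq {α : Type*} [DecidableEq α] (R : Finset (FreeGroup α)) : ℕ := ∑ r ∈ R, r.norm ^ 2

theorem card_nbr_single {α X : Type*} [MulAction (FreeGroup α) X] [DecidableEq α] [Fintype X]
    [DecidableEq X] (R : Finset (FreeGroup α)) (e : X × α) :
    (nbr R {e}).card ≤ 1 + rsq R := by
  have h1 : nbr R {e} ⊆ {e} ∪ R.biUnion fun r =>
      (Finset.univ.filter fun x : X => e ∈ edges r.toWord x).biUnion fun x =>
        (edges r.toWord x).toFinset := by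
    intro e' he'
    rcases Finset.mem_union.1 he' with h | h
    · exact Finset.mem_union_left _ h
    · refine Finset.mem_union_right _ ?_
      obtain ⟨⟨r, x⟩, hq, h2⟩ := Finset.mem_biUnion.1 h
      obtain ⟨h3, e₁, h4, h5⟩ := Finset.mem_filter.1 hq
      rw [Finset.mem_singleton] at h5
      subst h5
      exact Finset.mem_biUnion.2 ⟨r, (Finset.mem_product.1 h3).1, Finset.mem_biUnion.2
        ⟨x, Finset.mem_filter.2 ⟨Finset.mem_univ _, h4⟩, h2⟩⟩
  refine (Finset.card_le_card h1).trans ((Finset.card_union_le _ _).trans ?_)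
  rw [Finset.card_singleton]
  refine Nat.add_le_add_left (Finset.card_biUnion_le.trans (Finset.sum_le_sum fun r _ => ?_)) 1
  refine Finset.card_biUnion_le.trans ((Finset.sum_le_card_nsmul _ _ r.norm fun x _ => ?_).trans ?_)
  · refine (List.toFinset_card_le _).trans ?_
    rw [length_edges]
    rfl
  · rw [smul_eq_mul, pow_two]
    exact Nat.mul_le_mul_right _ (card_edges_le _ _)

/-- **An explicit bound.** -/
theorem explicit {α : Type*} [Fintype α] [DecidableEq α] (R : Finset (FreeGroup α))
    (hT : TorsRel (R : Set (FreeGroup α))) (N : Subgroup (FreeGroup α)) [hN : N.Normal] (p : ℕ)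
    [Fact p.Prime] (hR : ∀ r ∈ R, r ∈ phi p N) :
    N.FiniteIndex ∧ N.index * Fintype.card α ≤ 1 + rsq R := by
  classical
  have hphi : phi p N ≤ N := by
    refine sup_le (Subgroup.commutator_le_left N N) ?_
    rw [Subgroup.closure_le]
    rintro _ ⟨k, hk, rfl⟩
    exact pow_mem hk p
  have hΓ : ∀ g : FreeGroup α ⧸ Subgroup.normalClosure (R : Set (FreeGroup α)),
      IsOfFinOrder g := by
    intro g
    obtain ⟨w, rfl⟩ := QuotientGroup.mk_surjective g
    obtain ⟨k, hk⟩ := hT w
    refine isOfFinOrder_iff_pow_eq_one.2 ⟨k + 1, Nat.succ_pos _, ?_⟩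
    rw [← QuotientGroup.mk_pow]
    exact (QuotientGroup.eq_one_iff _).2 hk
  have hfp : Group.IsFinitelyPresented
      (FreeGroup α ⧸ Subgroup.normalClosure (R : Set (FreeGroup α))) :=
    inferInstanceAs (Group.IsFinitelyPresented (PresentedGroup (R : Set (FreeGroup α))))
  have hfin : Finite (FreeGroup α ⧸ N) := by
    refine free_group (FreeGroup α ⧸ Subgroup.normalClosure (R : Set (FreeGroup α))) hΓ N
      (Subgroup.normalClosure (R : Set (FreeGroup α))) p
      (Subgroup.normalClosure_le_normal fun r hr => hR r hr)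
      (MonoidHom.id (FreeGroup α ⧸ Subgroup.normalClosure (R : Set (FreeGroup α)))) ?_
    rw [MonoidHom.range_eq_top.2 Function.surjective_id]
    infer_instance
  have hNf : N.FiniteIndex := Subgroup.finiteIndex_of_finite_quotient
  refine ⟨hNf, ?_⟩
  let _ : Fintype (FreeGroup α ⧸ N) := Fintype.ofFinite _
  by_contra hcon
  push Not at hcon
  have hcard : Fintype.card ((FreeGroup α ⧸ N) × α) = N.index * Fintype.card α := by
    rw [Fintype.card_prod, Subgroup.index, Nat.card_eq_fintype_card]
  have hne : 0 < Fintype.card α := by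
    by_contra h
    have : Fintype.card α = 0 := by omega
    rw [this] at hcon
    omega
  obtain ⟨a⟩ := Fintype.card_pos_iff.1 hne
  have htor : ∀ b : FreeGroup α ⧸ N, IsOfFinOrder b := fun b => isOfFinOrder_of_finite b
  let x₀ : FreeGroup α ⧸ N := 1
  let e : (FreeGroup α ⧸ N) × α := (x₀, a)
  obtain ⟨e', he'⟩ : ∃ e' : (FreeGroup α ⧸ N) × α, e' ∉ nbr R {e} := by
    by_contra h
    push Not at h
    have h1 : Fintype.card ((FreeGroup α ⧸ N) × α) ≤ (nbr R {e}).card := by
      rw [← Finset.card_univ]
      exact Finset.card_le_card fun x _ => h x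
    have h2 := card_nbr_single R e
    omega
  have hcl : ∀ c : (FreeGroup α ⧸ N) → α → Multiplicative (ZMod p),
      Closed (R : Set (FreeGroup α)) c := by
    intro c r hr x
    refine (over_phi (over_cval N c) r ?_).2 x
    rw [QuotientGroup.ker_mk']
    exact hR r hr
  have htriv : ∀ w ∈ N, ∀ x : FreeGroup α ⧸ N, w • x = x := by
    intro w hw x
    obtain ⟨x, rfl⟩ := QuotientGroup.mk_surjective x
    change ((w * x : FreeGroup α) : FreeGroup α ⧸ N) = x
    rw [QuotientGroup.mk_mul, (QuotientGroup.eq_one_iff w).2 hw, one_mul]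
  obtain ⟨b, hb⟩ := separated hT (fun r hr x => htriv r (hphi (hR r hr)) x)
    (fun b : Bool => if b then delta p e else delta p e') (fun b => hcl _) (by
      intro r hr x
      by_cases h1 : e ∈ edges r.toWord x
      · refine ⟨false, fun e1 he1 => ?_⟩
        change delta p e' e1.1 e1.2 = 1
        unfold delta
        rw [if_neg]
        intro h2
        apply he'
        refine Finset.mem_union_right _ (Finset.mem_biUnion.2 ⟨(r, x), ?_, ?_⟩)
        · refine Finset.mem_filter.2 ⟨Finset.mem_product.2 ⟨hr, Finset.mem_univ _⟩, e, h1, ?_⟩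
          exact Finset.mem_singleton_self _
        · rw [List.mem_toFinset]
          rw [← h2]
          exact he1
      · refine ⟨true, fun e1 he1 => ?_⟩
        change delta p e e1.1 e1.2 = 1
        unfold delta
        rw [if_neg]
        intro h2
        apply h1
        rw [← h2]
        exact he1) x₀
  have hboth : ∀ e₁ : (FreeGroup α ⧸ N) × α,
      ¬ ∀ w : FreeGroup α, w • x₀ = x₀ → cval (delta p e₁) w x₀ = 1 := by
    intro e₁ h
    obtain ⟨w, hw, h2⟩ := delta_ne (p := p) N e₁ (htor _)
    obtain ⟨v, hv⟩ := QuotientGroup.mk_surjective e₁.1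
    have h3 := h (v⁻¹ * w * v) (htriv _ (hN.conj_mem' w hw v) x₀)
    have hvx : v • x₀ = e₁.1 := by
      rw [← hv]
      change ((v * 1 : FreeGroup α) : FreeGroup α ⧸ N) = v
      rw [mul_one]
    rw [mul_assoc, cval_mul, cval_mul, mul_smul, hvx, htriv w hw, cval_inv,
      inv_smul_eq_iff.2 hvx.symm, mul_comm, mul_assoc, mul_inv_cancel, mul_one] at h3
    exact h2 _ rfl h3
  cases b
  · exact hboth e' hb
  · exact hboth e hb

end Vale.Agent.P192.H121
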