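import Vale.Agent.P192.H121.Depth
import Vale.Agent.P192.H121.Bound

/-!
# P192: an explicit bound for presentations with deep relators
-/

namespace Vale.Agent.P192.H121

open Monoid

theorem deg_comp {α X Y : Type*} [MulAction (FreeGroup α) X] [MulAction (FreeGroup α) Y] {p : ℕ}
    (π : Y → X) (hπ : ∀ (w : FreeGroup α) y, π (w • y) = w • π y) {n : ℕ} {f : X → ZMod p}
    (hf : Deg α n f) : Deg α n (f ∘ π) := by
  induction n generalizing f with
  | zero =>
    have h0 : f = 0 := hf
    rw [h0]
    rfl
  | succ n ih =>
    intro a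
    have : dif (FreeGroup.of a) (f ∘ π) = dif (FreeGroup.of a) f ∘ π := by
      funext y
      simp [dif, hπ]
    rw [this]
    exact ih (hf a)

/-- **The bound for transitive sets.** -/
theorem bound_transitive {α X : Type*} [Fintype α] [DecidableEq α] [MulAction (FreeGroup α) X]
    [MulAction.IsPretransitive (FreeGroup α) X] [Fintype X] [DecidableEq X]
    (R : Finset (FreeGroup α)) (hT : TorsRel (R : Set (FreeGroup α))) (p : ℕ) [Fact p.Prime]
    (t : ℕ) (hX : ∀ f : X → ZMod p, Deg α t f) (hR : ∀ r ∈ R, Depth p (t + 1) r) (x₀ : X) :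
    Fintype.card X * Fintype.card α ≤ 1 + rsq R := by
  by_contra hcon
  push Not at hcon
  have hne : 0 < Fintype.card α := by
    by_contra h
    have : Fintype.card α = 0 := by omega
    rw [this] at hcon
    omega
  obtain ⟨a⟩ := Fintype.card_pos_iff.1 hne
  let e : X × α := (x₀, a)
  obtain ⟨e', he'⟩ : ∃ e' : X × α, e' ∉ nbr R {e} := by
    by_contra h
    push Not at h
    have h1 : Fintype.card (X × α) ≤ (nbr R {e}).card := by
      rw [← Finset.card_univ]
      exact Finset.card_le_card fun x _ => h x
    have h2 := card_nbr_single R e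
    rw [Fintype.card_prod] at h1
    omega
  have htriv : ∀ r ∈ (R : Set (FreeGroup α)), ∀ x : X, r • x = x := by
    intro r hr x
    have h1 : Deg α (t - (t + 1)) (dif r fun y : X => if y = x then (1 : ZMod p) else 0) :=
      deg_dif_depth (hX _) (hR r hr)
    have h2 : t - (t + 1) = 0 := by omega
    rw [h2] at h1
    have h3 := congrFun (show dif r (fun y : X => if y = x then (1 : ZMod p) else 0) = 0 from h1) x
    by_contra h4
    simp [dif, h4] at h3
  have hcl : ∀ c : X → α → Multiplicative (ZMod p), Closed (R : Set (FreeGroup α)) c := by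
    intro c r hr x
    have h1 : Deg α (t - t) (av (fun e : X × α => Multiplicative.toAdd (c e.1 e.2)) r) :=
      deg_av_depth (fun _ => hX _) (hR r hr)
    rw [Nat.sub_self] at h1
    have h3 := congrFun (show av (fun e : X × α => Multiplicative.toAdd (c e.1 e.2)) r = 0
      from h1) x
    exact h3
  obtain ⟨b, hb⟩ := separated hT htriv
    (fun b : Bool => if b then delta p e else delta p e') (fun b => hcl _) (by
      intro r hr x
      by_cases h1 : e ∈ edges r.toWord x
      · refine ⟨false, fun e1 he1 => ?_⟩
        change delta p e' e1.1 e1.2 = 1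
        unfold delta
        rw [if_neg]
        intro h2
        apply he'
        refine Finset.mem_union_right _ (Finset.mem_biUnion.2 ⟨(r, x), ?_, ?_⟩)
        · refine Finset.mem_filter.2 ⟨Finset.mem_product.2 ⟨hr, Finset.mem_univ _⟩, e, h1, ?_⟩
          exact Finset.mem_singleton_self _
        · rw [List.mem_toFinset]
          rw [← h2]
          exact he1
      · refine ⟨true, fun e1 he1 => ?_⟩
        change delta p e e1.1 e1.2 = 1
        unfold delta
        rw [if_neg]
        intro h2
        apply h1
        rw [← h2]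
        exact he1) x₀
  have hboth : ∀ e₁ : X × α,
      ¬ ∀ w : FreeGroup α, w • x₀ = x₀ → cval (delta p e₁) w x₀ = 1 := by
    intro e₁ h
    set k := MulAction.period (FreeGroup.of e₁.2) e₁.1 with hk
    have hpos : 0 < k := by
      obtain ⟨i, j, hij, h1⟩ := Finite.exists_ne_map_eq_of_infinite
        fun n : ℕ => (FreeGroup.of e₁.2) ^ n • e₁.1
      wlog hlt : i < j generalizing i j
      · exact this j i hij.symm h1.symm (by omega)
      refine MulAction.period_pos_of_fixed (n := j - i) (by omega) ?_
      have h2 : (FreeGroup.of e₁.2) ^ j = (FreeGroup.of e₁.2) ^ i * (FreeGroup.of e₁.2) ^ (j - i) := by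
        rw [← pow_add]; congr 1; omega
      change (FreeGroup.of e₁.2) ^ i • e₁.1 = (FreeGroup.of e₁.2) ^ j • e₁.1 at h1
      rw [h2, mul_smul] at h1
      exact (MulAction.injective _ h1).symm
    have h1 : ∀ m, 0 < m → m ≤ k →
        cval (delta p e₁) ((FreeGroup.of e₁.2) ^ m) e₁.1 = Multiplicative.ofAdd 1 := by
      intro m
      induction m with
      | zero => intro h; exact absurd h (lt_irrefl _)
      | succ m ih =>
        intro _ hm
        rw [pow_succ', cval_mul, cval_of]
        rcases Nat.eq_zero_or_pos m with rfl | hm0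
        · rw [pow_zero, one_smul, cval_one, mul_one]
          unfold delta
          rw [if_pos rfl]
        · rw [ih hm0 (by omega)]
          unfold delta
          rw [if_neg, one_mul]
          intro h
          have h2 : (FreeGroup.of e₁.2) ^ m • e₁.1 = e₁.1 := congrArg Prod.fst h
          have h3 := Nat.le_of_dvd hm0 (MulAction.pow_smul_eq_iff_period_dvd.1 h2)
          omega
    have hfix : (FreeGroup.of e₁.2) ^ k • e₁.1 = e₁.1 :=
      MulAction.pow_smul_eq_iff_period_dvd.2 dvd_rfl
    obtain ⟨v, hv⟩ := MulAction.exists_smul_eq (FreeGroup α) x₀ e₁.1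
    have h3 := h (v⁻¹ * (FreeGroup.of e₁.2) ^ k * v) (by
      rw [mul_smul, mul_smul, hv, hfix, ← hv, inv_smul_smul])
    rw [mul_assoc, cval_mul, cval_mul, mul_smul, hv, hfix, cval_inv, ← hv, inv_smul_smul,
      mul_comm, mul_assoc, mul_inv_cancel, mul_one, hv, h1 k hpos le_rfl] at h3
    exact one_ne_zero (Multiplicative.ofAdd.injective h3)
  cases b
  · exact hboth e' hb
  · exact hboth e hb

/-- **The bound for orbits.** -/
theorem bound_orbit {α X : Type*} [Fintype α] [DecidableEq α] [MulAction (FreeGroup α) X]
    [Finite X] (R : Finset (FreeGroup α)) (hT : TorsRel (R : Set (FreeGroup α))) (p : ℕ)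
    [Fact p.Prime] (t : ℕ) (hX : ∀ f : X → ZMod p, Deg α t f) (hR : ∀ r ∈ R, Depth p (t + 1) r)
    (x₀ : X) :
    Nat.card (MulAction.orbit (FreeGroup α) x₀) * Fintype.card α ≤ 1 + rsq R := by
  classical
  let _ : Fintype (MulAction.orbit (FreeGroup α) x₀) := Fintype.ofFinite _
  rw [Nat.card_eq_fintype_card]
  refine bound_transitive (X := MulAction.orbit (FreeGroup α) x₀) R hT p t (fun f => ?_) hR
    ⟨x₀, MulAction.mem_orbit_self x₀⟩
  have h1 : f = (fun x : X => if h : x ∈ MulAction.orbit (FreeGroup α) x₀ then f ⟨x, h⟩ else 0) ∘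
      Subtype.val := by
    funext x
    simp
  rw [h1]
  exact deg_comp Subtype.val (fun _ _ => rfl) (hX _)

end Vale.Agent.P192.H121
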