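import Vale.Agent.P192.H121.Step2

/-!
# P192: chains of subgroups with elementary abelian quotients
-/

namespace Vale.Agent.P192.H121

open Monoid

/-- `H'` is a subgroup of `H`, normal with elementary abelian `p`-quotient. -/
def ElAb {G : Type*} [Group G] (p : ℕ) (H' H : Subgroup G) : Prop :=
  H' ≤ H ∧ (∀ x ∈ H, ∀ y ∈ H, x * y * x⁻¹ * y⁻¹ ∈ H') ∧ ∀ x ∈ H, x ^ p ∈ H'

theorem exists_equiv_aux {V : Type*} [AddCommGroup V] [Finite V] {p : ℕ} [Fact p.Prime]
    [Module (ZMod p) V] :
    ∃ m : ℕ, Nat.card V = p ^ m ∧ Nonempty (V ≃+ (Fin m → ZMod p)) := by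
  have hfin : Module.Finite (ZMod p) V := Module.Finite.of_finite
  let B : Module.Basis (Fin (Module.finrank (ZMod p) V)) (ZMod p) V :=
    Module.finBasis (ZMod p) V
  refine ⟨Module.finrank (ZMod p) V, ?_, ⟨B.equivFun.toAddEquiv⟩⟩
  have := Nat.card_congr B.equivFun.toEquiv
  rw [Nat.card_fun, Nat.card_zmod, Nat.card_fin] at this
  exact this

theorem exists_equiv_of_exponent {Q : Type*} [CommGroup Q] [Finite Q] {p : ℕ} [Fact p.Prime]
    (h : ∀ x : Q, x ^ p = 1) :
    ∃ m : ℕ, Nat.card Q = p ^ m ∧ Nonempty (Q ≃* Multiplicative (Fin m → ZMod p)) := by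
  have hx : ∀ x : Additive Q, p • x = 0 := fun x => congrArg Additive.ofMul (h x.toMul)
  obtain ⟨m, hm, ⟨e⟩⟩ := @exists_equiv_aux (Additive Q) _ _ p _ (AddCommGroup.zmodModule hx)
  refine ⟨m, hm, ⟨?_⟩⟩
  exact { toFun := fun x => Multiplicative.ofAdd (e (Additive.ofMul x))
          invFun := fun v => (e.symm (Multiplicative.toAdd v)).toMul
          left_inv := fun x => by simp
          right_inv := fun v => by simp
          map_mul' := fun x y => by
            rw [← ofAdd_add, ← map_add]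
            rfl }

theorem elAb_hom {G : Type*} [Group G] {p : ℕ} [Fact p.Prime] {H' H : Subgroup G}
    (h : ElAb p H' H) (hi : H'.relIndex H ≠ 0) :
    ∃ (m : ℕ) (l : H →* Multiplicative (Fin m → ZMod p)), p ^ m = H'.relIndex H ∧
      Function.Surjective l ∧ ∀ w : H, l w = 1 ↔ (w : G) ∈ H' := by
  classical
  obtain ⟨-, h2, h3⟩ := h
  have hNmem : ∀ w : H, w ∈ H'.subgroupOf H ↔ (w : G) ∈ H' := fun w => Subgroup.mem_subgroupOf
  have hN : (H'.subgroupOf H).Normal := by
    refine ⟨fun n hn g => ?_⟩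
    rw [hNmem] at hn ⊢
    have h4 := h2 g g.2 n n.2
    have h5 := mul_mem h4 hn
    simpa using h5
  letI : CommGroup (H ⧸ H'.subgroupOf H) := { (inferInstance : Group (H ⧸ H'.subgroupOf H)) with
    mul_comm := by
      intro x y
      induction x using QuotientGroup.induction_on with
      | H x =>
      induction y using QuotientGroup.induction_on with
      | H y =>
      rw [← QuotientGroup.mk_mul, ← QuotientGroup.mk_mul]
      rw [eq_comm, QuotientGroup.eq, hNmem]
      have h4 := h2 (x : G)⁻¹ (inv_mem x.2) (y : G)⁻¹ (inv_mem y.2)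
      simpa [mul_assoc] using h4 }
  have hfi : (H'.subgroupOf H).FiniteIndex := ⟨hi⟩
  have hfin : Finite (H ⧸ H'.subgroupOf H) := Subgroup.finite_quotient_of_finiteIndex
  obtain ⟨m, hm, ⟨e⟩⟩ := exists_equiv_of_exponent (Q := H ⧸ H'.subgroupOf H) (p := p) (by
    intro x
    induction x using QuotientGroup.induction_on with
    | H x =>
    rw [← QuotientGroup.mk_pow, QuotientGroup.eq_one_iff, hNmem]
    simpa using h3 x x.2)
  refine ⟨m, e.toMonoidHom.comp (QuotientGroup.mk' (H'.subgroupOf H)), hm.symm, ?_, ?_⟩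
  · exact e.surjective.comp (QuotientGroup.mk'_surjective _)
  · intro w
    change e (w : H ⧸ H'.subgroupOf H) = 1 ↔ _
    rw [map_eq_one_iff e e.injective, QuotientGroup.eq_one_iff, hNmem]

variable {α X : Type*} [MulAction (FreeGroup α) X]

/-- the cocycle of a homomorphism of the stabiliser -/
theorem exists_coc {M : Type*} [AddCommGroup M] (x₀ : X)
    (ht : ∀ x : X, ∃ w : FreeGroup α, w • x₀ = x)
    (l : MulAction.stabilizer (FreeGroup α) x₀ →* Multiplicative M) :
    ∃ c : X × α → M,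
      (∀ w : MulAction.stabilizer (FreeGroup α) x₀,
        av c (w : FreeGroup α) x₀ = Multiplicative.toAdd (l w)) ∧
      ∀ (w : FreeGroup α) (x : X), w • x = x →
        ∃ (v : FreeGroup α) (hv : v⁻¹ * w * v ∈ MulAction.stabilizer (FreeGroup α) x₀),
          av c w x = Multiplicative.toAdd (l ⟨v⁻¹ * w * v, hv⟩) := by
  choose t ht using ht
  have hmem : ∀ (w : FreeGroup α) (x : X),
      (t (w • x))⁻¹ * w * t x ∈ MulAction.stabilizer (FreeGroup α) x₀ := by
    intro w x
    rw [MulAction.mem_stabilizer_iff, mul_smul, mul_smul, ht, inv_smul_eq_iff, ht]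
  let f : FreeGroup α → X → M := fun w x =>
    Multiplicative.toAdd (l ⟨(t (w • x))⁻¹ * w * t x, hmem w x⟩)
  have hf : ∀ v w x, f (v * w) x = f v (w • x) + f w x := by
    intro v w x
    change _ = Multiplicative.toAdd (l _ * l _)
    rw [← map_mul]
    change Multiplicative.toAdd (l _) = _
    congr 2
    apply Subtype.ext
    change (t ((v * w) • x))⁻¹ * (v * w) * t x =
      ((t (v • w • x))⁻¹ * v * t (w • x)) * ((t (w • x))⁻¹ * w * t x)
    rw [mul_smul]
    group
  let c : X × α → M := fun e => f (FreeGroup.of e.2) e.1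
  have hc : ∀ w x, f w x = av c w x := fun w x => av_unique c f (fun a x => rfl) hf w x
  refine ⟨c, fun w => ?_, fun w x hx => ?_⟩
  · rw [← hc]
    have hw : (w : FreeGroup α) • x₀ = x₀ := w.2
    have ht0 : t x₀ ∈ MulAction.stabilizer (FreeGroup α) x₀ := ht x₀
    have h1 : (⟨(t ((w : FreeGroup α) • x₀))⁻¹ * w * t x₀, hmem w x₀⟩ :
        MulAction.stabilizer (FreeGroup α) x₀) = (⟨t x₀, ht0⟩)⁻¹ * w * ⟨t x₀, ht0⟩ := by
      apply Subtype.ext
      change (t ((w : FreeGroup α) • x₀))⁻¹ * w * t x₀ = (t x₀)⁻¹ * w * t x₀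
      rw [hw]
    change Multiplicative.toAdd (l ⟨(t ((w : FreeGroup α) • x₀))⁻¹ * w * t x₀, hmem w x₀⟩) = _
    congr 1
    rw [h1, map_mul, map_mul, map_inv, mul_comm, ← mul_assoc, mul_inv_cancel, one_mul]
  · refine ⟨t x, ?_, ?_⟩
    · have := hmem w x
      rwa [hx] at this
    · rw [← hc]
      change Multiplicative.toAdd (l _) = _
      congr 2
      apply Subtype.ext
      change (t (w • x))⁻¹ * w * t x = (t x)⁻¹ * w * t x
      rw [hx]

theorem exists_coc_elAb {p : ℕ} [Fact p.Prime] (R : Set (FreeGroup α)) (x₀ : X)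
    (ht : ∀ x : X, ∃ w : FreeGroup α, w • x₀ = x) {H' : Subgroup (FreeGroup α)}
    (hR : Subgroup.normalClosure R ≤ H')
    (h : ElAb p H' (MulAction.stabilizer (FreeGroup α) x₀))
    (hi : H'.relIndex (MulAction.stabilizer (FreeGroup α) x₀) ≠ 0) :
    ∃ (m : ℕ) (c : X × α → Fin m → ZMod p),
      p ^ m = H'.relIndex (MulAction.stabilizer (FreeGroup α) x₀) ∧ AClosed R c ∧ Onto x₀ c ∧
      ∀ w : FreeGroup α, w • x₀ = x₀ → (av c w x₀ = 0 ↔ w ∈ H') := by
  obtain ⟨m, l, h1, h2, h3⟩ := elAb_hom h hi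
  obtain ⟨c, hc1, hc2⟩ := exists_coc x₀ ht l
  refine ⟨m, c, h1, ?_, ?_, ?_⟩
  · intro r hr x
    have hrx : r • x = x := by
      obtain ⟨v, rfl⟩ := ht x
      have h4 : v⁻¹ * r * v ∈ MulAction.stabilizer (FreeGroup α) x₀ := by
        apply h.1
        apply hR
        have := Subgroup.normalClosure_normal.conj_mem r
          (Subgroup.subset_normalClosure hr : r ∈ Subgroup.normalClosure R) v⁻¹
        simpa using this
      have h5 : (v⁻¹ * r * v) • x₀ = x₀ := h4
      rwa [mul_smul, mul_smul, inv_smul_eq_iff] at h5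
    obtain ⟨v, hv, hav⟩ := hc2 r x hrx
    rw [hav]
    have h4 : l ⟨v⁻¹ * r * v, hv⟩ = 1 := by
      rw [h3]
      apply hR
      have := Subgroup.normalClosure_normal.conj_mem r
        (Subgroup.subset_normalClosure hr : r ∈ Subgroup.normalClosure R) v⁻¹
      simpa using this
    rw [h4]; rfl
  · intro v
    obtain ⟨w, hw⟩ := h2 (Multiplicative.ofAdd v)
    exact ⟨w, w.2, by rw [hc1, hw]; rfl⟩
  · intro w hw
    have h4 := hc1 ⟨w, hw⟩
    change av c w x₀ = _ at h4
    rw [h4, ← h3 ⟨w, hw⟩]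
    constructor
    · intro h5
      exact congrArg Multiplicative.ofAdd h5
    · intro h5
      rw [h5]; rfl

end Vale.Agent.P192.H121
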