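import Vale.Agent.P192.H121.Chain

/-!
# P192: induction along chains
-/

namespace Vale.Agent.P192.H121

open Monoid

variable {α : Type} [Fintype α] [DecidableEq α]

/-- A finite transitive set with stabiliser `H` and `u` independent classes supported on few
edges. -/
def State (p : ℕ) (R : Finset (FreeGroup α)) (H : Subgroup (FreeGroup α)) (u : ℕ) (t : ℝ) :
    Prop :=
  ∃ (X : Type) (_ : Fintype X) (_ : MulAction (FreeGroup α) X) (x₀ : X)
    (b : X × α → Fin u → ZMod p) (A : Finset (X × α)),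
    (∀ x : X, ∃ w : FreeGroup α, w • x₀ = x) ∧ (∀ r ∈ R, ∀ x : X, r • x = x) ∧
    MulAction.stabilizer (FreeGroup α) x₀ = H ∧ AClosed (R : Set (FreeGroup α)) b ∧ Onto x₀ b ∧
    (∀ e, e ∉ A → b e = 0) ∧ (A.card : ℝ) ≤ t * Fintype.card X

omit [Fintype α] [DecidableEq α] in
theorem card_eq_index {X : Type} [Fintype X] [MulAction (FreeGroup α) X] {x₀ : X}
    (ht : ∀ x : X, ∃ w : FreeGroup α, w • x₀ = x) :
    (MulAction.stabilizer (FreeGroup α) x₀).index = Fintype.card X := by
  rw [MulAction.index_stabilizer]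
  have : MulAction.orbit (FreeGroup α) x₀ = Set.univ :=
    Set.eq_univ_of_forall fun x => ht x
  rw [this, Set.ncard_univ, Nat.card_eq_fintype_card]

theorem state_step {p : ℕ} [Fact p.Prime] {R : Finset (FreeGroup α)}
    {H H' : Subgroup (FreeGroup α)} {u : ℕ} {t : ℝ} (hS : State p R H u t) (u' m : ℕ)
    (hR : Subgroup.normalClosure (R : Set (FreeGroup α)) ≤ H') (hH : ElAb p H' H)
    (hm : p ^ m = H'.relIndex H)
    (hcount : u' + 1 + u * u + rlen R * (Fintype.card α * H.index) ≤ m * u) :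
    State p R H' u' ((1 - 1 / (p : ℝ) ^ (u' + 1)) * t) := by
  classical
  obtain ⟨X, _, _, x₀, b, A, ht, hX, hst, hb, hbo, hA, hcard⟩ := hS
  have hp : 0 < p := (Fact.out : p.Prime).pos
  have hidx : H.index = Fintype.card X := by rw [← hst]; exact card_eq_index ht
  subst hst
  obtain ⟨m', c, h1, h2, h3, h4⟩ := exists_coc_elAb (R : Set (FreeGroup α)) x₀ ht hR hH
    (by rw [← hm]; positivity)
  have hmm : m' = m := by
    rw [← hm] at h1
    exact Nat.pow_right_injective (Fact.out : p.Prime).two_le h1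
  subst hmm
  have hAX : A.card ≤ Fintype.card α * Fintype.card X := by
    refine (Finset.card_le_univ A).trans ?_
    rw [Fintype.card_prod, mul_comm]
  obtain ⟨b', A', h5, h6, h7, h8⟩ := step R x₀ c h3 b hb hbo A hA u' (by
    rw [Fintype.card_fin, Fintype.card_fin]
    rw [hidx] at hcount
    calc u' + 1 + u * u + rlen R * A.card
        ≤ u' + 1 + u * u + rlen R * (Fintype.card α * Fintype.card X) := by gcongr
      _ ≤ _ := hcount)
  rw [Fintype.card_fin] at h8
  refine ⟨Cov c, inferInstance, inferInstance, ⟨x₀, 0⟩, b', A', ?_, ?_, ?_, h5, h6, h7, ?_⟩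
  · exact cov_transitive c x₀ ht h3 0
  · exact cov_rel c hX h2
  · ext w
    rw [MulAction.mem_stabilizer_iff, cov_stab]
    constructor
    · rintro ⟨h9, h10⟩
      exact (h4 w h9).1 h10
    · intro h9
      have h10 : w • x₀ = x₀ := hH.1 h9
      exact ⟨h10, (h4 w h10).2 h9⟩
  · have hq : (0 : ℝ) < (p : ℝ) ^ (u' + 1) := by positivity
    have hq1 : (1 : ℝ) ≤ (p : ℝ) ^ (u' + 1) := one_le_pow₀ (by exact_mod_cast hp)
    have h9 : (p : ℝ) ^ (u' + 1) * A'.card + A.card * (p : ℝ) ^ m' ≤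
        (p : ℝ) ^ (u' + 1) * (A.card * (p : ℝ) ^ m') := by exact_mod_cast h8
    have h10 : (A'.card : ℝ) ≤ (1 - 1 / (p : ℝ) ^ (u' + 1)) * (A.card * (p : ℝ) ^ m') := by
      rw [← mul_le_mul_iff_right₀ hq]
      have : (p : ℝ) ^ (u' + 1) * ((1 - 1 / (p : ℝ) ^ (u' + 1)) * (A.card * (p : ℝ) ^ m')) =
          (p : ℝ) ^ (u' + 1) * (A.card * (p : ℝ) ^ m') - A.card * (p : ℝ) ^ m' := by
        field_simp
      rw [this]
      linarith
    have h11 : (0 : ℝ) ≤ 1 - 1 / (p : ℝ) ^ (u' + 1) := by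
      rw [sub_nonneg, div_le_one hq]
      exact hq1
    have h12 : (Fintype.card (Cov c) : ℝ) = Fintype.card X * (p : ℝ) ^ m' := by
      rw [card_cov, Fintype.card_fun, ZMod.card, Fintype.card_fin]
      push_cast
      ring
    rw [h12]
    calc (A'.card : ℝ) ≤ (1 - 1 / (p : ℝ) ^ (u' + 1)) * (A.card * (p : ℝ) ^ m') := h10
      _ ≤ (1 - 1 / (p : ℝ) ^ (u' + 1)) * (t * Fintype.card X * (p : ℝ) ^ m') := by gcongr
      _ = _ := by ring

theorem state_init {p : ℕ} [Fact p.Prime] {R : Finset (FreeGroup α)}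
    {H H' : Subgroup (FreeGroup α)} (hfi : H.FiniteIndex) (u m : ℕ)
    (hR : Subgroup.normalClosure (R : Set (FreeGroup α)) ≤ H') (hH : ElAb p H' H)
    (hm : p ^ m = H'.relIndex H) (hu : u ≤ m) :
    State p R H u (Fintype.card α) := by
  classical
  have hp : 0 < p := (Fact.out : p.Prime).pos
  have hfin : Finite (FreeGroup α ⧸ H) := Subgroup.finite_quotient_of_finiteIndex
  letI : Fintype (FreeGroup α ⧸ H) := Fintype.ofFinite _
  let x₀ : FreeGroup α ⧸ H := ((1 : FreeGroup α) : FreeGroup α ⧸ H)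
  have ht : ∀ x : FreeGroup α ⧸ H, ∃ w : FreeGroup α, w • x₀ = x := by
    intro x
    obtain ⟨w, rfl⟩ := QuotientGroup.mk_surjective x
    exact ⟨w, by
      change ((w * 1 : FreeGroup α) : FreeGroup α ⧸ H) = _
      rw [mul_one]⟩
  have hst : MulAction.stabilizer (FreeGroup α) x₀ = H := MulAction.stabilizer_quotient H
  have hH2 : ElAb p H' (MulAction.stabilizer (FreeGroup α) x₀) := by rwa [hst]
  have hm2 : p ^ m = H'.relIndex (MulAction.stabilizer (FreeGroup α) x₀) := by rwa [hst]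
  obtain ⟨m', c, h1, h2, h3, h4⟩ := exists_coc_elAb (R : Set (FreeGroup α)) x₀ ht hR hH2
    (by rw [← hm2]; positivity)
  have hmm : m' = m := by
    rw [← hm2] at h1
    exact Nat.pow_right_injective (Fact.out : p.Prime).two_le h1
  subst hmm
  have hcomp : ∀ w x j, av (fun e (j : Fin u) => c e (Fin.castLE hu j)) w x j =
      av c w x (Fin.castLE hu j) := by
    intro w x j
    rw [av_apply, av_apply]
  refine ⟨FreeGroup α ⧸ H, inferInstance, inferInstance, x₀,
    fun e j => c e (Fin.castLE hu j), Finset.univ, ht, ?_, hst, ?_, ?_, ?_, ?_⟩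
  · intro r hr x
    obtain ⟨v, rfl⟩ := ht x
    rw [← mul_smul, eq_comm, ← inv_smul_eq_iff, ← mul_smul]
    have h5 : v⁻¹ * r * v ∈ MulAction.stabilizer (FreeGroup α) x₀ := by
      rw [hst]
      apply hH.1
      apply hR
      have := Subgroup.normalClosure_normal.conj_mem r
        (Subgroup.subset_normalClosure hr : r ∈ Subgroup.normalClosure
          (R : Set (FreeGroup α))) v⁻¹
      simpa using this
    have h6 := inv_mem h5
    have h7 : (v⁻¹ * r * v)⁻¹ • x₀ = x₀ := h6
    rw [← h7, ← mul_smul]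
    have h8 : ((r * v)⁻¹ * v) * (v⁻¹ * r * v)⁻¹ = ((r * v)⁻¹ * v) * ((r * v)⁻¹ * v) := by
      group
    rw [h8, mul_smul]
    have h9 : ((r * v)⁻¹ * v) • x₀ = x₀ := by
      have : (v⁻¹ * r * v)⁻¹ = (r * v)⁻¹ * v := by group
      rwa [this] at h7
    rw [h9, h9, h7]
  · intro r hr x
    funext j
    rw [hcomp, h2 r hr x]
    rfl
  · intro v
    obtain ⟨w, hw, hwv⟩ := h3 fun k => if h : (k : ℕ) < u then v ⟨k, h⟩ else 0
    refine ⟨w, hw, ?_⟩
    funext j
    rw [hcomp, hwv]
    simp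
  · intro e he
    exact absurd (Finset.mem_univ _) he
  · rw [Finset.card_univ, Fintype.card_prod]
    push_cast
    rw [mul_comm]

theorem state_final {p : ℕ} [Fact p.Prime] {R : Finset (FreeGroup α)}
    (hT : TorsRel (R : Set (FreeGroup α)))
    {H H' : Subgroup (FreeGroup α)} {u : ℕ} {t : ℝ} (hS : State p R H u t) (hu : 0 < u) (m : ℕ)
    (hR : Subgroup.normalClosure (R : Set (FreeGroup α)) ≤ H') (hH : ElAb p H' H)
    (hm : p ^ m = H'.relIndex H)
    (hcount : (1 + (rlen R : ℝ) * rlen R) * (t * H.index) < m) : False := by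
  classical
  obtain ⟨X, _, _, x₀, b, A, ht, hX, hst, hb, hbo, hA, hcard⟩ := hS
  have hp : 0 < p := (Fact.out : p.Prime).pos
  have hidx : H.index = Fintype.card X := by rw [← hst]; exact card_eq_index ht
  subst hst
  obtain ⟨m', c, h1, h2, h3, h4⟩ := exists_coc_elAb (R : Set (FreeGroup α)) x₀ ht hR hH
    (by rw [← hm]; positivity)
  have hmm : m' = m := by
    rw [← hm] at h1
    exact Nat.pow_right_injective (Fact.out : p.Prime).two_le h1
  subst hmm
  let b₀ : X → α → Multiplicative (ZMod p) := fun x a =>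
    Multiplicative.ofAdd (b (x, a) ⟨0, hu⟩)
  have hb₀ : ∀ w x, cval b₀ w x = Multiplicative.ofAdd (av b w x ⟨0, hu⟩) := by
    intro w x
    rw [av_apply]
    rfl
  have h5 := trivial_of_small hT hX x₀ c h2 h3 b₀
    (by
      intro r hr x
      rw [hb₀, hb r hr x]
      rfl) A
    (by
      intro e he
      change Multiplicative.ofAdd (b (e.1, e.2) ⟨0, hu⟩) = 1
      rw [hA e he]
      rfl)
    (by
      rw [Fintype.card_fin]
      have h6 : ((1 + rlen R * rlen R) * A.card : ℝ) < m' := by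
        refine lt_of_le_of_lt ?_ hcount
        rw [hidx]
        gcongr
      exact_mod_cast h6)
  obtain ⟨w, hw, hwv⟩ := hbo (Pi.single ⟨0, hu⟩ 1)
  have h6 := h5 w hw
  rw [hb₀, hwv, Pi.single_eq_same] at h6
  have h7 : (1 : ZMod p) = 0 := congrArg Multiplicative.toAdd h6
  exact one_ne_zero h7

end Vale.Agent.P192.H121
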