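import Vale.Agent.P192.H121.Chain2

/-!
# P192: no rapid descent
-/

namespace Vale.Agent.P192.H121

open Monoid Filter

variable {α : Type} [Fintype α] [DecidableEq α]

omit [Fintype α] in
theorem State.mono {p : ℕ} {R : Finset (FreeGroup α)} {H : Subgroup (FreeGroup α)} {u : ℕ}
    {t t' : ℝ} (h : State p R H u t) (htt : t ≤ t') : State p R H u t' := by
  obtain ⟨X, i1, i2, x₀, b, A, h1, h2, h3, h4, h5, h6, h7⟩ := h
  refine ⟨X, i1, i2, x₀, b, A, h1, h2, h3, h4, h5, h6, h7.trans ?_⟩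
  gcongr

/-- the number of classes which are kept at level `i` -/
noncomputable def num (p i : ℕ) : ℕ := ⌈Real.log (i + 2) / (2 * Real.log p)⌉₊

theorem log_p_pos {p : ℕ} (hp : p.Prime) : 0 < Real.log p :=
  Real.log_pos (by exact_mod_cast hp.one_lt)

theorem log_i_pos (i : ℕ) : 0 < Real.log ((i : ℝ) + 2) :=
  Real.log_pos (by linarith [(Nat.cast_nonneg i : (0 : ℝ) ≤ i)])

theorem num_pos {p : ℕ} (hp : p.Prime) (i : ℕ) : 0 < num p i :=
  Nat.ceil_pos.2 (div_pos (log_i_pos i) (by linarith [log_p_pos hp]))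

theorem num_lower {p : ℕ} (hp : p.Prime) (a : ℝ) (ha : 0 < a) (i : ℕ) :
    a ≤ num p i * (2 * a * Real.log p / Real.log (i + 2)) := by
  have h1 := log_p_pos hp
  have h2 := log_i_pos i
  have h3 : Real.log (i + 2) / (2 * Real.log p) ≤ num p i := Nat.le_ceil _
  have h4 : a = Real.log (i + 2) / (2 * Real.log p) * (2 * a * Real.log p / Real.log (i + 2)) := by
    field_simp
  conv_lhs => rw [h4]
  gcongr

theorem num_upper {p : ℕ} (hp : p.Prime) (i : ℕ) : (num p i : ℝ) ≤ i + 2 := by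
  have h1 := log_p_pos hp
  have h2 := log_i_pos i
  have h3 : (num p i : ℝ) < Real.log (i + 2) / (2 * Real.log p) + 1 :=
    Nat.ceil_lt_add_one (by positivity)
  have h4 : Real.log ((i : ℝ) + 2) ≤ i + 1 := by
    have := Real.log_le_sub_one_of_pos (show (0 : ℝ) < (i : ℝ) + 2 by positivity)
    linarith
  have h5 : (1 : ℝ) ≤ 2 * Real.log p := by
    have h6 : Real.log 2 ≤ Real.log p := Real.log_le_log (by norm_num)
      (by exact_mod_cast hp.two_le)
    have h7 := Real.log_two_gt_d9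
    linarith
  have h6 : Real.log ((i : ℝ) + 2) / (2 * Real.log p) ≤ i + 1 := by
    rw [div_le_iff₀ (by linarith)]
    nlinarith [(Nat.cast_nonneg i : (0 : ℝ) ≤ i)]
  linarith

theorem pow_num {p : ℕ} (hp : p.Prime) (i : ℕ) :
    (p : ℝ) ^ (num p i + 1) ≤ p ^ 2 * Real.sqrt (i + 2) := by
  have h1 := log_p_pos hp
  have h2 := log_i_pos i
  have hp0 : (0 : ℝ) < p := by exact_mod_cast hp.pos
  have h3 : (num p i : ℝ) < Real.log (i + 2) / (2 * Real.log p) + 1 :=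
    Nat.ceil_lt_add_one (by positivity)
  have h4 : (p : ℝ) ^ (num p i + 1) = Real.exp (Real.log p * (num p i + 1)) := by
    rw [← Real.rpow_natCast, Real.rpow_def_of_pos hp0]
    push_cast
    ring_nf
  have h5 : (p : ℝ) ^ 2 = Real.exp (Real.log p * 2) := by
    rw [← Real.rpow_natCast, Real.rpow_def_of_pos hp0]
    norm_num
  have h6 : Real.sqrt ((i : ℝ) + 2) = Real.exp (Real.log (i + 2) / 2) := by
    rw [Real.sqrt_eq_rpow, Real.rpow_def_of_pos (by positivity)]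
    ring_nf
  rw [h4, h5, h6, ← Real.exp_add]
  apply Real.exp_le_exp.2
  have h7 : Real.log p * (num p i + 1) ≤
      Real.log p * (Real.log (i + 2) / (2 * Real.log p) + 1 + 1) := by
    gcongr
  have h8 : Real.log p * (Real.log ((i : ℝ) + 2) / (2 * Real.log p) + 1 + 1) =
      Real.log p * 2 + Real.log (i + 2) / 2 := by
    field_simp
    ring
  linarith

/-- the final level -/
theorem exists_level (p : ℕ) (hp : p.Prime) (C K : ℝ) (hK : 0 < K) (hC : 0 ≤ C) (i₀ : ℕ) :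
    ∃ J : ℕ, C * (1 - 1 / (p ^ 2 * Real.sqrt (i₀ + J + 2))) ^ J *
      Real.log ((i₀ + J : ℕ) + 2) < K := by
  have hp0 : (0 : ℝ) < p := by exact_mod_cast hp.pos
  have hp1 : (1 : ℝ) < p := by exact_mod_cast hp.one_lt
  -- compare with `y ^ 2 * exp (-y)`
  have hlim := Real.tendsto_pow_mul_exp_neg_atTop_nhds_zero 2
  let c : ℝ := 1 / (2 * p ^ 2)
  have hc : 0 < c := by positivity
  have hy : Tendsto (fun J : ℕ => c * Real.sqrt J) atTop atTop :=
    Tendsto.const_mul_atTop hc (Real.tendsto_sqrt_atTop.comp tendsto_natCast_atTop_atTop)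
  have hlim2 := hlim.comp hy
  have hlim3 : Tendsto (fun J : ℕ => (C * (2 / c ^ 2) + 1) *
      ((c * Real.sqrt J) ^ 2 * Real.exp (-(c * Real.sqrt J)))) atTop (nhds 0) := by
    have := hlim2.const_mul (C * (2 / c ^ 2) + 1)
    simpa using this
  have hev := (hlim3.eventually (gt_mem_nhds hK)).and (eventually_ge_atTop (i₀ + 2))
  obtain ⟨J, hJ, hJi⟩ := hev.exists
  refine ⟨J, lt_of_le_of_lt ?_ hJ⟩
  have hJ0 : (0 : ℝ) < J := by
    have : 0 < J := by omega
    exact_mod_cast this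
  have hJi' : (i₀ : ℝ) + 2 ≤ J := by exact_mod_cast hJi
  have hsq : Real.sqrt ((i₀ : ℝ) + J + 2) ≤ 2 * Real.sqrt J := by
    rw [Real.sqrt_le_left (by positivity)]
    rw [mul_pow, Real.sq_sqrt hJ0.le]
    linarith
  have hs0 : 0 < Real.sqrt ((i₀ : ℝ) + J + 2) := Real.sqrt_pos.2 (by positivity)
  have hs1 : 1 ≤ Real.sqrt ((i₀ : ℝ) + J + 2) := by
    rw [Real.one_le_sqrt]
    linarith [(Nat.cast_nonneg i₀ : (0 : ℝ) ≤ i₀)]
  have hx1 : 1 / (p ^ 2 * Real.sqrt ((i₀ : ℝ) + J + 2)) ≤ 1 := by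
    rw [div_le_one (by positivity)]
    have : (1 : ℝ) ≤ p ^ 2 := one_le_pow₀ hp1.le
    nlinarith
  have hx2 : c * Real.sqrt J ≤ J * (1 / (p ^ 2 * Real.sqrt ((i₀ : ℝ) + J + 2))) := by
    have h1 : J * (1 / (p ^ 2 * (2 * Real.sqrt J))) ≤
        J * (1 / (p ^ 2 * Real.sqrt ((i₀ : ℝ) + J + 2))) := by
      gcongr
    have h2 : J * (1 / (p ^ 2 * (2 * Real.sqrt J))) = c * Real.sqrt J := by
      have h3 : (J : ℝ) = Real.sqrt J * Real.sqrt J := (Real.mul_self_sqrt hJ0.le).symm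
      have h4 : 0 < Real.sqrt J := Real.sqrt_pos.2 hJ0
      simp only [c]
      field_simp
      nlinarith
    linarith
  have hpow : (1 - 1 / (p ^ 2 * Real.sqrt ((i₀ : ℝ) + J + 2))) ^ J ≤
      Real.exp (-(c * Real.sqrt J)) := by
    have h1 : 1 - 1 / (p ^ 2 * Real.sqrt ((i₀ : ℝ) + J + 2)) ≤
        Real.exp (-(1 / (p ^ 2 * Real.sqrt ((i₀ : ℝ) + J + 2)))) :=
      Real.one_sub_le_exp_neg _
    calc _ ≤ (Real.exp (-(1 / (p ^ 2 * Real.sqrt ((i₀ : ℝ) + J + 2))))) ^ J := by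
          have : 0 ≤ 1 - 1 / (p ^ 2 * Real.sqrt ((i₀ : ℝ) + J + 2)) := by linarith
          gcongr
      _ = Real.exp (J * (-(1 / (p ^ 2 * Real.sqrt ((i₀ : ℝ) + J + 2))))) :=
          (Real.exp_nat_mul _ _).symm
      _ ≤ _ := by
          apply Real.exp_le_exp.2
          linarith
  have hlog : Real.log (((i₀ + J : ℕ) : ℝ) + 2) ≤ 2 / c ^ 2 * (c * Real.sqrt J) ^ 2 := by
    have h1 : 2 / c ^ 2 * (c * Real.sqrt J) ^ 2 = 2 * J := by
      rw [mul_pow, Real.sq_sqrt hJ0.le]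
      field_simp
    rw [h1]
    have h2 := Real.log_le_sub_one_of_pos (show (0 : ℝ) < ((i₀ + J : ℕ) : ℝ) + 2 by positivity)
    push_cast at h2 ⊢
    linarith
  have hlog0 : 0 ≤ Real.log (((i₀ + J : ℕ) : ℝ) + 2) := (log_i_pos _).le
  have hexp0 := (Real.exp_pos (-(c * Real.sqrt J))).le
  calc C * (1 - 1 / (p ^ 2 * Real.sqrt ((i₀ : ℝ) + J + 2))) ^ J *
        Real.log (((i₀ + J : ℕ) : ℝ) + 2)
      ≤ C * Real.exp (-(c * Real.sqrt J)) * (2 / c ^ 2 * (c * Real.sqrt J) ^ 2) := by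
        gcongr
    _ = (C * (2 / c ^ 2)) * ((c * Real.sqrt J) ^ 2 * Real.exp (-(c * Real.sqrt J))) := by ring
    _ ≤ _ := by
        have : 0 ≤ (c * Real.sqrt J) ^ 2 * Real.exp (-(c * Real.sqrt J)) := by positivity
        nlinarith

end Vale.Agent.P192.H121
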