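import Vale.Agent.P192.H121.Chain3

/-!
# P192: no rapid descent, for subgroups of free groups
-/

namespace Vale.Agent.P192.H121

open Monoid Filter

variable {α : Type} [Fintype α] [DecidableEq α]

theorem exists_pow_relIndex {G : Type*} [Group G] {p : ℕ} [Fact p.Prime] {H' H : Subgroup G}
    (h : ElAb p H' H) (hi : H'.relIndex H ≠ 0) : ∃ m : ℕ, p ^ m = H'.relIndex H := by
  obtain ⟨m, -, h1, -⟩ := elAb_hom h hi
  exact ⟨m, h1⟩

theorem chainF {R : Finset (FreeGroup α)} (hT : TorsRel (R : Set (FreeGroup α))) (p : ℕ)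
    [Fact p.Prime] : ∃ K : ℝ, 0 < K ∧ ∀ i₁ : ℕ, ∃ k : ℕ, ∀ H : ℕ → Subgroup (FreeGroup α),
      (∀ i ≤ k, Subgroup.normalClosure (R : Set (FreeGroup α)) ≤ H i) →
      (H i₁).FiniteIndex →
      (∀ i, i₁ ≤ i → i < k → ElAb p (H (i + 1)) (H i) ∧
        (p : ℝ) ^ (K * (H i).index / Real.log (i + 2)) ≤ (H (i + 1)).relIndex (H i)) → False := by
  have hp : p.Prime := Fact.out
  have hp0 : (0 : ℝ) < p := by exact_mod_cast hp.pos
  have hp1 : (1 : ℝ) < p := by exact_mod_cast hp.one_lt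
  have hlogp := log_p_pos hp
  set L := rlen R with hL
  set d := Fintype.card α with hd
  let a : ℝ := L * d + 1
  have ha : 0 < a := by positivity
  refine ⟨2 * a * Real.log p, by positivity, fun i₁ => ?_⟩
  -- the level from which on the indices are large
  obtain ⟨i₀, hi₀, hgrow⟩ : ∃ i₀ : ℕ, i₁ ≤ i₀ ∧ ∀ i ≥ i₀,
      (i : ℝ) + 3 + 1 + (i + 2) ^ 2 ≤ 2 ^ (i - i₁) := by
    have h1 : Tendsto (fun n : ℕ => (n : ℝ) ^ 2 / 2 ^ n) atTop (nhds 0) := by
      simpa using tendsto_pow_const_div_const_pow_of_one_lt 2 (one_lt_two : (1 : ℝ) < 2)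
    have h2 := h1.eventually (gt_mem_nhds (show (0 : ℝ) < 1 / (4 * 2 ^ i₁) by positivity))
    obtain ⟨N, hN⟩ := eventually_atTop.1 (h2.and (eventually_ge_atTop (i₁ + 6)))
    refine ⟨max N (i₁ + 6), by omega, fun i hi => ?_⟩
    obtain ⟨h3, h4⟩ := hN i (le_trans (le_max_left _ _) hi)
    rw [div_lt_iff₀ (by positivity)] at h3
    have h5 : (2 : ℝ) ^ i = 2 ^ (i - i₁) * 2 ^ i₁ := by
      rw [← pow_add]
      congr 1
      omega
    have h6 : 1 / (4 * 2 ^ i₁) * (2 : ℝ) ^ i = 2 ^ (i - i₁) / 4 := by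
      rw [h5]
      field_simp
    rw [h6] at h3
    have h7 : (6 : ℝ) ≤ i := by
      have : 6 ≤ i := by omega
      exact_mod_cast this
    nlinarith
  obtain ⟨J, hJ⟩ := exists_level p hp ((1 + (L : ℝ) * L) * d) (2 * a * Real.log p)
    (by positivity) (by positivity) i₀
  refine ⟨i₀ + J + 1, fun H hR hfi hH => ?_⟩
  -- ranks
  have hrank : ∀ i, i₁ ≤ i → i < i₀ + J + 1 → ∃ m : ℕ, p ^ m = (H (i + 1)).relIndex (H i) ∧
      2 * a * Real.log p * (H i).index / Real.log (i + 2) ≤ m := by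
    intro i h1 h2
    obtain ⟨h3, h4⟩ := hH i h1 h2
    have h5 : (H (i + 1)).relIndex (H i) ≠ 0 := by
      intro h6
      rw [h6, Nat.cast_zero] at h4
      exact absurd h4 (not_le.2 (Real.rpow_pos_of_pos hp0 _))
    obtain ⟨m, hm⟩ := exists_pow_relIndex h3 h5
    refine ⟨m, hm, ?_⟩
    rw [← hm, Nat.cast_pow, ← Real.rpow_natCast (p : ℝ) m] at h4
    exact (Real.rpow_le_rpow_left_iff hp1).1 h4
  -- indices
  have hidx : ∀ j, i₁ + j ≤ i₀ + J + 1 → 2 ^ j ≤ (H (i₁ + j)).index := by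
    intro j
    induction j with
    | zero =>
      intro _
      rw [pow_zero, add_zero]
      exact Nat.one_le_iff_ne_zero.2 hfi.index_ne_zero
    | succ j ih =>
      intro hj
      have h1 := ih (by omega)
      obtain ⟨m, hm, hmm⟩ := hrank (i₁ + j) (by omega) (by omega)
      have h2 : 0 < m := by
        have h3 : (0 : ℝ) < (H (i₁ + j)).index := by
          have : 0 < (H (i₁ + j)).index := lt_of_lt_of_le (by positivity) h1
          exact_mod_cast this
        have h4 := log_i_pos (i₁ + j)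
        have h5 : (0 : ℝ) < 2 * a * Real.log p * (H (i₁ + j)).index /
            Real.log ((i₁ + j : ℕ) + 2) := by positivity
        have h6 := h5.trans_le hmm
        exact_mod_cast h6
      have h3 := Subgroup.relIndex_mul_index (hH (i₁ + j) (by omega) (by omega)).1.1
      have h4 : 2 ≤ p ^ m := le_trans hp.two_le (by
        calc p = p ^ 1 := (pow_one p).symm
          _ ≤ p ^ m := Nat.pow_le_pow_right hp.pos h2)
      rw [← add_assoc, ← h3, ← hm, pow_succ, mul_comm (2 ^ j) 2]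
      exact Nat.mul_le_mul h4 h1
  have hidx2 : ∀ i, i₁ ≤ i → i ≤ i₀ + J + 1 → 2 ^ (i - i₁) ≤ (H i).index := by
    intro i h1 h2
    have := hidx (i - i₁) (by omega)
    rwa [Nat.add_sub_cancel' h1] at this
  have hfin : ∀ i, i₁ ≤ i → i ≤ i₀ + J + 1 → (H i).FiniteIndex := by
    intro i h1 h2
    have h3 := hidx2 i h1 h2
    have h4 : 0 < 2 ^ (i - i₁) := by positivity
    exact ⟨by omega⟩
  -- the count
  have hcount : ∀ i, i₀ ≤ i → i < i₀ + J + 1 → ∀ m : ℕ,
      2 * a * Real.log p * (H i).index / Real.log (i + 2) ≤ m →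
      num p (i + 1) + 1 + num p i * num p i + rlen R * (Fintype.card α * (H i).index) ≤
        m * num p i := by
    intro i h1 h2 m hm
    have h3 := num_lower hp a ha i
    have h4 := num_upper hp i
    have h5 := num_upper hp (i + 1)
    have h6 := hgrow i h1
    have h7 : (2 : ℝ) ^ (i - i₁) ≤ (H i).index := by
      exact_mod_cast hidx2 i (by omega) (by omega)
    have h8 : a * (H i).index ≤ m * num p i := by
      calc a * (H i).index ≤
          (num p i * (2 * a * Real.log p / Real.log (i + 2))) * (H i).index := by gcongr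
        _ = (2 * a * Real.log p * (H i).index / Real.log (i + 2)) * num p i := by ring
        _ ≤ _ := by gcongr
    have h9 : (num p (i + 1) : ℝ) + 1 + num p i * num p i ≤ (H i).index := by
      refine le_trans ?_ h7
      refine le_trans ?_ h6
      have h10 : (num p i : ℝ) * num p i ≤ (i + 2) ^ 2 := by
        rw [sq]
        gcongr
      push_cast at h5
      linarith
    have h11 : ((num p (i + 1) + 1 + num p i * num p i +
        rlen R * (Fintype.card α * (H i).index) : ℕ) : ℝ) ≤ ((m * num p i : ℕ) : ℝ) := by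
      push_cast
      refine le_trans ?_ h8
      simp only [a]
      rw [← hL, ← hd]
      nlinarith
    exact_mod_cast h11
  -- the induction
  set θ : ℝ := 1 - 1 / (p ^ 2 * Real.sqrt (i₀ + J + 2)) with hθ
  have hsq1 : 1 ≤ Real.sqrt ((i₀ : ℝ) + J + 2) := by
    rw [Real.one_le_sqrt]
    linarith [(Nat.cast_nonneg i₀ : (0 : ℝ) ≤ i₀), (Nat.cast_nonneg J : (0 : ℝ) ≤ J)]
  have hθ0 : 0 ≤ θ := by
    rw [hθ, sub_nonneg, div_le_one (by positivity)]
    have : (1 : ℝ) ≤ p ^ 2 := one_le_pow₀ hp1.le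
    nlinarith
  have hstate : ∀ j, j ≤ J → State p R (H (i₀ + j)) (num p (i₀ + j)) (d * θ ^ j) := by
    intro j
    induction j with
    | zero =>
      intro _
      obtain ⟨m, hm, hmm⟩ := hrank i₀ hi₀ (by omega)
      have h1 := hcount i₀ le_rfl (by omega) m hmm
      have h2 : num p i₀ ≤ m := by
        have h3 : num p i₀ * num p i₀ ≤ m * num p i₀ := by omega
        exact Nat.le_of_mul_le_mul_right h3 (num_pos hp i₀)
      have h3 := state_init (R := R) (hfin i₀ hi₀ (by omega)) (num p i₀) m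
        (hR (i₀ + 1) (by omega)) (hH i₀ hi₀ (by omega)).1 hm h2
      simpa using h3
    | succ j ih =>
      intro hj
      have h0 := ih (by omega)
      obtain ⟨m, hm, hmm⟩ := hrank (i₀ + j) (by omega) (by omega)
      have h1 := hcount (i₀ + j) (by omega) (by omega) m hmm
      have h2 := state_step h0 (num p (i₀ + j + 1)) m (hR (i₀ + j + 1) (by omega))
        (hH (i₀ + j) (by omega) (by omega)).1 hm h1
      refine h2.mono ?_
      have h3 := pow_num hp (i₀ + j + 1)
      have h4 : Real.sqrt (((i₀ + j + 1 : ℕ) : ℝ) + 2) ≤ Real.sqrt ((i₀ : ℝ) + J + 2) := by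
        apply Real.sqrt_le_sqrt
        have : (((i₀ + j + 1 : ℕ) : ℝ)) ≤ (i₀ : ℝ) + J := by
          exact_mod_cast (by omega : i₀ + j + 1 ≤ i₀ + J)
        linarith
      have h5 : (p : ℝ) ^ (num p (i₀ + j + 1) + 1) ≤ p ^ 2 * Real.sqrt ((i₀ : ℝ) + J + 2) :=
        h3.trans (by gcongr)
      have h6 : 1 - 1 / (p : ℝ) ^ (num p (i₀ + j + 1) + 1) ≤ θ := by
        rw [hθ]
        gcongr
      calc (1 - 1 / (p : ℝ) ^ (num p (i₀ + j + 1) + 1)) * (d * θ ^ j)
          ≤ θ * (d * θ ^ j) := by gcongr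
        _ = d * θ ^ (j + 1) := by ring
  -- the end
  obtain ⟨m, hm, hmm⟩ := hrank (i₀ + J) (by omega) (by omega)
  refine state_final hT (hstate J le_rfl) (num_pos hp _) m (hR (i₀ + J + 1) (by omega))
    (hH (i₀ + J) (by omega) (by omega)).1 hm ?_
  have hlog := log_i_pos (i₀ + J)
  have hind : (0 : ℝ) < (H (i₀ + J)).index := by
    have h3 := hidx2 (i₀ + J) (by omega) (by omega)
    have h4 : 0 < 2 ^ (i₀ + J - i₁) := by positivity
    exact_mod_cast lt_of_lt_of_le h4 h3
  refine lt_of_lt_of_le ?_ hmm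
  rw [lt_div_iff₀ hlog]
  calc (1 + (rlen R : ℝ) * rlen R) * (d * θ ^ J * (H (i₀ + J)).index) *
        Real.log ((i₀ + J : ℕ) + 2)
      = ((1 + (L : ℝ) * L) * d * θ ^ J * Real.log ((i₀ + J : ℕ) + 2)) *
          (H (i₀ + J)).index := by rw [← hL]; ring
    _ < 2 * a * Real.log p * (H (i₀ + J)).index := by gcongr

end Vale.Agent.P192.H121
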