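import Vale.Agent.P192.H121.FreeProd

/-!
# P192: cocycles over actions of free groups, and the separation theorem
-/

namespace Vale.Agent.P192.H121

open Monoid

variable {α X : Type*} [MulAction (FreeGroup α) X]

section general

variable {A : Type*} [Group A]

/-- the permutation of `X × A` given by a generator and a cochain -/
def stepPerm (c : X → α → A) (a : α) : Equiv.Perm (X × A) where
  toFun p := (FreeGroup.of a • p.1, c p.1 a * p.2)
  invFun p := ((FreeGroup.of a)⁻¹ • p.1, (c ((FreeGroup.of a)⁻¹ • p.1) a)⁻¹ * p.2)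
  left_inv p := by simp
  right_inv p := by simp

/-- the skew product action -/
def skew (c : X → α → A) : FreeGroup α →* Equiv.Perm (X × A) := FreeGroup.lift (stepPerm c)

/-- the value of a cochain on a word -/
def cval (c : X → α → A) (w : FreeGroup α) (x : X) : A := (skew c w (x, 1)).2

theorem skew_of (c : X → α → A) (a : α) (p : X × A) :
    skew c (FreeGroup.of a) p = (FreeGroup.of a • p.1, c p.1 a * p.2) := by
  simp [skew, stepPerm]

theorem skew_inv_of (c : X → α → A) (a : α) (p : X × A) :
    skew c (FreeGroup.of a)⁻¹ p =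
      ((FreeGroup.of a)⁻¹ • p.1, (c ((FreeGroup.of a)⁻¹ • p.1) a)⁻¹ * p.2) := by
  rw [map_inv, Equiv.Perm.inv_eq_iff_eq, skew_of]
  simp

theorem skew_aux (c : X → α → A) (w : FreeGroup α) : ∀ p : X × A,
    skew c w p = (w • p.1, cval c w p.1 * p.2) := by
  induction w using FreeGroup.induction_on with
  | C1 => intro p; simp [cval]
  | of a => intro p; simp [cval, skew_of]
  | inv_of a _ =>
    intro p
    unfold cval
    rw [skew_inv_of, skew_inv_of, mul_one]
  | mul v w hv hw =>
    intro p
    have h : cval c (v * w) p.1 = cval c v (w • p.1) * cval c w p.1 := by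
      unfold cval
      rw [map_mul, Equiv.Perm.mul_apply, hw, hv]
      simp [cval]
    rw [map_mul, Equiv.Perm.mul_apply, hw, hv, h, mul_smul, mul_assoc]

theorem skew_apply (c : X → α → A) (w : FreeGroup α) (p : X × A) :
    skew c w p = (w • p.1, cval c w p.1 * p.2) := skew_aux c w p

theorem cval_mul (c : X → α → A) (v w : FreeGroup α) (x : X) :
    cval c (v * w) x = cval c v (w • x) * cval c w x := by
  have h := skew_apply c (v * w) (x, 1)
  rw [map_mul, Equiv.Perm.mul_apply, skew_apply, skew_apply] at h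
  have := congrArg Prod.snd h
  simpa using this.symm

theorem cval_one (c : X → α → A) (x : X) : cval c 1 x = 1 := by
  simp [cval]

theorem cval_of (c : X → α → A) (a : α) (x : X) : cval c (FreeGroup.of a) x = c x a := by
  simp [cval, skew_of]

theorem cval_inv (c : X → α → A) (w : FreeGroup α) (x : X) :
    cval c w⁻¹ x = (cval c w (w⁻¹ • x))⁻¹ := by
  have h := cval_mul c w w⁻¹ x
  rw [mul_inv_cancel, cval_one] at h
  exact (eq_inv_of_mul_eq_one_right h.symm)

/-- values on words are determined by the cocycle rule -/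
theorem cval_unique (c : X → α → A) (f : FreeGroup α → X → A)
    (hof : ∀ a x, f (FreeGroup.of a) x = c x a)
    (hmul : ∀ v w x, f (v * w) x = f v (w • x) * f w x) (w : FreeGroup α) (x : X) :
    f w x = cval c w x := by
  have h1 : ∀ x, f 1 x = 1 := by
    intro x
    have := hmul 1 1 x
    rw [mul_one, one_smul] at this
    exact left_eq_mul.1 this
  induction w using FreeGroup.induction_on generalizing x with
  | C1 => rw [h1, cval_one]
  | of a => rw [hof, cval_of]
  | inv_of a _ =>
    rw [cval_inv, cval_of]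
    have := hmul (FreeGroup.of a) (FreeGroup.of a)⁻¹ x
    rw [mul_inv_cancel, h1, hof] at this
    exact (eq_inv_of_mul_eq_one_right this.symm)
  | mul v w hv hw => rw [hmul, cval_mul, hv, hw]

theorem cval_map {B : Type*} [Group B] (φ : A →* B) (c : X → α → A) (w : FreeGroup α) (x : X) :
    φ (cval c w x) = cval (fun x a => φ (c x a)) w x :=
  cval_unique (fun x a => φ (c x a)) (fun w x => φ (cval c w x))
    (fun a x => by simp [cval_of]) (fun v w x => by simp [cval_mul]) w x

theorem cval_comp {Y : Type*} [MulAction (FreeGroup α) Y] (π : Y → X)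
    (hπ : ∀ (w : FreeGroup α) y, π (w • y) = w • π y) (c : X → α → A) (w : FreeGroup α) (y : Y) :
    cval (fun y a => c (π y) a) w y = cval c w (π y) :=
  (cval_unique (fun y a => c (π y) a) (fun w y => cval c w (π y))
    (fun a x => by simp [cval_of]) (fun v w x => by simp [cval_mul, hπ]) w y).symm

theorem cval_pow (c : X → α → A) (w : FreeGroup α) (x : X) (hx : w • x = x) (k : ℕ) :
    cval c (w ^ k) x = cval c w x ^ k := by
  induction k with
  | zero => simp [cval_one]
  | succ k ih => rw [pow_succ, pow_succ, cval_mul, hx, ih]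

/-- the edge read by a letter which acts at `y` -/
def edge (p : α × Bool) (y : X) : X × α :=
  (if p.2 then y else (FreeGroup.of p.1)⁻¹ • y, p.1)

/-- the edges read by a word which acts at `x` -/
def edges : List (α × Bool) → X → List (X × α)
  | [], _ => []
  | p :: t, x => edge p (FreeGroup.mk t • x) :: edges t x

theorem mk_cons (p : α × Bool) (t : List (α × Bool)) :
    FreeGroup.mk (p :: t) = FreeGroup.mk [p] * FreeGroup.mk t := by
  rw [FreeGroup.mul_mk]; rfl

theorem cval_letter (c : X → α → A) (p : α × Bool) (y : X) :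
    cval c (FreeGroup.mk [p]) y =
      if p.2 then c (edge p y).1 (edge p y).2 else (c (edge p y).1 (edge p y).2)⁻¹ := by
  rcases p with ⟨a, b⟩
  cases b with
  | true => exact cval_of c a y
  | false =>
    have h : FreeGroup.mk [(a, false)] = (FreeGroup.of a)⁻¹ := rfl
    rw [h, cval_inv, cval_of]
    rfl

theorem cval_congr (c c' : X → α → A) (l : List (α × Bool)) (x : X)
    (h : ∀ e ∈ edges l x, c e.1 e.2 = c' e.1 e.2) :
    cval c (FreeGroup.mk l) x = cval c' (FreeGroup.mk l) x := by
  induction l with
  | nil => rw [← FreeGroup.one_eq_mk, cval_one, cval_one]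
  | cons p t ih =>
    rw [mk_cons, cval_mul, cval_mul, cval_letter, cval_letter,
      ih fun e he => h e (List.mem_cons_of_mem _ he),
      h _ (List.mem_cons_self)]

theorem cval_trivial (l : FreeGroup α) (x : X) :
    cval (fun (_ : X) (_ : α) => (1 : A)) l x = 1 :=
  (cval_unique (fun (_ : X) (_ : α) => (1 : A)) (fun _ _ => 1) (fun _ _ => rfl)
    (fun _ _ _ => (mul_one 1).symm) l x).symm

theorem cval_eq_one (c : X → α → A) (l : List (α × Bool)) (x : X)
    (h : ∀ e ∈ edges l x, c e.1 e.2 = 1) : cval c (FreeGroup.mk l) x = 1 := by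
  rw [cval_congr c (fun _ _ => 1) l x h, cval_trivial]

end general

theorem edges_map {Y : Type*} [MulAction (FreeGroup α) Y] (π : Y → X)
    (hπ : ∀ (w : FreeGroup α) y, π (w • y) = w • π y) (l : List (α × Bool)) (y : Y) :
    edges l (π y) = (edges l y).map fun e => (π e.1, e.2) := by
  induction l with
  | nil => rfl
  | cons p t ih =>
    have h1 : edge p (FreeGroup.mk t • π y) =
        (π (edge p (FreeGroup.mk t • y)).1, (edge p (FreeGroup.mk t • y)).2) := by
      rcases p with ⟨a, b⟩
      cases b
      · change ((FreeGroup.of a)⁻¹ • FreeGroup.mk t • π y, a) =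
          (π ((FreeGroup.of a)⁻¹ • FreeGroup.mk t • y), a)
        rw [hπ, hπ]
      · change (FreeGroup.mk t • π y, a) = (π (FreeGroup.mk t • y), a)
        rw [hπ]
    change edge p (FreeGroup.mk t • π y) :: edges t (π y) = _
    rw [h1, ih]
    rfl

/-- The quotient by the relations `R` is periodic. -/
def TorsRel (R : Set (FreeGroup α)) : Prop :=
  ∀ w : FreeGroup α, ∃ k : ℕ, w ^ (k + 1) ∈ Subgroup.normalClosure R

omit [MulAction (FreeGroup α) X] in
theorem map_eq_one_of_rel {P : Type*} [Group P] {R : Set (FreeGroup α)} (ρ : FreeGroup α →* P)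
    (h : ∀ r ∈ R, ρ r = 1) {w : FreeGroup α} (hw : w ∈ Subgroup.normalClosure R) : ρ w = 1 := by
  have : Subgroup.normalClosure R ≤ ρ.ker :=
    Subgroup.normalClosure_le_normal fun r hr => h r hr
  exact this hw

/-- the cocycle condition -/
def Closed {A : Type*} [Group A] (R : Set (FreeGroup α)) (c : X → α → A) : Prop :=
  ∀ r ∈ R, ∀ x, cval c r x = 1

theorem separated [DecidableEq α] {A : Type*} [Group A] {R : Set (FreeGroup α)}
    (hT : TorsRel R) (hX : ∀ r ∈ R, ∀ x : X, r • x = x) (c : Bool → X → α → A)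
    (hc : ∀ b, Closed R (c b))
    (hsep : ∀ r ∈ R, ∀ x : X, ∃ b, ∀ e ∈ edges r.toWord x, c b e.1 e.2 = 1) (x₀ : X) :
    ∃ b, ∀ w : FreeGroup α, w • x₀ = x₀ → cval (c b) w x₀ = 1 := by
  by_contra hcon
  push Not at hcon
  let d : X → α → CoprodI (fun _ : Bool => A) := fun x a =>
    CoprodI.of (i := true) (c true x a) * CoprodI.of (i := false) (c false x a)
  have hd : ∀ b x a, proj b (d x a) = c b x a := by
    intro b x a
    cases b <;> simp [d, proj_of]
  have hdb : ∀ b w x, proj b (cval d w x) = cval (c b) w x := by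
    intro b w x
    rw [cval_map]
    congr 1
    funext x a
    exact hd b x a
  have hone : ∀ r ∈ R, skew d r = 1 := by
    intro r hr
    ext1 p
    rw [skew_apply, hX r hr]
    obtain ⟨b, hb⟩ := hsep r hr p.1
    have h1 : cval d r p.1 = cval (fun x a => CoprodI.of (i := !b) (c (!b) x a) : X → α →
        CoprodI (fun _ : Bool => A)) r p.1 := by
      have h2 := cval_congr d (fun x a => CoprodI.of (i := !b) (c (!b) x a)) r.toWord p.1
        (by
          intro e he
          have h3 := hb e he
          cases b <;> simp [d, h3])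
      rwa [FreeGroup.mk_toWord] at h2
    have h4 := cval_map (CoprodI.of (M := fun _ : Bool => A) (i := !b)) (c (!b)) r p.1
    rw [h1, ← h4, hc (!b) r hr, map_one, one_mul]
    rfl
  have key : ∀ w : FreeGroup α, w • x₀ = x₀ → ∃ b, cval (c b) w x₀ = 1 := by
    intro w hw
    by_contra h
    push Not at h
    obtain ⟨k, hk⟩ := hT w
    have h1 := map_eq_one_of_rel (skew d) hone hk
    have h2 : cval d (w ^ (k + 1)) x₀ = 1 :=
      congrArg (fun f : Equiv.Perm (X × CoprodI fun _ : Bool => A) => (f (x₀, 1)).2) h1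
    rw [cval_pow d w x₀ hw] at h2
    exact pow_ne_one (cval d w x₀) (fun b => by rw [hdb]; exact h b) k h2
  obtain ⟨w₁, hw₁, h₁⟩ := hcon true
  obtain ⟨w₂, hw₂, h₂⟩ := hcon false
  have e1 : cval (c false) w₁ x₀ = 1 := by
    obtain ⟨b, hb⟩ := key w₁ hw₁
    cases b
    · exact hb
    · exact absurd hb h₁
  have e2 : cval (c true) w₂ x₀ = 1 := by
    obtain ⟨b, hb⟩ := key w₂ hw₂
    cases b
    · exact absurd hb h₂
    · exact hb
  obtain ⟨b, hb⟩ := key (w₁ * w₂) (by rw [mul_smul, hw₂, hw₁])
  rw [cval_mul, hw₂] at hb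
  cases b
  · rw [e1, one_mul] at hb
    exact h₂ hb
  · rw [e2, mul_one] at hb
    exact h₁ hb

end Vale.Agent.P192.H121
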