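import Vale.Agent.P192.H121.Words

/-!
# P192: general linear groups over monoid algebras
-/

namespace Vale.Agent.P192.H121.NC

open Matrix Vale.Agent.P192 Vale.Agent.P192.H903
open scoped commutatorElement

/-- All finitely generated periodic groups have finite images in `H`. -/
def FGP (H : Type) [Group H] : Prop :=
  ∀ (G : Type) [Group G], Group.FG G → (∀ x : G, IsOfFinOrder x) → ∀ f : G →* H, Finite f.range

theorem FGP.fpb {H : Type} [Group H] (h : FGP H) : FPB H :=
  fun Γ _ hΓ hper f => h Γ (fg_of_fp hΓ) hper f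

theorem finite_range_of_injective {G H H' : Type} [Group G] [Group H] [Group H'] (f : G →* H)
    (ι : H →* H') (hι : Function.Injective ι) (h : Finite (ι.comp f).range) : Finite f.range := by
  refine Finite.of_injective (fun x : f.range => (⟨ι x, ?_⟩ : (ι.comp f).range)) ?_
  · obtain ⟨_, y, rfl⟩ := x
    exact ⟨y, rfl⟩
  · intro x y hxy
    exact Subtype.ext (hι (congrArg Subtype.val hxy))

theorem FGP.of_injective {H H' : Type} [Group H] [Group H'] (ι : H →* H')
    (hι : Function.Injective ι) (h : FGP H') : FGP H :=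
  fun G _ hG hper f => finite_range_of_injective f ι hι (h G hG hper (ι.comp f))

theorem FPB.of_injective {H H' : Type} [Group H] [Group H'] (ι : H →* H')
    (hι : Function.Injective ι) (h : FPB H') : FPB H :=
  fun G _ hG hper f => finite_range_of_injective f ι hι (h G hG hper (ι.comp f))

/-- units of matrices under a ring homomorphism -/
def glMap (n : ℕ) {R S : Type} [Ring R] [Ring S] (ι : R →+* S) :
    (Matrix (Fin n) (Fin n) R)ˣ →* (Matrix (Fin n) (Fin n) S)ˣ :=
  Units.map (ι.mapMatrix : Matrix (Fin n) (Fin n) R →+* _)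

theorem glMap_val (n : ℕ) {R S : Type} [Ring R] [Ring S] (ι : R →+* S)
    (g : (Matrix (Fin n) (Fin n) R)ˣ) (i j : Fin n) :
    (glMap n ι g : Matrix (Fin n) (Fin n) S) i j = ι ((g : Matrix (Fin n) (Fin n) R) i j) := rfl

theorem glMap_injective (n : ℕ) {R S : Type} [Ring R] [Ring S] (ι : R →+* S)
    (hι : Function.Injective ι) : Function.Injective (glMap n ι) := by
  intro x y hxy
  refine Units.ext ?_
  ext1 i j
  refine hι ?_
  rw [← glMap_val, ← glMap_val, hxy]

/-- Matrices over matrix rings over commutative rings. -/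
theorem fgp_matrix {ι : Type} [Fintype ι] [DecidableEq ι] (C : Type) [CommRing C] (n : ℕ) :
    FGP (Matrix (Fin n) (Fin n) (Matrix ι ι C))ˣ := by
  intro G _ hG hper f
  let e : (Matrix (Fin n) (Fin n) (Matrix ι ι C))ˣ ≃* GL (Fin n × ι) C :=
    Units.mapEquiv (Matrix.compRingEquiv (Fin n) ι C).toMulEquiv
  exact finite_range_of_injective f e.toMonoidHom e.injective
    (finite_of_fg_periodic hper (e.toMonoidHom.comp f))

theorem fgp_of_embedding {ι : Type} [Fintype ι] [DecidableEq ι] {C R : Type} [CommRing C]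
    [Ring R] (j : R →+* Matrix ι ι C) (hj : Function.Injective j) (n : ℕ) :
    FGP (Matrix (Fin n) (Fin n) R)ˣ :=
  FGP.of_injective (glMap n j) (glMap_injective n j hj) (fgp_matrix C n)

/-- Monoids whose algebras over finite fields have enough homomorphisms to good division rings. -/
def Tame (M : Type) [Monoid M] : Prop :=
  ∀ (K : Type) [Field K] [Finite K] (f : MonoidAlgebra K M), f ≠ 0 →
    ∃ (D : Type) (_ : DivisionRing D) (τ : MonoidAlgebra K M →+* D), τ f ≠ 0 ∧
      ∀ n, FGP (Matrix (Fin n) (Fin n) D)ˣ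

theorem tame_words {m : ℕ} (X : Fin m → Type) : Tame (∀ i, FreeMonoid (X i)) := by
  intro K _ _ f hf
  obtain ⟨ℓ, hℓ, τ, hτ⟩ := exists_rep_ne_zero f hf
  exact ⟨Tw (red m ℓ) (sig K X ℓ), inferInstance, τ, hτ, fun n =>
    fgp_of_embedding (Tw (red m ℓ) (sig K X ℓ)).subtype Subtype.val_injective n⟩

/-- the uniform subgroup -/
theorem le_ker_of_finite_field {M : Type} [Monoid M] (hM : Tame M) {G : Type} [Group G]
    (hG : Group.FG G) (hper : ∀ x : G, IsOfFinOrder x) {n : ℕ} {N : Subgroup G}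
    (hN : ∀ (p : ℕ), 0 < p → ∀ (D : Type) [DivisionRing D] [CharP D p]
        (f : G →* (Matrix (Fin n) (Fin n) D)ˣ), f.ker.FiniteIndex → N ≤ f.ker)
    (K : Type) [Field K] [Finite K] (f : G →* (Matrix (Fin n) (Fin n) (MonoidAlgebra K M))ˣ) :
    N ≤ f.ker := by
  intro g hg
  rw [MonoidHom.mem_ker]
  refine Units.ext ?_
  ext1 i j
  rw [Units.val_one]
  by_contra hne
  obtain ⟨D, _, τ, hτ, hD⟩ := hM K _ (sub_ne_zero.mpr hne)
  obtain ⟨p, hp⟩ := CharP.exists K
  have hp0 : p ≠ 0 := CharP.char_ne_zero_of_finite K p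
  let s : K →+* MonoidAlgebra K M := MonoidAlgebra.singleOneRingHom
  have hc : CharP D p := charP_of_injective_ringHom (f := τ.comp s) (RingHom.injective _) p
  have h1 := hN p (Nat.pos_of_ne_zero hp0) D ((glMap n τ).comp f)
    (finite_range_of_finite_ker _ (hD n G hG hper _)) hg
  rw [MonoidHom.mem_ker, MonoidHom.comp_apply] at h1
  refine hτ ?_
  rw [map_sub, ← glMap_val, h1, Units.val_one, sub_eq_zero, Matrix.one_apply, Matrix.one_apply]
  split_ifs
  · rw [map_one]
  · rw [map_zero]

/-- An element of a finitely generated commutative ring which is not nilpotent is nonzero in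
a finite field. -/
theorem exists_finite_field {A : Type} [CommRing A] [Algebra.FiniteType ℤ A] {c : A}
    (hc : c ∉ nilradical A) : ∃ (F : Type) (_ : Field F) (_ : Finite F) (π : A →+* F),
      π c ≠ 0 := by
  rw [nilradical_eq_sInf, Ideal.mem_sInf] at hc
  push Not at hc
  obtain ⟨P, hP, hcP⟩ := hc
  have hP' : P.IsPrime := hP
  have hdom : IsDomain (A ⧸ P) := inferInstance
  let _ : Algebra ℤ (A ⧸ P) := Ring.toIntAlgebra (A ⧸ P)
  have hft : Algebra.FiniteType ℤ (A ⧸ P) :=
    Algebra.FiniteType.of_surjective (Ideal.Quotient.mk P).toIntAlgHom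
      Ideal.Quotient.mk_surjective
  obtain ⟨m, hm, ham, hfin⟩ := exists_residue (A := A ⧸ P) (a := Ideal.Quotient.mk P c)
    (fun h => hcP (Ideal.Quotient.eq_zero_iff_mem.mp h))
  refine ⟨(A ⧸ P) ⧸ m, Ideal.Quotient.field m, hfin,
    (Ideal.Quotient.mk m).comp (Ideal.Quotient.mk P), ?_⟩
  intro h
  exact ham (Ideal.Quotient.eq_zero_iff_mem.mp h)

theorem derived_filtration {S : Type} [Ring S] (B : ℕ → AddSubgroup S)
    (hr : ∀ i s, ∀ x ∈ B i, x * s ∈ B i)
    (hmul : ∀ i j, ∀ x ∈ B i, ∀ y ∈ B j, x * y ∈ B (i + j)) (hanti : ∀ i j, i ≤ j → B j ≤ B i)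
    {G : Type} [Group G] (f : G →* Sˣ) (hf : ∀ g, (f g : S) - 1 ∈ B 1) :
    ∀ k, ∀ g ∈ derivedSeries G k, (f g : S) - 1 ∈ B (k + 1) := by
  have key : ∀ i (u v : Sˣ), (u : S) - 1 ∈ B (i + 1) → (v : S) - 1 ∈ B (i + 1) →
      ((u * v * u⁻¹ * v⁻¹ : Sˣ) : S) - 1 ∈ B (i + 1 + 1) := by
    intro i u v hu hv
    have e1 : ((u * v * u⁻¹ * v⁻¹ : Sˣ) : S) - 1 =
        (((u : S) - 1) * ((v : S) - 1) - ((v : S) - 1) * ((u : S) - 1)) *
          (((v * u)⁻¹ : Sˣ) : S) := by
      have e2 : u * v * u⁻¹ * v⁻¹ = u * v * (v * u)⁻¹ := by group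
      have e3 : ((v : S) * (u : S)) * (((v * u)⁻¹ : Sˣ) : S) = 1 := by
        rw [← Units.val_mul, ← Units.val_mul, mul_inv_cancel, Units.val_one]
      have e4 : ((u : S) - 1) * ((v : S) - 1) - ((v : S) - 1) * ((u : S) - 1) =
          (u : S) * (v : S) - (v : S) * (u : S) := by noncomm_ring
      rw [e4, sub_mul, e3, e2, Units.val_mul, Units.val_mul]
    rw [e1]
    refine hanti (i + 1 + 1) (i + 1 + (i + 1)) (by omega) (hr _ _ _ ?_)
    exact sub_mem (hmul _ _ _ hu _ hv) (hmul _ _ _ hv _ hu)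
  have one : ∀ i, ((1 : Sˣ) : S) - 1 ∈ B i := fun i => by
    rw [Units.val_one, sub_self]; exact zero_mem _
  -- the units congruent to one form a subgroup
  let U : ℕ → Subgroup G := fun i =>
    { carrier := {g | (f g : S) - 1 ∈ B i}
      one_mem' := by
        change ((f 1 : Sˣ) : S) - 1 ∈ B i
        rw [map_one]; exact one i
      mul_mem' := by
        intro a b ha hb
        change ((f (a * b) : Sˣ) : S) - 1 ∈ B i
        rw [map_mul, Units.val_mul]
        have : (f a : S) * (f b : S) - 1 = ((f a : S) - 1) * (f b : S) + ((f b : S) - 1) := by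
          noncomm_ring
        rw [this]
        exact add_mem (hr _ _ _ ha) hb
      inv_mem' := by
        intro a ha
        change ((f a⁻¹ : Sˣ) : S) - 1 ∈ B i
        rw [map_inv]
        have : (((f a)⁻¹ : Sˣ) : S) - 1 = -(((f a : S) - 1) * (((f a)⁻¹ : Sˣ) : S)) := by
          rw [sub_mul, Units.mul_inv, one_mul, neg_sub]
        rw [this]
        exact neg_mem (hr _ _ _ ha) }
  intro k
  induction k with
  | zero => exact fun g _ => hf g
  | succ k ih =>
    have hle : derivedSeries G (k + 1) ≤ U (k + 1 + 1) := by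
      rw [derivedSeries_succ, Subgroup.commutator_le]
      intro a ha b hb
      change ((f ⁅a, b⁆ : Sˣ) : S) - 1 ∈ B (k + 1 + 1)
      rw [commutatorElement_def, map_mul, map_mul, map_mul, map_inv, map_inv]
      exact key k _ _ (ih a ha) (ih b hb)
    exact fun g hg => hle hg

/-- matrices over a monoid algebra with coefficients in an ideal -/
def coefIdeal {K : Type} [CommRing K] (M : Type) [Monoid M] (n : ℕ) (I : Ideal K) :
    AddSubgroup (Matrix (Fin n) (Fin n) (MonoidAlgebra K M)) where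
  carrier := {x | ∀ i j w, (x i j).coeff w ∈ I}
  zero_mem' := fun _ _ _ => zero_mem I
  add_mem' := fun hx hy i j w => by
    rw [Matrix.add_apply]
    exact add_mem (hx i j w) (hy i j w)
  neg_mem' := fun hx i j w => by
    rw [Matrix.neg_apply]
    exact neg_mem (hx i j w)

theorem coef_mul_mem {K : Type} [CommRing K] {M : Type} [Monoid M] {I J : Ideal K}
    {x y : MonoidAlgebra K M} (hx : ∀ w, x.coeff w ∈ I) (hy : ∀ w, y.coeff w ∈ J) (w : M) :
    (x * y).coeff w ∈ I * J := by
  classical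
  rw [MonoidAlgebra.coeff_mul, Finsupp.sum]
  refine Ideal.sum_mem _ fun u _ => ?_
  rw [Finsupp.sum]
  refine Ideal.sum_mem _ fun v _ => ?_
  split_ifs
  · exact Ideal.mul_mem_mul (hx u) (hy v)
  · exact zero_mem _

theorem coefIdeal_mul {K : Type} [CommRing K] {M : Type} [Monoid M] {n : ℕ} {I J : Ideal K}
    {x y : Matrix (Fin n) (Fin n) (MonoidAlgebra K M)} (hx : x ∈ coefIdeal M n I)
    (hy : y ∈ coefIdeal M n J) : x * y ∈ coefIdeal M n (I * J) := by
  intro i j w
  rw [Matrix.mul_apply, MonoidAlgebra.coeff_sum, Finsupp.finsetSum_apply]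
  exact Ideal.sum_mem _ fun k _ => coef_mul_mem (hx i k) (hy k j) w

theorem fgp_of_finiteType {M : Type} [Monoid M] (hM : Tame M) (A : Type) [CommRing A]
    [Algebra.FiniteType ℤ A] (n : ℕ) :
    FGP (Matrix (Fin n) (Fin n) (MonoidAlgebra A M))ˣ := by
  intro G _ hG hper f
  obtain ⟨N, hN, hNk⟩ := exists_uniform hper n
  have hNo : IsNoetherianRing A := Algebra.FiniteType.isNoetherianRing ℤ A
  obtain ⟨k, hk⟩ := IsNoetherianRing.isNilpotent_nilradical A
  have h1 : ∀ g ∈ N, ((f g : Matrix (Fin n) (Fin n) (MonoidAlgebra A M)) - 1) ∈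
      coefIdeal M n (nilradical A) := by
    intro g hg i j w
    by_contra hne
    obtain ⟨F, _, _, π, hπ⟩ := exists_finite_field hne
    have h2 := le_ker_of_finite_field hM hG hper hNk F
      ((glMap n (MonoidAlgebra.mapRingHom M π)).comp f) hg
    rw [MonoidHom.mem_ker, MonoidHom.comp_apply] at h2
    refine hπ ?_
    have h3 := congrArg (fun u : (Matrix (Fin n) (Fin n) (MonoidAlgebra F M))ˣ =>
      ((u : Matrix (Fin n) (Fin n) (MonoidAlgebra F M)) i j).coeff w) h2
    have h4 : (MonoidAlgebra.mapRingHom M π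
        ((f g : Matrix (Fin n) (Fin n) (MonoidAlgebra A M)) i j)).coeff w =
        ((1 : Matrix (Fin n) (Fin n) (MonoidAlgebra F M)) i j).coeff w := h3
    rw [MonoidAlgebra.coeff_mapRingHom] at h4
    have h5 : ((1 : Matrix (Fin n) (Fin n) (MonoidAlgebra F M)) i j).coeff w =
        π (((1 : Matrix (Fin n) (Fin n) (MonoidAlgebra A M)) i j).coeff w) := by
      rw [← MonoidAlgebra.coeff_mapRingHom]
      congr 2
      rw [Matrix.one_apply, Matrix.one_apply]
      split_ifs
      · rw [map_one]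
      · rw [map_zero]
    rw [h5] at h4
    have h6 : (((f g : Matrix (Fin n) (Fin n) (MonoidAlgebra A M)) - 1) i j).coeff w =
        ((f g : Matrix (Fin n) (Fin n) (MonoidAlgebra A M)) i j).coeff w -
          ((1 : Matrix (Fin n) (Fin n) (MonoidAlgebra A M)) i j).coeff w := rfl
    rw [h6, map_sub, h4, sub_self]
  have h2 : ∀ g ∈ derivedSeries N k,
      ((f g : Matrix (Fin n) (Fin n) (MonoidAlgebra A M)) - 1) ∈
        coefIdeal M n (nilradical A ^ (k + 1)) := by
    refine derived_filtration (fun i => coefIdeal M n (nilradical A ^ i)) ?_ ?_ ?_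
      (f.comp N.subtype) ?_ k
    · intro i s x hx
      have := coefIdeal_mul hx (y := s) (J := ⊤) (fun _ _ _ => Submodule.mem_top)
      rwa [Ideal.mul_top] at this
    · intro i j x hx y hy
      rw [pow_add]
      exact coefIdeal_mul hx hy
    · intro i j hij x hx a b w
      exact Ideal.pow_le_pow_right hij (hx a b w)
    · intro g
      change ((f (g : G) : Matrix (Fin n) (Fin n) (MonoidAlgebra A M)) - 1) ∈
        coefIdeal M n (nilradical A ^ 1)
      rw [pow_one]
      exact h1 g g.2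
  have h3 : (derivedSeries N k).map N.subtype ≤ f.ker := by
    rintro _ ⟨g, hg, rfl⟩
    rw [MonoidHom.mem_ker]
    refine Units.ext ?_
    have h4 := h2 g hg
    ext1 i j
    refine MonoidAlgebra.ext (Finsupp.ext fun w => ?_)
    have h5 := h4 i j w
    rw [pow_succ, hk, zero_mul, Ideal.zero_eq_bot, Ideal.mem_bot] at h5
    have h6 : (((f g : Matrix (Fin n) (Fin n) (MonoidAlgebra A M)) - 1) i j).coeff w =
        ((f g : Matrix (Fin n) (Fin n) (MonoidAlgebra A M)) i j).coeff w -
          ((1 : Matrix (Fin n) (Fin n) (MonoidAlgebra A M)) i j).coeff w := rfl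
    rw [h6, sub_eq_zero] at h5
    exact h5
  have hN' : ∀ x : N, IsOfFinOrder x := fun x => by
    rw [← Submonoid.isOfFinOrder_coe]
    exact hper _
  have h4 : ((derivedSeries N k).map N.subtype).FiniteIndex := by
    refine ⟨?_⟩
    rw [Subgroup.index_map]
    simp only [Subgroup.ker_subtype, sup_bot_eq, Subgroup.range_subtype]
    exact Nat.mul_ne_zero (index_derivedSeries hN' k) hN.index_ne_zero
  exact finite_range_of_le f _ h3

/-- restriction to a subring containing the entries of the generators -/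
theorem exists_restrict {R S : Type} [Ring R] [Ring S] (ι : R →+* S)
    (hι : Function.Injective ι) {n : ℕ} {G : Type} [Group G]
    (f : G →* (Matrix (Fin n) (Fin n) S)ˣ) (T : Set G) (hT : Subgroup.closure T = ⊤)
    (h1 : ∀ t ∈ T, ∀ i j, (f t : Matrix (Fin n) (Fin n) S) i j ∈ ι.range)
    (h2 : ∀ t ∈ T, ∀ i j,
      (((f t)⁻¹ : (Matrix (Fin n) (Fin n) S)ˣ) : Matrix (Fin n) (Fin n) S) i j ∈ ι.range) :
    ∃ f' : G →* (Matrix (Fin n) (Fin n) R)ˣ, (glMap n ι).comp f' = f := by
  have hinj := glMap_injective n ι hι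
  have hminj : Function.Injective (ι.mapMatrix : Matrix (Fin n) (Fin n) R →+* _) := by
    intro x y hxy
    ext1 i j
    exact hι (congrFun (congrFun hxy i) j)
  have hle : f.range ≤ (glMap n ι).range := by
    rw [MonoidHom.range_eq_map, ← hT, Subgroup.map_le_iff_le_comap, Subgroup.closure_le]
    intro t ht
    choose X hX using fun i j => h1 t ht i j
    choose Y hY using fun i j => h2 t ht i j
    have hX' : ι.mapMatrix (Matrix.of X) = (f t : Matrix (Fin n) (Fin n) S) := by
      ext1 i j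
      exact hX i j
    have hY' : ι.mapMatrix (Matrix.of Y) =
        (((f t)⁻¹ : (Matrix (Fin n) (Fin n) S)ˣ) : Matrix (Fin n) (Fin n) S) := by
      ext1 i j
      exact hY i j
    refine ⟨⟨Matrix.of X, Matrix.of Y, ?_, ?_⟩, ?_⟩
    · refine hminj ?_
      rw [map_mul, hX', hY', map_one, ← Units.val_mul, mul_inv_cancel, Units.val_one]
    · refine hminj ?_
      rw [map_mul, hX', hY', map_one, ← Units.val_mul, inv_mul_cancel, Units.val_one]
    · exact Units.ext hX'
  let e := MonoidHom.ofInjective hinj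
  refine ⟨e.symm.toMonoidHom.comp ((Subgroup.inclusion hle).comp f.rangeRestrict), ?_⟩
  ext1 g
  have h3 := congrArg Subtype.val
    (e.apply_symm_apply (Subgroup.inclusion hle (f.rangeRestrict g)))
  exact h3

/-- **General linear groups over algebras of tame monoids.** -/
theorem fgp_monoidAlgebra {M : Type} [Monoid M] (hM : Tame M) (A : Type) [CommRing A] (n : ℕ) :
    FGP (Matrix (Fin n) (Fin n) (MonoidAlgebra A M))ˣ := by
  classical
  intro G _ hG hper f
  obtain ⟨T, hT, hTf⟩ := (Group.fg_iff (G := G)).mp hG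
  let E₁ : Set (MonoidAlgebra A M) := ⋃ t ∈ T, ⋃ i : Fin n, ⋃ j : Fin n,
    {(f t : Matrix (Fin n) (Fin n) (MonoidAlgebra A M)) i j,
      (((f t)⁻¹ : (Matrix (Fin n) (Fin n) (MonoidAlgebra A M))ˣ) : Matrix (Fin n) (Fin n)
        (MonoidAlgebra A M)) i j}
  have hE₁ : E₁.Finite := by
    refine Set.Finite.biUnion hTf fun s _ => ?_
    refine Set.finite_iUnion fun i => Set.finite_iUnion fun j => ?_
    exact (Set.finite_singleton _).insert _
  let E : Set A := ⋃ x ∈ E₁, x.coeff '' x.coeff.support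
  have hE : E.Finite := hE₁.biUnion fun x _ => (x.coeff.support.finite_toSet).image _
  let B : Subalgebra ℤ A := Algebra.adjoin ℤ E
  have hB : Algebra.FiniteType ℤ B :=
    (Subalgebra.fg_iff_finiteType B).mp ⟨hE.toFinset, by rw [Set.Finite.coe_toFinset]⟩
  let ι : MonoidAlgebra B M →+* MonoidAlgebra A M := MonoidAlgebra.mapRingHom M (algebraMap B A)
  have hι : Function.Injective ι := by
    intro x y hxy
    refine MonoidAlgebra.ext (Finsupp.ext fun w => ?_)
    have h1 := congrArg (fun z : MonoidAlgebra A M => z.coeff w) hxy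
    simp only [ι, MonoidAlgebra.coeff_mapRingHom] at h1
    exact Subtype.val_injective h1
  have hrange : ∀ x ∈ E₁, x ∈ ι.range := by
    intro x hx
    rw [← MonoidAlgebra.sum_coeff_single x]
    rw [Finsupp.sum]
    refine sum_mem fun w hw => ?_
    have h1 : x.coeff w ∈ B := Algebra.subset_adjoin
      (Set.mem_biUnion hx ⟨w, hw, rfl⟩)
    refine ⟨MonoidAlgebra.single w ⟨x.coeff w, h1⟩, ?_⟩
    exact MonoidAlgebra.mapRingHom_single _ _ _
  obtain ⟨f', hf'⟩ := exists_restrict ι hι f T hT
    (fun t ht i j => hrange _ (Set.mem_biUnion ht (Set.mem_iUnion.mpr ⟨i, Set.mem_iUnion.mpr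
        ⟨j, Or.inl rfl⟩⟩)))
    (fun t ht i j => hrange _ (Set.mem_biUnion ht (Set.mem_iUnion.mpr ⟨i, Set.mem_iUnion.mpr
        ⟨j, Or.inr rfl⟩⟩)))
  have h1 := fgp_of_finiteType hM B n G hG hper f'
  rw [← hf']
  have h2 : Finite (((glMap n ι)).comp f').range := by
    rw [MonoidHom.range_comp]
    have h3 : (f'.range : Set (Matrix (Fin n) (Fin n) (MonoidAlgebra B M))ˣ).Finite := h1
    exact h3.image _
  exact h2

end Vale.Agent.P192.H121.NC
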