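import Vale.Agent.P192.H121.Lin

/-!
# P192: counting relator loops, and the bound of the mod-p rank by supports
-/

namespace Vale.Agent.P192.H121

open Monoid

variable {α X : Type*} [MulAction (FreeGroup α) X]

section count

variable [DecidableEq α] [Fintype X] [DecidableEq X]

theorem card_edges_le (l : List (α × Bool)) (e : X × α) :
    (Finset.univ.filter fun x : X => e ∈ edges l x).card ≤ l.length := by
  induction l with
  | nil => simp [edges]
  | cons p t ih =>
    have hsub : (Finset.univ.filter fun x : X => e ∈ edges (p :: t) x) ⊆
        (Finset.univ.filter fun x : X => edge p (FreeGroup.mk t • x) = e) ∪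
          (Finset.univ.filter fun x : X => e ∈ edges t x) := by
      intro x hx
      simp only [Finset.mem_filter, Finset.mem_univ, true_and, edges, List.mem_cons,
        Finset.mem_union] at hx ⊢
      exact hx.imp Eq.symm id
    have h1 : (Finset.univ.filter fun x : X => edge p (FreeGroup.mk t • x) = e).card ≤ 1 := by
      rw [Finset.card_le_one]
      intro x hx y hy
      simp only [Finset.mem_filter, Finset.mem_univ, true_and] at hx hy
      have h2 := congrArg Prod.fst (hx.trans hy.symm)
      rcases p with ⟨a, b⟩
      cases b
      · change (FreeGroup.of a)⁻¹ • FreeGroup.mk t • x = (FreeGroup.of a)⁻¹ • FreeGroup.mk t • y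
          at h2
        exact (MulAction.injective _ (MulAction.injective _ h2))
      · change FreeGroup.mk t • x = FreeGroup.mk t • y at h2
        exact MulAction.injective _ h2
    calc _ ≤ _ := Finset.card_le_card hsub
      _ ≤ _ := Finset.card_union_le _ _
      _ ≤ 1 + t.length := add_le_add h1 ih
      _ = (p :: t).length := by rw [List.length_cons, add_comm]

omit [DecidableEq α] [Fintype X] [DecidableEq X] in
theorem length_edges (l : List (α × Bool)) (x : X) : (edges l x).length = l.length := by
  induction l with
  | nil => rfl
  | cons p t ih => simp [edges, ih]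

/-- the relator loops which meet `A` -/
def meets (R : Finset (FreeGroup α)) (A : Finset (X × α)) : Finset (FreeGroup α × X) :=
  (R ×ˢ Finset.univ).filter fun q => ∃ e ∈ edges q.1.toWord q.2, e ∈ A

/-- the total length of the relators -/
def rlen (R : Finset (FreeGroup α)) : ℕ := ∑ r ∈ R, r.toWord.length

theorem card_meets_le (R : Finset (FreeGroup α)) (A : Finset (X × α)) :
    (meets R A).card ≤ rlen R * A.card := by
  have hsub : meets R A ⊆ (R ×ˢ A).biUnion fun q =>
      (Finset.univ.filter fun x : X => q.2 ∈ edges q.1.toWord x).image fun x => (q.1, x) := by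
    intro q hq
    simp only [meets, Finset.mem_filter, Finset.mem_product, Finset.mem_univ, and_true] at hq
    obtain ⟨hr, e, he, heA⟩ := hq
    simp only [Finset.mem_biUnion, Finset.mem_product, Finset.mem_image, Finset.mem_filter,
      Finset.mem_univ, true_and]
    exact ⟨(q.1, e), ⟨hr, heA⟩, q.2, he, rfl⟩
  calc _ ≤ _ := Finset.card_le_card hsub
    _ ≤ ∑ q ∈ R ×ˢ A, ((Finset.univ.filter fun x : X => q.2 ∈ edges q.1.toWord x).image
          fun x => (q.1, x)).card := Finset.card_biUnion_le
    _ ≤ ∑ q ∈ R ×ˢ A, q.1.toWord.length :=
        Finset.sum_le_sum fun q _ => Finset.card_image_le.trans (card_edges_le _ _)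
    _ = rlen R * A.card := by
        rw [Finset.sum_product, rlen, Finset.sum_mul]
        refine Finset.sum_congr rfl fun r _ => ?_
        change ∑ _y ∈ A, r.toWord.length = _
        rw [Finset.sum_const, smul_eq_mul, mul_comm]

/-- the edges on relator loops which meet `A`, and `A` itself -/
def nbr (R : Finset (FreeGroup α)) (A : Finset (X × α)) : Finset (X × α) :=
  A ∪ (meets R A).biUnion fun q => (edges q.1.toWord q.2).toFinset

theorem card_nbr_le (R : Finset (FreeGroup α)) (A : Finset (X × α)) :
    (nbr R A).card ≤ (1 + rlen R * rlen R) * A.card := by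
  have h1 : ((meets R A).biUnion fun q => (edges q.1.toWord q.2).toFinset).card ≤
      (meets R A).card * rlen R := by
    refine Finset.card_biUnion_le.trans ?_
    refine (Finset.sum_le_card_nsmul _ _ (rlen R) fun q hq => ?_).trans (by simp)
    have hr : q.1 ∈ R := by
      simp only [meets, Finset.mem_filter, Finset.mem_product] at hq
      exact hq.1.1
    refine (List.toFinset_card_le _).trans ?_
    rw [length_edges]
    exact Finset.single_le_sum (f := fun r : FreeGroup α => r.toWord.length)
      (fun _ _ => Nat.zero_le _) hr
  calc _ ≤ A.card + _ := Finset.card_union_le _ _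
    _ ≤ A.card + (meets R A).card * rlen R := by gcongr
    _ ≤ A.card + (rlen R * A.card) * rlen R := by
        gcongr
        exact card_meets_le R A
    _ = _ := by ring

end count

section sepcount

variable {p : ℕ} [Fact p.Prime] [DecidableEq α] [Fintype X] [DecidableEq X]

/-- **Rank bound.** A cocycle (with values in any group) which is not trivial on the stabiliser
has a support of size at least a constant times the mod-`p` rank. -/
theorem trivial_of_small {R : Finset (FreeGroup α)} (hT : TorsRel (R : Set (FreeGroup α)))
    (hX : ∀ r ∈ R, ∀ x : X, r • x = x) {κ : Type*} [Fintype κ] [DecidableEq κ] (x₀ : X)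
    (c : X × α → κ → ZMod p) (hc : AClosed (R : Set (FreeGroup α)) c) (hco : Onto x₀ c)
    {B : Type*} [Group B] (b : X → α → B) (hb : Closed (R : Set (FreeGroup α)) b)
    (A : Finset (X × α)) (hA : ∀ e, e ∉ A → b e.1 e.2 = 1)
    (hcard : (1 + rlen R * rlen R) * A.card < Fintype.card κ) :
    ∀ w : FreeGroup α, w • x₀ = x₀ → cval b w x₀ = 1 := by
  -- a nonzero combination which vanishes near `A`
  let f : (κ → ZMod p) →ₗ[ZMod p] ({e // e ∈ nbr R A} → ZMod p) :=
    LinearMap.pi fun e => ∑ k, (c e.1 k) • LinearMap.proj k
  have hf : ∀ l e, f l e = ∑ k, c e.1 k * l k := by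
    intro l e
    simp [f]
  have hker : f.ker ≠ ⊥ := by
    apply LinearMap.ker_ne_bot_of_finrank_lt
    rw [Module.finrank_fintype_fun_eq_card, Module.finrank_fintype_fun_eq_card,
      Fintype.card_coe]
    exact (card_nbr_le R A).trans_lt hcard
  obtain ⟨l, hl, hl0⟩ := (Submodule.ne_bot_iff _).1 hker
  let d : X × α → ZMod p := fun e => ∑ k, c e k * l k
  have hdA : ∀ e ∈ nbr R A, d e = 0 := by
    intro e he
    have := congrFun hl ⟨e, he⟩
    rw [hf] at this
    exact this
  have hdav : ∀ w x, av d w x = ∑ k, av c w x k * l k := by
    intro w x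
    let φ : (κ → ZMod p) →+ ZMod p :=
      { toFun := fun v => ∑ k, v k * l k
        map_zero' := by simp
        map_add' := fun v v' => by simp [add_mul, Finset.sum_add_distrib] }
    exact (av_map φ c w x).symm
  have hdc : AClosed (R : Set (FreeGroup α)) d := by
    intro r hr x
    rw [hdav, hc r hr x]
    simp
  let g : Bool → X → α → B × Multiplicative (ZMod p) := fun t x a =>
    if t then (b x a, 1) else (1, Multiplicative.ofAdd (d (x, a)))
  have hg1 : ∀ w x, cval (g true) w x = (cval b w x, 1) := by
    intro w x
    exact (cval_unique (g true) (fun w x => (cval b w x, 1)) (fun a x => by simp [g, cval_of])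
      (fun v w x => by simp [cval_mul]) w x).symm
  have hg2 : ∀ w x, cval (g false) w x = (1, Multiplicative.ofAdd (av d w x)) := by
    intro w x
    exact (cval_unique (g false) (fun w x => (1, Multiplicative.ofAdd (av d w x)))
      (fun a x => by simp [g, av_of])
      (fun v w x => by simp [av_mul]) w x).symm
  have hsep := separated hT (X := X) (fun r hr x => hX r hr x) g
    (by
      intro t r hr x
      cases t
      · rw [hg2, hdc r hr x]; rfl
      · rw [hg1, hb r hr x]; rfl)
    (by
      intro r hr x
      by_cases hm : ∃ e ∈ edges r.toWord x, e ∈ A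
      · refine ⟨false, fun e he => ?_⟩
        have : e ∈ nbr R A := by
          refine Finset.mem_union_right _ ?_
          rw [Finset.mem_biUnion]
          refine ⟨(r, x), ?_, by simpa using he⟩
          simp only [meets, Finset.mem_filter, Finset.mem_product, Finset.mem_univ, and_true]
          exact ⟨hr, hm⟩
        have h0 := hdA e this
        simp [g, h0]
      · push Not at hm
        refine ⟨true, fun e he => ?_⟩
        have h0 := hA e (hm e he)
        simp [g, h0]) x₀
  obtain ⟨t, ht⟩ := hsep
  cases t
  · exfalso
    apply hl0
    funext k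
    obtain ⟨w, hw, hwv⟩ := hco (Pi.single k 1)
    have h1 := ht w hw
    rw [hg2] at h1
    have h2 : av d w x₀ = 0 := by
      have := congrArg Prod.snd h1
      exact congrArg Multiplicative.toAdd this
    rw [hdav, hwv] at h2
    simpa [Pi.single_apply] using h2
  · intro w hw
    have h1 := ht w hw
    rw [hg1] at h1
    exact congrArg Prod.fst h1

end sepcount

end Vale.Agent.P192.H121
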