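import Vale.Agent.P192.H121.PairsCount

/-!
# P192: groups with finitely supported cocycles have no finitely presented periodic covers
-/

namespace Vale.Agent.P192.H121

open Monoid

/-- `c` is a cocycle of `P` over the homomorphism `π : P → B`. -/
def Over {P B A : Type*} [Group P] [Group B] [Group A] (π : P →* B) (c : P → B → A) : Prop :=
  ∀ v w x, c (v * w) x = c v (π w * x) * c w x

theorem Over.one {P B A : Type*} [Group P] [Group B] [Group A] {π : P →* B} {c : P → B → A}
    (hc : Over π c) (x : B) : c 1 x = 1 := by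
  have := hc 1 1 x
  rw [mul_one, map_one, one_mul] at this
  exact left_eq_mul.1 this

theorem Over.inv {P B A : Type*} [Group P] [Group B] [Group A] {π : P →* B} {c : P → B → A}
    (hc : Over π c) (g : P) (x : B) : c g⁻¹ x = (c g ((π g)⁻¹ * x))⁻¹ := by
  have := hc g g⁻¹ x
  rw [mul_inv_cancel, hc.one, map_inv] at this
  exact eq_inv_of_mul_eq_one_right this.symm

theorem Over.conj {P B A : Type*} [Group P] [Group B] [Group A] {π : P →* B} {c : P → B → A}
    (hc : Over π c) (g k : P) (hk : π k = 1) (x : B) :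
    c (g * k * g⁻¹) (π g * x) = c g x * c k x * (c g x)⁻¹ := by
  have h1 := hc (g * k * g⁻¹) g x
  rw [inv_mul_cancel_right, hc, hk, one_mul] at h1
  rw [h1, mul_inv_cancel_right]

theorem exists_gens (Γ : Type*) [Group Γ] [Group.IsFinitelyPresented Γ] :
    ∃ S : Finset Γ, Subgroup.closure (S : Set Γ) = ⊤ := by
  classical
  obtain ⟨n, φ, hφ, -⟩ := (inferInstance : Group.IsFinitelyPresented Γ).out
  refine ⟨Finset.univ.image fun a : Fin n => φ (FreeGroup.of a), ?_⟩
  rw [Finset.coe_image, Finset.coe_univ, Set.image_univ]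
  have h1 : (Set.range fun a : Fin n => φ (FreeGroup.of a)) =
      φ '' Set.range (FreeGroup.of : Fin n → FreeGroup (Fin n)) := by
    rw [← Set.range_comp]; rfl
  rw [h1, ← MonoidHom.map_closure, FreeGroup.closure_range_of, ← MonoidHom.range_eq_map,
    MonoidHom.range_eq_top]
  exact hφ

/-- **No periodic covers.** -/
theorem cover_finite (Γ : Type*) [Group Γ] [Group.IsFinitelyPresented Γ]
    (hΓ : ∀ g : Γ, IsOfFinOrder g) {P B A : Type*} [Group P] [Group B] [Group A] (π : P →* B)
    (hπ : Function.Surjective π) (c : P → B → A) (hc : Over π c)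
    (hfin : ∀ w, {x | c w x ≠ 1}.Finite) (M : Subgroup P) [M.Normal]
    (hM : ∀ m ∈ M, π m = 1 ∧ ∀ x, c m x = 1) (φ : Γ →* P ⧸ M) (hφ : φ.range.FiniteIndex)
    (w : P) (hw : π w = 1) (x₀ : B) (hwx : c w x₀ ≠ 1) : Finite B := by
  classical
  by_contra hB
  rw [not_finite_iff_infinite] at hB
  have hcm : ∀ a b : P, (a : P ⧸ M) = b → c a = c b := by
    intro a b hab
    have h1 : b⁻¹ * a ∈ M := by
      rw [← QuotientGroup.eq]
      exact hab.symm
    funext x
    have h2 := hc b (b⁻¹ * a) x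
    rw [mul_inv_cancel_left, (hM _ h1).1, (hM _ h1).2, one_mul, mul_one] at h2
    exact h2
  let π' : P ⧸ M →* B := QuotientGroup.lift M π fun m hm => (hM m hm).1
  have hπ' : ∀ a : P, π' (a : P ⧸ M) = π a := fun a => rfl
  let ψ : Γ →* B := π'.comp φ
  choose ρ hρ using fun γ : Γ => QuotientGroup.mk_surjective (φ γ)
  have hψρ : ∀ γ, ψ γ = π (ρ γ) := by
    intro γ
    change π' (φ γ) = _
    rw [← hρ]
    exact hπ' _
  let c' : Γ → B → A := fun γ => c (ρ γ)
  have hc' : ∀ g h x, c' (g * h) x = c' g (ψ h * x) * c' h x := by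
    intro g h x
    have h1 : c (ρ (g * h)) = c (ρ g * ρ h) := by
      refine hcm _ _ ?_
      rw [QuotientGroup.mk_mul, hρ, hρ, hρ, map_mul]
    change c (ρ (g * h)) x = _
    rw [h1, hc, hψρ]
  obtain ⟨S, hS⟩ := exists_gens Γ
  obtain ⟨C, hC⟩ := wreath_bound Γ hΓ (S : Set Γ) S.finite_toSet hS
  have hfin' : ∀ γ, {x | c' γ x ≠ 1}.Finite := fun γ => hfin (ρ γ)
  have hN : ∀ s ∈ (S : Set Γ), {x | c' s x ≠ 1}.encard ≤
      ((∑ s ∈ S, {x | c' s x ≠ 1}.ncard : ℕ) : ℕ∞) := by
    intro s hs
    rw [← (hfin' s).cast_ncard_eq]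
    exact_mod_cast Finset.single_le_sum (f := fun s => {x | c' s x ≠ 1}.ncard)
      (fun _ _ => Nat.zero_le _) (Finset.mem_coe.1 hs)
  have hrange : ¬ Finite ψ.range := by
    intro h1
    have h2 : ψ.range = φ.range.map π' := by
      rw [MonoidHom.range_comp]
    have h3 : (φ.range.map π').FiniteIndex := by
      refine ⟨?_⟩
      have h4 := Subgroup.index_map_dvd φ.range (f := π') (by
        intro b
        obtain ⟨a, rfl⟩ := hπ b
        exact ⟨a, rfl⟩)
      exact ne_zero_of_dvd_ne_zero hφ.index_ne_zero h4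
    rw [← h2] at h3
    have h5 : Finite B := by
      have h6 : Nat.card ψ.range ≠ 0 := Nat.card_pos.ne'
      have h7 := ψ.range.card_mul_index
      exact Nat.finite_of_card_ne_zero (by
        rw [← h7]
        exact mul_ne_zero h6 h3.index_ne_zero)
    exact not_finite B
  have key : ∀ k x, ψ k = 1 → c' k x = 1 := by
    intro k x hk
    by_contra h1
    have h2 := hC B ψ A c' hc' _ hN k x hk h1
    refine hrange ?_
    rw [← ENat.card_lt_top]
    refine lt_of_le_of_lt h2 ?_
    rw [← Nat.cast_mul, ← Nat.cast_mul]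
    exact ENat.natCast_lt_top _
  let D : Subgroup P := φ.range.comap (QuotientGroup.mk' M)
  have hD : D.FiniteIndex := by
    refine ⟨?_⟩
    rw [Subgroup.index_comap_of_surjective _ (QuotientGroup.mk'_surjective M)]
    exact hφ.index_ne_zero
  let κ : π.ker →* (B → A) :=
    { toFun := fun k => c k
      map_one' := funext fun x => hc.one x
      map_mul' := fun k l => funext fun x => by
        change c (k * l) x = c k x * c l x
        rw [hc, show π l = 1 from l.2, one_mul] }
  have hκ : D.subgroupOf π.ker ≤ κ.ker := by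
    intro k hk
    rw [Subgroup.mem_subgroupOf] at hk
    obtain ⟨γ, hγ⟩ := hk
    funext x
    change c k x = 1
    have h1 : ((k : P) : P ⧸ M) = (ρ γ : P ⧸ M) := by
      rw [hρ]; exact hγ.symm
    rw [hcm _ _ h1]
    refine key γ x ?_
    rw [hψρ, ← hπ', ← h1, hπ']
    exact k.2
  have hker : κ.ker.FiniteIndex := Subgroup.finiteIndex_of_le hκ
  have hrf : Finite κ.range := by
    have : Finite (π.ker ⧸ κ.ker) := inferInstance
    exact Finite.of_equiv _ (QuotientGroup.quotientKerEquivRange κ).toEquiv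
  have hU : (⋃ f : κ.range, {x : B | (f : B → A) x ≠ 1}).Finite := by
    refine Set.finite_iUnion ?_
    rintro ⟨_, k, rfl⟩
    exact hfin k
  have hU' : (⋃ f : κ.range, {x : B | (f : B → A) x ≠ 1}) = Set.univ := by
    rw [Set.eq_univ_iff_forall]
    intro y
    obtain ⟨g, hg⟩ := hπ (y * x₀⁻¹)
    have h1 := hc.conj g w hw x₀
    have h2 : π (g * w * g⁻¹) = 1 := by
      rw [map_mul, map_mul, hw, mul_one, ← map_mul, mul_inv_cancel, map_one]
    refine Set.mem_iUnion.2 ⟨⟨κ ⟨g * w * g⁻¹, h2⟩, ⟨_, rfl⟩⟩, ?_⟩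
    change c (g * w * g⁻¹) y ≠ 1
    rw [hg, inv_mul_cancel_right] at h1
    rw [h1]
    intro h3
    apply hwx
    rw [mul_inv_eq_one] at h3
    exact mul_eq_left.1 h3
  rw [hU'] at hU
  exact Set.infinite_univ hU

end Vale.Agent.P192.H121
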