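import Vale.Agent.P192.H121.Depth

/-!
# P192: the Golod-Shafarevich theorem
-/

namespace Vale.Agent.P192.H121

open Monoid Module

section

variable {α X : Type*} [MulAction (FreeGroup α) X] {p : ℕ} [Fact p.Prime]

variable (α X p) in
/-- the space of functions killed by `n` differences -/
def VD (n : ℕ) : Submodule (ZMod p) (X → ZMod p) where
  carrier := {f | Deg α n f}
  add_mem' := fun h h' => h.add h'
  zero_mem' := deg_zero n
  smul_mem' := fun k _ h => h.smul k

theorem mem_VD {n : ℕ} {f : X → ZMod p} : f ∈ VD α X p n ↔ Deg α n f := Iff.rfl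

/-- the differences of a function -/
def difL (k : ℕ) : VD α X p (k + 1) →ₗ[ZMod p] (α → VD α X p k) where
  toFun f := fun a => ⟨dif (FreeGroup.of a) f.1, f.2 a⟩
  map_add' f g := by
    funext a
    apply Subtype.ext
    funext x
    simp [dif]
    ring
  map_smul' c f := by
    funext a
    apply Subtype.ext
    funext x
    simp [dif]
    ring

/-- the conditions -/
noncomputable def conL {I : Type*} (g : I → FreeGroup α) (dd : I → ℕ)
    (hg : ∀ i, Depth p (dd i + 1) (g i)) (J : Finset I) (k : ℕ) :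
    (α → VD α X p k) →ₗ[ZMod p] (∀ i : J, VD α X p (k - dd i.1)) where
  toFun c := fun i => ⟨av (fun e : X × α => (c e.2).1 e.1) (g i.1),
    deg_av_depth (c := fun e : X × α => (c e.2).1 e.1) (fun a => (c a).2) (hg i.1)⟩
  map_add' c c' := by
    funext i
    apply Subtype.ext
    funext x
    exact av_add (fun e : X × α => (c e.2).1 e.1) (fun e : X × α => (c' e.2).1 e.1) _ _
  map_smul' s c := by
    funext i
    apply Subtype.ext
    funext x
    exact (avL (p := p) (g i.1) x).map_smul s (fun e : X × α => (c e.2).1 e.1)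

end

section quot

variable {α : Type*} {p : ℕ} [Fact p.Prime] {I : Type*} (N : Subgroup (FreeGroup α)) [N.Normal]
  (g : I → FreeGroup α) (hN : N = Subgroup.normalClosure (Set.range g)) (dd : I → ℕ)
  (hg : ∀ i, Depth p (dd i + 1) (g i))

include hN

/-- a closed cochain of degree `k` is the difference of a function of degree `k + 1` -/
theorem exists_primitive (k : ℕ) (J : Finset I) (hJ : ∀ i, dd i < k → i ∈ J)
    (c : α → VD α (FreeGroup α ⧸ N) p k)
    (hc : conL g dd hg J k c = 0) : c ∈ LinearMap.range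
      (difL (α := α) (X := FreeGroup α ⧸ N) (p := p) k) := by
  classical
  let c' : (FreeGroup α ⧸ N) × α → ZMod p := fun e => (c e.2).1 e.1
  have h1 : ∀ i, ∀ x, av c' (g i) x = 0 := by
    intro i x
    by_cases hi : dd i < k
    · have h2 := congrFun hc ⟨i, hJ i hi⟩
      exact congrFun (congrArg Subtype.val h2) x
    · have h2 : Deg α (k - dd i) (av c' (g i)) :=
        deg_av_depth (c := c') (fun a => (c a).2) (hg i)
      have h3 : k - dd i = 0 := by omega
      rw [h3] at h2
      exact congrFun (show av c' (g i) = 0 from h2) x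
  have htriv : ∀ w ∈ N, ∀ x : FreeGroup α ⧸ N, w • x = x := by
    intro w hw x
    obtain ⟨x, rfl⟩ := QuotientGroup.mk_surjective x
    change ((w * x : FreeGroup α) : FreeGroup α ⧸ N) = x
    rw [QuotientGroup.mk_mul, (QuotientGroup.eq_one_iff w).2 hw, one_mul]
  let L : Subgroup (FreeGroup α) :=
    { carrier := {w | (∀ x : FreeGroup α ⧸ N, w • x = x) ∧ ∀ x, av c' w x = 0}
      one_mem' := ⟨fun x => one_smul _ x, fun x => av_one c' x⟩
      mul_mem' := fun {a b} ha hb => ⟨fun x => by rw [mul_smul, hb.1, ha.1], fun x => by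
        rw [av_mul, ha.2, hb.2, add_zero]⟩
      inv_mem' := fun {a} ha => ⟨fun x => by rw [inv_smul_eq_iff, ha.1], fun x => by
        rw [av_inv, ha.2, neg_zero]⟩ }
  have hL : L.Normal := by
    refine ⟨fun w hw u => ⟨fun x => ?_, fun x => ?_⟩⟩
    · rw [mul_smul, mul_smul, hw.1, smul_inv_smul]
    · rw [av_mul, av_mul, hw.2, hw.1, add_zero, av_inv, add_neg_cancel]
  have hNL : N ≤ L := by
    rw [hN]
    refine Subgroup.normalClosure_le_normal ?_
    rintro _ ⟨i, rfl⟩
    refine ⟨htriv _ ?_, h1 i⟩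
    rw [hN]
    exact Subgroup.subset_normalClosure ⟨i, rfl⟩
  let φ : FreeGroup α ⧸ N → ZMod p := fun x =>
    Quotient.liftOn' x (fun w => av c' w ((1 : FreeGroup α) : FreeGroup α ⧸ N)) (by
      intro a b hab
      have h2 : a⁻¹ * b ∈ N := QuotientGroup.leftRel_apply.1 hab
      have h3 := av_mul c' a (a⁻¹ * b) ((1 : FreeGroup α) : FreeGroup α ⧸ N)
      rw [mul_inv_cancel_left, htriv _ h2, (hNL h2).2, add_zero] at h3
      exact h3.symm)
  have hφ : ∀ w : FreeGroup α, φ (w : FreeGroup α ⧸ N) =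
      av c' w ((1 : FreeGroup α) : FreeGroup α ⧸ N) := fun w => rfl
  have hd : ∀ a, dif (FreeGroup.of a) φ = (c a).1 := by
    intro a
    funext x
    obtain ⟨w, rfl⟩ := QuotientGroup.mk_surjective x
    change φ ((FreeGroup.of a * w : FreeGroup α) : FreeGroup α ⧸ N) -
      φ (w : FreeGroup α ⧸ N) = _
    rw [hφ, hφ, av_mul, add_sub_cancel_right, av_of]
    change (c a).1 ((w * 1 : FreeGroup α) : FreeGroup α ⧸ N) = _
    rw [mul_one]
  refine ⟨⟨φ, fun a => ?_⟩, ?_⟩
  · rw [hd]
    exact (c a).2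
  · funext a
    exact Subtype.ext (hd a)

include hg in
/-- the dimension inequality -/
theorem dim_ineq [Fintype α] [Finite (FreeGroup α ⧸ N)]
    (k : ℕ) (J : Finset I) (hJ : ∀ i, dd i < k → i ∈ J) :
    1 + Fintype.card α * finrank (ZMod p) (VD α (FreeGroup α ⧸ N) p k) ≤
      finrank (ZMod p) (VD α (FreeGroup α ⧸ N) p (k + 1)) +
        ∑ i ∈ J, finrank (ZMod p) (VD α (FreeGroup α ⧸ N) p (k - dd i)) := by
  classical
  let _ : Fintype (FreeGroup α ⧸ N) := Fintype.ofFinite _
  have h1 : finrank (ZMod p) (LinearMap.ker (conL (X := FreeGroup α ⧸ N) g dd hg J k)) ≤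
      finrank (ZMod p)
        (LinearMap.range (difL (α := α) (X := FreeGroup α ⧸ N) (p := p) k)) := by
    refine Submodule.finrank_mono ?_
    intro c hc
    exact exists_primitive N g hN dd hg k J hJ c hc
  have h2 := LinearMap.finrank_range_add_finrank_ker
    (difL (α := α) (X := FreeGroup α ⧸ N) (p := p) k)
  have h3 := LinearMap.finrank_range_add_finrank_ker
    (conL (X := FreeGroup α ⧸ N) g dd hg J k)
  have h4 : finrank (ZMod p) (LinearMap.range (conL (X := FreeGroup α ⧸ N) g dd hg J k)) ≤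
      ∑ i ∈ J, finrank (ZMod p) (VD α (FreeGroup α ⧸ N) p (k - dd i)) := by
    refine (Submodule.finrank_le _).trans ?_
    rw [finrank_pi_fintype]
    exact (Finset.sum_coe_sort J fun i =>
      finrank (ZMod p) (VD α (FreeGroup α ⧸ N) p (k - dd i))).le
  have h5 : finrank (ZMod p) (α → VD α (FreeGroup α ⧸ N) p k) =
      Fintype.card α * finrank (ZMod p) (VD α (FreeGroup α ⧸ N) p k) := by
    rw [finrank_pi_fintype, Finset.sum_const, Finset.card_univ, smul_eq_mul]
  have h6 : 1 ≤ finrank (ZMod p)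
      (LinearMap.ker (difL (α := α) (X := FreeGroup α ⧸ N) (p := p) k)) := by
    have h7 : (⟨fun _ => 1, (deg_const 1).mono (by omega)⟩ :
        VD α (FreeGroup α ⧸ N) p (k + 1)) ∈
        LinearMap.ker (difL (α := α) (X := FreeGroup α ⧸ N) (p := p) k) := by
      rw [LinearMap.mem_ker]
      funext a
      apply Subtype.ext
      funext x
      simp [difL, dif]
    have h8 : (⟨_, h7⟩ : LinearMap.ker
        (difL (α := α) (X := FreeGroup α ⧸ N) (p := p) k)) ≠ 0 := by
      intro h
      have h9 : (fun _ : FreeGroup α ⧸ N => (1 : ZMod p)) = 0 :=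
        congrArg Subtype.val (congrArg Subtype.val h)
      have h10 := congrFun h9 ((1 : FreeGroup α) : FreeGroup α ⧸ N)
      exact one_ne_zero h10
    exact Nat.one_le_iff_ne_zero.2 fun h => h8 (by
      have := finrank_zero_iff.1 h
      exact Subsingleton.elim _ _)
  omega

end quot

theorem shift_sum (a : ℕ → ℝ) (ha : ∀ n, 0 ≤ a n) (ha0 : a 0 = 0) (t : ℝ) (ht : 0 ≤ t) (m : ℕ) :
    ∀ n : ℕ, ∑ k ∈ Finset.range n, a (k + 1 - m) * t ^ (k + 1) ≤
      t ^ m * ∑ k ∈ Finset.range n, a (k + 1) * t ^ (k + 1) := by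
  induction m with
  | zero => intro n; simp
  | succ m ih =>
    intro n
    cases n with
    | zero => simp
    | succ n =>
      rw [Finset.sum_range_succ']
      have h1 : a (0 + 1 - (m + 1)) = 0 := by
        have : 0 + 1 - (m + 1) = 0 := by omega
        rw [this, ha0]
      rw [h1, zero_mul, add_zero]
      have h2 : ∑ k ∈ Finset.range n, a (k + 1 + 1 - (m + 1)) * t ^ (k + 1 + 1) =
          t * ∑ k ∈ Finset.range n, a (k + 1 - m) * t ^ (k + 1) := by
        rw [Finset.mul_sum]
        refine Finset.sum_congr rfl fun k _ => ?_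
        have : k + 1 + 1 - (m + 1) = k + 1 - m := by omega
        rw [this, pow_succ]
        ring
      rw [h2, pow_succ']
      have h3 : ∑ k ∈ Finset.range n, a (k + 1) * t ^ (k + 1) ≤
          ∑ k ∈ Finset.range (n + 1), a (k + 1) * t ^ (k + 1) :=
        Finset.sum_le_sum_of_subset_of_nonneg (Finset.range_mono (by omega))
          fun k _ _ => mul_nonneg (ha _) (pow_nonneg ht _)
      calc t * ∑ k ∈ Finset.range n, a (k + 1 - m) * t ^ (k + 1)
          ≤ t * (t ^ m * ∑ k ∈ Finset.range n, a (k + 1) * t ^ (k + 1)) := by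
            gcongr
            exact ih n
        _ ≤ t * (t ^ m * ∑ k ∈ Finset.range (n + 1), a (k + 1) * t ^ (k + 1)) := by
            gcongr
        _ = t * t ^ m * _ := by ring

/-- the analytic part -/
theorem analytic {I : Type*} (a : ℕ → ℝ) (ha : ∀ n, 0 ≤ a n) (ha0 : a 0 = 0) (M : ℝ)
    (haM : ∀ n, a n ≤ M) (dd : I → ℕ) (D t δ : ℝ) (hD : 0 ≤ D) (ht0 : 0 < t) (ht1 : t < 1)
    (hδ : δ < D * t - 1) (hsum : ∀ J : Finset I, ∑ i ∈ J, t ^ dd i ≤ δ)
    (h : ∀ n : ℕ, ∃ J : Finset I, ∀ k < n, 1 + D * a k ≤ a (k + 1) + ∑ i ∈ J, a (k + 1 - dd i)) :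
    False := by
  have key : ∀ n : ℕ, 0 < n → (D * t - 1 - δ) *
      (∑ k ∈ Finset.range n, a (k + 1) * t ^ (k + 1)) ≤ D * t * (M * t ^ n) - t := by
    intro n hn
    obtain ⟨J, h1⟩ := h n
    set A := ∑ k ∈ Finset.range n, a (k + 1) * t ^ (k + 1) with hA
    have hA0 : 0 ≤ A := Finset.sum_nonneg fun k _ => mul_nonneg (ha _) (pow_nonneg ht0.le _)
    have h2 : ∑ k ∈ Finset.range n, (1 + D * a k) * t ^ (k + 1) ≤
        ∑ k ∈ Finset.range n, (a (k + 1) + ∑ i ∈ J, a (k + 1 - dd i)) * t ^ (k + 1) := by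
      refine Finset.sum_le_sum fun k hk => ?_
      exact mul_le_mul_of_nonneg_right (h1 k (Finset.mem_range.1 hk)) (pow_nonneg ht0.le _)
    have h3 : ∑ k ∈ Finset.range n, (a (k + 1) + ∑ i ∈ J, a (k + 1 - dd i)) * t ^ (k + 1) ≤
        A + δ * A := by
      have e1 : ∑ k ∈ Finset.range n, (a (k + 1) + ∑ i ∈ J, a (k + 1 - dd i)) * t ^ (k + 1) =
          A + ∑ i ∈ J, ∑ k ∈ Finset.range n, a (k + 1 - dd i) * t ^ (k + 1) := by
        rw [Finset.sum_comm, hA, ← Finset.sum_add_distrib]
        refine Finset.sum_congr rfl fun k _ => ?_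
        rw [add_mul, Finset.sum_mul]
      have e2 : ∑ i ∈ J, ∑ k ∈ Finset.range n, a (k + 1 - dd i) * t ^ (k + 1) ≤
          ∑ i ∈ J, t ^ dd i * A :=
        Finset.sum_le_sum fun i _ => shift_sum a ha ha0 t ht0.le (dd i) n
      have e3 : ∑ i ∈ J, t ^ dd i * A ≤ δ * A := by
        rw [← Finset.sum_mul]
        exact mul_le_mul_of_nonneg_right (hsum J) hA0
      rw [e1]
      linarith
    have h4 : t + D * t * (A - M * t ^ n) ≤
        ∑ k ∈ Finset.range n, (1 + D * a k) * t ^ (k + 1) := by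
      obtain ⟨m, rfl⟩ : ∃ m, n = m + 1 := ⟨n - 1, by omega⟩
      have h5 : ∑ k ∈ Finset.range (m + 1), (1 + D * a k) * t ^ (k + 1) =
          ∑ k ∈ Finset.range (m + 1), t ^ (k + 1) +
            D * t * ∑ k ∈ Finset.range (m + 1), a k * t ^ k := by
        rw [Finset.mul_sum, ← Finset.sum_add_distrib]
        refine Finset.sum_congr rfl fun k _ => ?_
        rw [pow_succ]
        ring
      have h6 : t ≤ ∑ k ∈ Finset.range (m + 1), t ^ (k + 1) := by
        have := Finset.single_le_sum (f := fun k => t ^ (k + 1))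
          (fun k _ => pow_nonneg ht0.le _) (Finset.mem_range.2 (Nat.succ_pos m))
        simpa using this
      have h7 : A - M * t ^ (m + 1) ≤ ∑ k ∈ Finset.range (m + 1), a k * t ^ k := by
        rw [Finset.sum_range_succ', ha0, zero_mul, add_zero, hA, Finset.sum_range_succ]
        have h8 : a (m + 1) * t ^ (m + 1) ≤ M * t ^ (m + 1) :=
          mul_le_mul_of_nonneg_right (haM _) (pow_nonneg ht0.le _)
        linarith
      have h8 : (0 : ℝ) ≤ D * t := mul_nonneg hD ht0.le
      rw [h5]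
      have h9 := mul_le_mul_of_nonneg_left h7 h8
      linarith
    have h5 := h4.trans (h2.trans h3)
    have h6 : (D * t - 1 - δ) * A = D * t * (A - M * t ^ n) + D * t * (M * t ^ n) -
        (A + δ * A) := by ring
    rw [h6]
    linarith
  have hlim : Filter.Tendsto (fun n : ℕ => D * t * (M * t ^ n) - t)
      Filter.atTop (nhds (D * t * (M * 0) - t)) :=
    (((tendsto_pow_atTop_nhds_zero_of_lt_one ht0.le ht1).const_mul _).const_mul _).sub_const _
  have h1 : D * t * (M * 0) - t < 0 := by simp [ht0]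
  have h2 := hlim.eventually (gt_mem_nhds h1)
  obtain ⟨n, hn⟩ := (h2.and (Filter.eventually_gt_atTop 0)).exists
  have h3 := key n hn.2
  have h4 : 0 ≤ (D * t - 1 - δ) *
      (∑ k ∈ Finset.range n, a (k + 1) * t ^ (k + 1)) :=
    mul_nonneg (by linarith) (Finset.sum_nonneg fun k _ => mul_nonneg (ha _) (pow_nonneg ht0.le _))
  linarith [hn.1]

/-- **Golod-Shafarevich.** -/
theorem golod_shafarevich {α : Type*} [Fintype α] {p : ℕ} [Fact p.Prime] {I : Type*}
    (g : I → FreeGroup α) (dd : I → ℕ) (hg : ∀ i, Depth p (dd i) (g i)) (hd : ∀ i, 1 ≤ dd i)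
    (t δ : ℝ) (ht0 : 0 < t) (ht1 : t < 1) (hδ : δ < Fintype.card α * t - 1)
    (hsum : ∀ J : Finset I, ∑ i ∈ J, t ^ dd i ≤ δ) (N : Subgroup (FreeGroup α)) [N.Normal]
    (hN : N = Subgroup.normalClosure (Set.range g)) : Infinite (FreeGroup α ⧸ N) := by
  classical
  by_contra hinf
  rw [not_infinite_iff_finite] at hinf
  let _ : Fintype (FreeGroup α ⧸ N) := Fintype.ofFinite _
  have hfin : ∀ n : ℕ, {i | dd i ≤ n}.Finite := by
    intro n
    by_contra hcon
    have hcon' : {i | dd i ≤ n}.Infinite := hcon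
    obtain ⟨m, hm⟩ := exists_nat_gt (δ / t ^ n)
    obtain ⟨J, hJ, hJm⟩ := hcon'.exists_subset_card_eq m
    have h1 := hsum J
    have h2 : (m : ℝ) * t ^ n ≤ ∑ i ∈ J, t ^ dd i := by
      rw [← hJm, ← nsmul_eq_mul, ← Finset.sum_const]
      refine Finset.sum_le_sum fun i hi => ?_
      exact pow_le_pow_of_le_one ht0.le ht1.le (hJ hi)
    have h3 : 0 < t ^ n := pow_pos ht0 n
    rw [div_lt_iff₀ h3] at hm
    linarith
  refine analytic (fun n => (finrank (ZMod p) (VD α (FreeGroup α ⧸ N) p n) : ℝ))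
    (fun n => Nat.cast_nonneg _) ?_ (Fintype.card (FreeGroup α ⧸ N)) ?_ dd (Fintype.card α) t δ
    (Nat.cast_nonneg _) ht0 ht1 hδ hsum ?_
  · have h1 : VD α (FreeGroup α ⧸ N) p 0 = ⊥ := by
      rw [eq_bot_iff]
      intro f hf
      exact hf
    change ((finrank (ZMod p) (VD α (FreeGroup α ⧸ N) p 0) : ℕ) : ℝ) = 0
    rw [h1, finrank_bot, Nat.cast_zero]
  · intro n
    have h1 := Submodule.finrank_le (VD α (FreeGroup α ⧸ N) p n)
    rw [finrank_fintype_fun_eq_card] at h1
    change ((finrank (ZMod p) (VD α (FreeGroup α ⧸ N) p n) : ℕ) : ℝ) ≤ _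
    exact_mod_cast h1
  · intro n
    refine ⟨(hfin n).toFinset, fun k hk => ?_⟩
    have h2 := dim_ineq (p := p) N g hN (fun i => dd i - 1) (fun i => by
      rw [Nat.sub_add_cancel (hd i)]; exact hg i) k (hfin n).toFinset (by
        intro i hi
        rw [Set.Finite.mem_toFinset]
        change dd i ≤ n
        omega)
    have h3 : ∀ i, k - (dd i - 1) = k + 1 - dd i := by
      intro i
      have := hd i
      omega
    have h4 : ∑ i ∈ (hfin n).toFinset,
        finrank (ZMod p) (VD α (FreeGroup α ⧸ N) p (k - (dd i - 1))) =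
        ∑ i ∈ (hfin n).toFinset,
          finrank (ZMod p) (VD α (FreeGroup α ⧸ N) p (k + 1 - dd i)) :=
      Finset.sum_congr rfl fun i _ =>
        congrArg (fun m => finrank (ZMod p) (VD α (FreeGroup α ⧸ N) p m)) (h3 i)
    have h5 : 1 + Fintype.card α * finrank (ZMod p) (VD α (FreeGroup α ⧸ N) p k) ≤
      finrank (ZMod p) (VD α (FreeGroup α ⧸ N) p (k + 1)) +
        ∑ i ∈ (hfin n).toFinset,
          finrank (ZMod p) (VD α (FreeGroup α ⧸ N) p (k + 1 - dd i)) := by
      rw [← h4]
      exact h2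
    exact_mod_cast h5

end Vale.Agent.P192.H121
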