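import Vale.Agent.P192.H121.Series3
import Vale.Agent.P192.H121.Golod

/-!
# P192: deep relators, asymptotic form
-/

namespace Vale.Agent.P192.H121

open Monoid

theorem rsq_pos {α : Type*} [DecidableEq α] (x : α) (R : Finset (FreeGroup α))
    (hT : TorsRel (R : Set (FreeGroup α))) : 1 ≤ rsq R := by
  by_contra hcon
  have h0 : rsq R = 0 := by omega
  have h1 : ∀ r ∈ R, r = 1 := by
    intro r hr
    have h2 : r.norm ^ 2 ≤ rsq R :=
      Finset.single_le_sum (f := fun r : FreeGroup α => r.norm ^ 2) (fun _ _ => Nat.zero_le _) hr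
    rw [h0, Nat.le_zero, pow_eq_zero_iff two_ne_zero] at h2
    exact FreeGroup.norm_eq_zero.1 h2
  obtain ⟨k, hk⟩ := hT (FreeGroup.of x)
  have h2 : Subgroup.normalClosure (R : Set (FreeGroup α)) ≤ ⊥ := by
    refine Subgroup.normalClosure_le_normal ?_
    intro r hr
    rw [h1 r hr]
    exact one_mem _
  have h3 := Subgroup.mem_bot.1 (h2 hk)
  let z : Multiplicative ℤ := Multiplicative.ofAdd 1
  have h4 := congrArg (FreeGroup.lift fun _ : α => z) h3
  rw [map_pow, FreeGroup.lift_apply_of, map_one] at h4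
  have h5 := congrArg Multiplicative.toAdd h4
  rw [toAdd_pow, toAdd_one, nsmul_eq_mul] at h5
  have h6 : Multiplicative.toAdd z = 1 := rfl
  rw [h6, mul_one] at h5
  have h7 : (0 : ℤ) < ((k + 1 : ℕ) : ℤ) := by exact_mod_cast Nat.succ_pos k
  omega

theorem Depth.mono {p m n : ℕ} {G : Type*} [Group G] {g : G} (h : Depth p m g) (hn : 1 ≤ n)
    (hnm : n ≤ m) : Depth p n g := by
  have h1 : augI p G * augI p G ≤ augI p G := by
    rw [Submodule.mul_le]
    intro a ha b hb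
    induction ha using Submodule.span_induction with
    | mem a ha =>
      induction hb using Submodule.span_induction with
      | mem b hb =>
        obtain ⟨g, rfl⟩ := ha
        obtain ⟨h, rfl⟩ := hb
        have h2 : (MonoidAlgebra.of (ZMod p) G g - 1) * (MonoidAlgebra.of (ZMod p) G h - 1) =
            (MonoidAlgebra.of (ZMod p) G (g * h) - 1) - (MonoidAlgebra.of (ZMod p) G g - 1) -
              (MonoidAlgebra.of (ZMod p) G h - 1) := by
          rw [map_mul]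
          noncomm_ring
        rw [h2]
        exact Submodule.sub_mem _ (Submodule.sub_mem _ (Submodule.subset_span ⟨_, rfl⟩)
          (Submodule.subset_span ⟨_, rfl⟩)) (Submodule.subset_span ⟨_, rfl⟩)
      | zero => rw [mul_zero]; exact Submodule.zero_mem _
      | add b b' _ _ h h' => rw [mul_add]; exact Submodule.add_mem _ h h'
      | smul k b _ h => rw [mul_smul_comm]; exact Submodule.smul_mem _ _ h
    | zero => rw [zero_mul]; exact Submodule.zero_mem _
    | add b b' _ _ h h' => rw [add_mul]; exact Submodule.add_mem _ h h'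
    | smul k b _ h => rw [smul_mul_assoc]; exact Submodule.smul_mem _ _ h
  have h2 : ∀ m, 1 ≤ m → augI p G ^ (m + 1) ≤ augI p G ^ m := by
    intro m hm
    obtain ⟨k, rfl⟩ : ∃ k, m = k + 1 := ⟨m - 1, by omega⟩
    rw [pow_succ, pow_succ, mul_assoc]
    exact Submodule.mul_le.2 fun a ha b hb => Submodule.mul_mem_mul ha (h1 hb)
  have h3 : ∀ d, augI p G ^ (n + d) ≤ augI p G ^ n := by
    intro d
    induction d with
    | zero => exact le_rfl
    | succ d ih => exact (h2 (n + d) (by omega)).trans ih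
  obtain ⟨d, rfl⟩ := Nat.exists_eq_add_of_le hnm
  exact h3 d h

/-- the choice of the parameter -/
theorem exists_scale (C q ℓ : ℕ) (hC : 1 ≤ C) (hq : 1 ≤ q) (hℓ : 2 ≤ ℓ) (D : ℕ)
    (hD : q + C + 1 ≤ D) :
    ∃ K : ℕ, q + C * (K + 1) * ℓ ^ K + 1 ≤ D ∧
      (D : ℝ) ≤ ((q + C * ℓ : ℕ) : ℝ) * (3 * Real.log (D + 1)) * (ℓ : ℝ) ^ K := by
  classical
  let P : ℕ → Prop := fun K => q + C * (K + 1) * ℓ ^ K + 1 ≤ D
  have hP0 : P 0 := by
    change q + C * (0 + 1) * ℓ ^ 0 + 1 ≤ D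
    simpa using hD
  set K := Nat.findGreatest P D with hK
  have hPK : P K := Nat.findGreatest_spec (Nat.zero_le D) hP0
  have hpow : ∀ n : ℕ, 1 ≤ ℓ ^ n := fun n => Nat.one_le_pow _ _ (by omega)
  have hKD : K + 1 ≤ D := by
    have h1 : K + 1 ≤ C * (K + 1) * ℓ ^ K := by
      calc K + 1 = 1 * (K + 1) * 1 := by ring
        _ ≤ C * (K + 1) * ℓ ^ K :=
          Nat.mul_le_mul (Nat.mul_le_mul_right _ hC) (hpow K)
    have h2 : q + C * (K + 1) * ℓ ^ K + 1 ≤ D := hPK
    omega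
  have hPK1 : ¬ P (K + 1) := Nat.findGreatest_is_greatest (Nat.lt_succ_self K) hKD
  refine ⟨K, hPK, ?_⟩
  have h1 : D ≤ q + C * (K + 1 + 1) * ℓ ^ (K + 1) := by
    have h2 : ¬ (q + C * (K + 1 + 1) * ℓ ^ (K + 1) + 1 ≤ D) := hPK1
    omega
  have h2 : D ≤ (q + C * ℓ) * (K + 2) * ℓ ^ K := by
    refine h1.trans ?_
    have h3 : q ≤ q * (K + 2) * ℓ ^ K := by
      calc q = q * 1 * 1 := by ring
        _ ≤ q * (K + 2) * ℓ ^ K := Nat.mul_le_mul (Nat.mul_le_mul_left _ (by omega)) (hpow K)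
    calc q + C * (K + 1 + 1) * ℓ ^ (K + 1) ≤ q * (K + 2) * ℓ ^ K + C * (K + 1 + 1) * ℓ ^ (K + 1) :=
          Nat.add_le_add_right h3 _
      _ = (q + C * ℓ) * (K + 2) * ℓ ^ K := by ring
  have h3 : ℓ ^ K ≤ D := by
    have h4 : ℓ ^ K ≤ C * (K + 1) * ℓ ^ K := by
      calc ℓ ^ K = 1 * ℓ ^ K := by ring
        _ ≤ C * (K + 1) * ℓ ^ K := Nat.mul_le_mul_right _ (Nat.mul_pos (by omega) (by omega))
    have h5 : q + C * (K + 1) * ℓ ^ K + 1 ≤ D := hPK
    omega
  have hlog2 : (0.69 : ℝ) < Real.log 2 := by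
    have := Real.log_two_gt_d9
    linarith
  have h4 : (K : ℝ) * Real.log 2 ≤ Real.log (D + 1) := by
    rw [← Real.log_pow]
    refine Real.log_le_log (by positivity) ?_
    have h5 : 2 ^ K ≤ D := (Nat.pow_le_pow_left hℓ K).trans h3
    have h6 : ((2 ^ K : ℕ) : ℝ) ≤ D := by exact_mod_cast h5
    push_cast at h6
    linarith
  have h5 : 2 * Real.log 2 ≤ Real.log (D + 1) := by
    have : (2 : ℝ) * Real.log 2 = Real.log (2 ^ 2) := by rw [Real.log_pow]; norm_num
    rw [this]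
    refine Real.log_le_log (by positivity) ?_
    have h6 : ((3 : ℕ) : ℝ) ≤ D := by exact_mod_cast (show 3 ≤ D by omega)
    push_cast at h6
    linarith
  have h6 : (K : ℝ) + 2 ≤ 3 * Real.log (D + 1) := by
    have h7 : ((K : ℝ) + 2) * Real.log 2 ≤ 2 * Real.log (D + 1) := by linarith
    have h8 : (0 : ℝ) ≤ K + 2 := by positivity
    nlinarith
  have h7 : (D : ℝ) ≤ ((q + C * ℓ : ℕ) : ℝ) * ((K : ℝ) + 2) * (ℓ : ℝ) ^ K := by
    have : (D : ℝ) ≤ (((q + C * ℓ) * (K + 2) * ℓ ^ K : ℕ) : ℝ) := by exact_mod_cast h2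
    push_cast at this
    push_cast
    exact this
  refine h7.trans ?_
  gcongr

/-- **Deep relators, asymptotic form.** -/
theorem deep_asymptotic (p : ℕ) [Fact p.Prime] : ∃ c : ℝ, 0 < c ∧ ∀ (α : Type*) [Fintype α]
    [DecidableEq α], 2 ≤ Fintype.card α → ∀ (D : ℕ) (R : Finset (FreeGroup α)),
      TorsRel (R : Set (FreeGroup α)) → (∀ r ∈ R, Depth p D r) →
      Real.exp (c * D / Real.log (D + 1)) ≤ 1 + rsq R := by
  have hp : p.Prime := Fact.out
  have hp2 := hp.two_le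
  obtain ⟨e, he⟩ : ∃ e : ℕ, 3 ≤ p ^ e := ⟨2, by nlinarith⟩
  set q := p ^ e with hq
  set C := 3 * (p - 1) * q with hCdef
  have hC : 1 ≤ C := Nat.mul_pos (Nat.mul_pos (by norm_num) (by omega)) (by omega)
  have hlog2 : 0 < Real.log 2 := Real.log_pos (by norm_num)
  have hB : (0 : ℝ) < ((q + C * (q - 1) : ℕ) : ℝ) := by
    exact_mod_cast (show 0 < q + C * (q - 1) by omega)
  have hT : (0 : ℝ) < ((q + C + 1 : ℕ) : ℝ) := by exact_mod_cast (show 0 < q + C + 1 by omega)
  refine ⟨min (Real.log 2 / (3 * ((q + C * (q - 1) : ℕ) : ℝ)))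
    (Real.log 2 * Real.log 2 / ((q + C + 1 : ℕ) : ℝ)), by positivity, ?_⟩
  intro α _ _ hα D R hR hD
  obtain ⟨x, y, hxy⟩ := Fintype.exists_pair_of_one_lt_card (show 1 < Fintype.card α by omega)
  rcases Nat.eq_zero_or_pos D with rfl | hD0
  · simp
  have hlogD : Real.log 2 ≤ Real.log (D + 1) := by
    refine Real.log_le_log (by norm_num) ?_
    have : ((1 : ℕ) : ℝ) ≤ D := by exact_mod_cast hD0
    push_cast at this
    linarith
  have hlogD0 : 0 < Real.log (D + 1) := hlog2.trans_le hlogD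
  have hDr : (0 : ℝ) < D := by exact_mod_cast hD0
  by_cases hsmall : D < q + C + 1
  · have h1 := rsq_pos x R hR
    have h2 : (1 : ℝ) ≤ rsq R := by exact_mod_cast h1
    have h3 : min (Real.log 2 / (3 * ((q + C * (q - 1) : ℕ) : ℝ)))
        (Real.log 2 * Real.log 2 / ((q + C + 1 : ℕ) : ℝ)) * D / Real.log (D + 1) ≤
        Real.log 2 := by
      rw [div_le_iff₀ hlogD0]
      have h4 : (D : ℝ) ≤ ((q + C + 1 : ℕ) : ℝ) := by exact_mod_cast hsmall.le
      calc _ ≤ (Real.log 2 * Real.log 2 / ((q + C + 1 : ℕ) : ℝ)) * D := by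
            gcongr
            exact min_le_right _ _
        _ ≤ (Real.log 2 * Real.log 2 / ((q + C + 1 : ℕ) : ℝ)) * ((q + C + 1 : ℕ) : ℝ) := by
            gcongr
        _ = Real.log 2 * Real.log 2 := by field_simp
        _ ≤ Real.log 2 * Real.log (D + 1) := by gcongr
    calc _ ≤ Real.exp (Real.log 2) := Real.exp_le_exp.2 h3
      _ = 2 := Real.exp_log (by norm_num)
      _ ≤ 1 + rsq R := by linarith
  · push Not at hsmall
    obtain ⟨K, hK1, hK2⟩ := exists_scale C q (q - 1) hC (by omega) (by omega) D hsmall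
    have h1 : ∀ r ∈ R,
        Depth p (p ^ e + 3 * (p - 1) * p ^ e * (K + 1) * (p ^ e - 1) ^ K + 1) r :=
      fun r hr => (hD r hr).mono (by omega) hK1
    have h2 := deep_relators x y hxy R hR p e K he h1
    have h3 : 2 ^ ((q - 1) ^ K) ≤ 1 + rsq R := by
      calc 2 ^ ((q - 1) ^ K) ≤ p ^ ((q - 1) ^ K) := Nat.pow_le_pow_left hp2 _
        _ ≤ p ^ ((q - 1) ^ K) * Fintype.card α := Nat.le_mul_of_pos_right _ (by omega)
        _ ≤ _ := h2
    have h4 : ((2 ^ ((q - 1) ^ K) : ℕ) : ℝ) ≤ ((1 + rsq R : ℕ) : ℝ) := by exact_mod_cast h3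
    push_cast at h4
    have h5 : min (Real.log 2 / (3 * ((q + C * (q - 1) : ℕ) : ℝ)))
        (Real.log 2 * Real.log 2 / ((q + C + 1 : ℕ) : ℝ)) * D / Real.log (D + 1) ≤
        Real.log 2 * ((q - 1 : ℕ) : ℝ) ^ K := by
      rw [div_le_iff₀ hlogD0]
      calc _ ≤ (Real.log 2 / (3 * ((q + C * (q - 1) : ℕ) : ℝ))) * D := by
            gcongr
            exact min_le_left _ _
        _ ≤ (Real.log 2 / (3 * ((q + C * (q - 1) : ℕ) : ℝ))) *
            (((q + C * (q - 1) : ℕ) : ℝ) * (3 * Real.log (D + 1)) * ((q - 1 : ℕ) : ℝ) ^ K) := by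
            gcongr
        _ = Real.log 2 * ((q - 1 : ℕ) : ℝ) ^ K * Real.log (D + 1) := by
            generalize ((q + C * (q - 1) : ℕ) : ℝ) = b at hB
            generalize ((q - 1 : ℕ) : ℝ) = l
            field_simp
    calc _ ≤ Real.exp (Real.log 2 * ((q - 1 : ℕ) : ℝ) ^ K) := Real.exp_le_exp.2 h5
      _ = (2 : ℝ) ^ ((q - 1) ^ K) := by
          rw [← Nat.cast_pow, mul_comm, Real.exp_nat_mul, Real.exp_log (by norm_num)]
      _ ≤ 1 + rsq R := h4

end Vale.Agent.P192.H121
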