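import Vale.Agent.P192.H121.Lin

/-!
# P192: polynomial functions on sets with an action of a free group
-/

namespace Vale.Agent.P192.H121

open Monoid

variable {α X : Type*} [MulAction (FreeGroup α) X] {p : ℕ}

/-- the difference operator -/
def dif (g : FreeGroup α) (f : X → ZMod p) (x : X) : ZMod p := f (g • x) - f x

variable (α) in
/-- `f` is killed by `n` differences. -/
def Deg : ℕ → (X → ZMod p) → Prop
  | 0, f => f = 0
  | n + 1, f => ∀ a : α, Deg n (dif (FreeGroup.of a) f)

theorem deg_zero (n : ℕ) : Deg α n (0 : X → ZMod p) := by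
  induction n with
  | zero => rfl
  | succ n ih =>
    intro a
    have : dif (FreeGroup.of a) (0 : X → ZMod p) = 0 := by
      funext x; simp [dif]
    rw [this]
    exact ih

theorem Deg.succ {n : ℕ} {f : X → ZMod p} (h : Deg α n f) : Deg α (n + 1) f := by
  induction n generalizing f with
  | zero =>
    have h0 : f = 0 := h
    rw [h0]
    exact deg_zero _
  | succ n ih => exact fun a => ih (h a)

theorem Deg.mono {n m : ℕ} (hnm : n ≤ m) {f : X → ZMod p} (h : Deg α n f) : Deg α m f := by
  induction hnm with
  | refl => exact h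
  | step _ ih => exact ih.succ

theorem Deg.add {n : ℕ} {f g : X → ZMod p} (hf : Deg α n f) (hg : Deg α n g) : Deg α n (f + g) := by
  induction n generalizing f g with
  | zero =>
    have h1 : f = 0 := hf
    have h2 : g = 0 := hg
    change f + g = 0
    rw [h1, h2, add_zero]
  | succ n ih =>
    intro a
    have : dif (FreeGroup.of a) (f + g) = dif (FreeGroup.of a) f + dif (FreeGroup.of a) g := by
      funext x; simp [dif]; ring
    rw [this]
    exact ih (hf a) (hg a)

theorem Deg.smul {n : ℕ} {f : X → ZMod p} (hf : Deg α n f) (k : ZMod p) : Deg α n (k • f) := by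
  induction n generalizing f with
  | zero =>
    have h1 : f = 0 := hf
    change k • f = 0
    rw [h1, smul_zero]
  | succ n ih =>
    intro a
    have : dif (FreeGroup.of a) (k • f) = k • dif (FreeGroup.of a) f := by
      funext x; simp [dif]; ring
    rw [this]
    exact ih (hf a)

theorem Deg.neg {n : ℕ} {f : X → ZMod p} (hf : Deg α n f) : Deg α n (-f) := by
  have := hf.smul (-1)
  rwa [neg_smul, one_smul] at this

theorem Deg.sub {n : ℕ} {f g : X → ZMod p} (hf : Deg α n f) (hg : Deg α n g) : Deg α n (f - g) := by
  rw [sub_eq_add_neg]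
  exact hf.add hg.neg

theorem Deg.sum {ι : Type*} {n : ℕ} (s : Finset ι) (f : ι → X → ZMod p)
    (h : ∀ i ∈ s, Deg α n (f i)) : Deg α n (∑ i ∈ s, f i) := by
  classical
  induction s using Finset.induction_on with
  | empty => rw [Finset.sum_empty]; exact deg_zero n
  | insert a s ha ih =>
    rw [Finset.sum_insert ha]
    exact (h a (Finset.mem_insert_self _ _)).add
      (ih fun i hi => h i (Finset.mem_insert_of_mem hi))

/-- translation -/
def tr (g : FreeGroup α) (f : X → ZMod p) (x : X) : ZMod p := f (g • x)

theorem tr_mul (g h : FreeGroup α) (f : X → ZMod p) : tr (g * h) f = tr h (tr g f) := by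
  funext x; simp [tr, mul_smul]

theorem tr_eq (g : FreeGroup α) (f : X → ZMod p) : tr g f = dif g f + f := by
  funext x; simp [tr, dif]

theorem Deg.tr_of {n : ℕ} {f : X → ZMod p} (hf : Deg α n f) (a : α) :
    Deg α n (tr (FreeGroup.of a) f) := by
  rw [tr_eq]
  cases n with
  | zero =>
    have h1 : f = 0 := hf
    rw [h1]
    have : dif (FreeGroup.of a) (0 : X → ZMod p) = 0 := by
      funext x; simp [dif]
    rw [this, add_zero]
    exact deg_zero 0
  | succ n => exact (hf a).succ.add hf

theorem Deg.tr_inv {n : ℕ} {f : X → ZMod p} (hf : Deg α n f) (a : α) :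
    Deg α n (tr (FreeGroup.of a)⁻¹ f) := by
  induction n generalizing f with
  | zero =>
    have h1 : f = 0 := hf
    change tr _ f = 0
    rw [h1]
    rfl
  | succ n ih =>
    have : tr (FreeGroup.of a)⁻¹ f = f - tr (FreeGroup.of a)⁻¹ (dif (FreeGroup.of a) f) := by
      funext x
      simp only [tr, Pi.sub_apply, dif, smul_inv_smul]
      ring
    rw [this]
    exact hf.sub (ih (hf a)).succ

theorem Deg.tr {n : ℕ} {f : X → ZMod p} (hf : Deg α n f) (g : FreeGroup α) :
    Deg α n (tr g f) := by
  induction g using FreeGroup.induction_on generalizing f with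
  | C1 =>
    have : Vale.Agent.P192.H121.tr (1 : FreeGroup α) f = f := by
      funext x; simp [Vale.Agent.P192.H121.tr]
    rw [this]; exact hf
  | of a => exact hf.tr_of a
  | inv_of a _ => exact hf.tr_inv a
  | mul g h hg hh => rw [tr_mul]; exact hh (hg hf)

theorem Deg.dif {n : ℕ} {f : X → ZMod p} (hf : Deg α (n + 1) f) (g : FreeGroup α) :
    Deg α n (dif g f) := by
  induction g using FreeGroup.induction_on with
  | C1 =>
    have : Vale.Agent.P192.H121.dif (1 : FreeGroup α) f = 0 := by
      funext x; simp [Vale.Agent.P192.H121.dif]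
    rw [this]; exact deg_zero n
  | of a => exact hf a
  | inv_of a _ =>
    have : Vale.Agent.P192.H121.dif (FreeGroup.of a)⁻¹ f =
        -(Vale.Agent.P192.H121.tr (FreeGroup.of a)⁻¹
          (Vale.Agent.P192.H121.dif (FreeGroup.of a) f)) := by
      funext x
      simp [Vale.Agent.P192.H121.dif, Vale.Agent.P192.H121.tr]
    rw [this]
    exact ((hf a).tr _).neg
  | mul g h hg hh =>
    have : Vale.Agent.P192.H121.dif (g * h) f =
        Vale.Agent.P192.H121.tr h (Vale.Agent.P192.H121.dif g f) +
          Vale.Agent.P192.H121.dif h f := by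
      funext x
      simp [Vale.Agent.P192.H121.dif, Vale.Agent.P192.H121.tr, mul_smul]
    rw [this]
    exact (hg.tr h).add hh

theorem deg_const (k : ZMod p) : Deg α 1 (fun _ : X => k) := by
  intro a
  change Vale.Agent.P192.H121.dif (FreeGroup.of a) _ = 0
  funext x
  simp [Vale.Agent.P192.H121.dif]

theorem Deg.mul {m n : ℕ} {f g : X → ZMod p} (hf : Deg α (m + 1) f) (hg : Deg α (n + 1) g) :
    Deg α (m + n + 1) (f * g) := by
  induction h : m + n using Nat.strong_induction_on generalizing m n f g with
  | _ s ih =>
    subst h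
    intro a
    have e1 : Vale.Agent.P192.H121.dif (FreeGroup.of a) (f * g) =
        Vale.Agent.P192.H121.dif (FreeGroup.of a) f * Vale.Agent.P192.H121.tr (FreeGroup.of a) g +
          f * Vale.Agent.P192.H121.dif (FreeGroup.of a) g := by
      funext x
      simp only [Vale.Agent.P192.H121.dif, Vale.Agent.P192.H121.tr, Pi.mul_apply, Pi.add_apply]
      ring
    rw [e1]
    refine Deg.add ?_ ?_
    · cases m with
      | zero =>
        have h0 : Vale.Agent.P192.H121.dif (FreeGroup.of a) f = 0 := hf a
        rw [h0, zero_mul]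
        exact deg_zero _
      | succ m =>
        have := ih (m + n) (by omega) (hf a) (hg.tr (FreeGroup.of a)) rfl
        exact this.mono (by omega)
    · cases n with
      | zero =>
        have h0 : Vale.Agent.P192.H121.dif (FreeGroup.of a) g = 0 := hg a
        rw [h0, mul_zero]
        exact deg_zero _
      | succ n =>
        have := ih (m + n) (by omega) hf (hg a) rfl
        exact this.mono (by omega)

theorem Deg.prod {ι : Type*} (s : Finset ι) (b : ι → ℕ) (f : ι → X → ZMod p)
    (h : ∀ i ∈ s, Deg α (b i + 1) (f i)) : Deg α ((∑ i ∈ s, b i) + 1) (∏ i ∈ s, f i) := by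
  classical
  induction s using Finset.induction_on with
  | empty =>
    rw [Finset.sum_empty, Finset.prod_empty]
    exact deg_const 1
  | insert a s ha ih =>
    rw [Finset.sum_insert ha, Finset.prod_insert ha]
    exact (h a (Finset.mem_insert_self _ _)).mul
      (ih fun i hi => h i (Finset.mem_insert_of_mem hi))

theorem Deg.pow {b : ℕ} {f : X → ZMod p} (h : Deg α (b + 1) f) (k : ℕ) :
    Deg α (k * b + 1) (f ^ k) := by
  have := Deg.prod (Finset.range k) (fun _ => b) (fun _ => f) (fun _ _ => h)
  rwa [Finset.sum_const, Finset.card_range, smul_eq_mul, Finset.prod_const,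
    Finset.card_range] at this

/-- all functions on a set with good coordinates are polynomials -/
theorem deg_all {ι : Type*} [Fintype ι] [Finite X] (E : ι → X → X → ZMod p)
    (h1 : ∀ i v, E i v v = 1) (h2 : ∀ v x, v ≠ x → ∃ i, E i v x = 0) (b : ι → ℕ)
    (hb : ∀ i v, Deg α (b i + 1) (E i v)) (f : X → ZMod p) : Deg α ((∑ i, b i) + 1) f := by
  classical
  let _ : Fintype X := Fintype.ofFinite X
  have h3 : f = ∑ v : X, f v • ∏ i, E i v := by
    funext x
    rw [Finset.sum_apply, Finset.sum_eq_single x]
    · simp [h1]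
    · intro v _ hv
      obtain ⟨i, hi⟩ := h2 v x hv
      rw [Pi.smul_apply, Finset.prod_apply, Finset.prod_eq_zero (Finset.mem_univ i) hi,
        smul_zero]
    · intro h
      exact absurd (Finset.mem_univ x) h
  rw [h3]
  refine Deg.sum _ _ fun v _ => Deg.smul ?_ _
  exact Deg.prod _ b _ fun i _ => hb i v

/-- indicators of the level sets of a polynomial -/
theorem deg_indicator [Fact p.Prime] {b : ℕ} {f : X → ZMod p} (h : Deg α (b + 1) f) (t : ZMod p) :
    Deg α ((p - 1) * b + 1) (fun x : X => if f x = t then (1 : ZMod p) else 0) := by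
  have h1 : (fun x : X => if f x = t then (1 : ZMod p) else 0) =
      (fun _ => 1) - (f - fun _ => t) ^ (p - 1) := by
    funext x
    simp only [Pi.sub_apply, Pi.pow_apply]
    split_ifs with hx
    · rw [hx, sub_self, zero_pow, sub_zero]
      have := (Fact.out : p.Prime).one_lt
      omega
    · rw [ZMod.pow_card_sub_one_eq_one (sub_ne_zero.2 hx), sub_self]
  rw [h1]
  refine ((deg_const 1).mono (by omega)).sub (Deg.pow ?_ _)
  exact h.sub ((deg_const t).mono (by omega))

end Vale.Agent.P192.H121
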