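import Vale.Agent.P192.H121.Deg

/-!
# P192: powers of the augmentation ideal
-/

namespace Vale.Agent.P192.H121

open Monoid

/-- The augmentation ideal of the group algebra over the field with `p` elements (the span of the
`g - 1`). -/
noncomputable def augI (p : ℕ) (G : Type*) [Group G] : Submodule (ZMod p) (MonoidAlgebra (ZMod p) G) :=
  Submodule.span (ZMod p) (Set.range fun g : G => MonoidAlgebra.of (ZMod p) G g - 1)

/-- `g - 1` lies in the `n`-th power of the augmentation ideal. -/
def Depth (p n : ℕ) {G : Type*} [Group G] (g : G) : Prop :=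
  MonoidAlgebra.of (ZMod p) G g - 1 ∈ augI p G ^ n

section

variable {G V : Type*} [Group G] [AddCommGroup V] {p : ℕ} [Module (ZMod p) V]

/-- linear extension -/
noncomputable def lext {G V : Type*} [AddCommGroup V] {p : ℕ} [Module (ZMod p) V] (φ : G → V) : MonoidAlgebra (ZMod p) G →ₗ[ZMod p] V :=
  (Finsupp.linearCombination (ZMod p) φ) ∘ₗ
    (MonoidAlgebra.coeffLinearEquiv (S := ZMod p) (M := G) (ZMod p)).toLinearMap

omit [Group G] in
theorem lext_single (φ : G → V) (g : G) (k : ZMod p) :
    lext φ (MonoidAlgebra.single g k) = k • φ g := by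
  simp [lext, MonoidAlgebra.coeffLinearEquiv]

theorem lext_of (φ : G → V) (g : G) : lext φ (MonoidAlgebra.of (ZMod p) G g) = φ g := by
  rw [MonoidAlgebra.of_apply, lext_single, one_smul]

theorem lext_one (φ : G → V) : lext φ (1 : MonoidAlgebra (ZMod p) G) = φ 1 := by
  rw [MonoidAlgebra.one_def, lext_single, one_smul]

end

variable {α X : Type*} [MulAction (FreeGroup α) X] {p : ℕ}

theorem lext_tr_mul (f : X → ZMod p) (g : FreeGroup α)
    (v : MonoidAlgebra (ZMod p) (FreeGroup α)) :
    lext (fun h => tr h f) ((MonoidAlgebra.of (ZMod p) (FreeGroup α) g - 1) * v) =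
      lext (fun h => tr h (dif g f)) v := by
  induction v using MonoidAlgebra.induction_linear with
  | zero => simp
  | add u v hu hv => rw [mul_add, map_add, map_add, hu, hv]
  | single h k =>
    rw [sub_mul, one_mul, map_sub, MonoidAlgebra.of_apply, MonoidAlgebra.single_mul_single,
      one_mul, lext_single, lext_single, lext_single, ← smul_sub]
    congr 1
    funext x
    simp [tr, dif, mul_smul]

theorem deg_lext {n : ℕ} {f : X → ZMod p} (hf : Deg α n f) (d : ℕ)
    (u : MonoidAlgebra (ZMod p) (FreeGroup α)) (hu : u ∈ augI p (FreeGroup α) ^ d) :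
    Deg α (n - d) (lext (fun h => tr h f) u) := by
  induction d generalizing n f u with
  | zero =>
    rw [pow_zero, Submodule.mem_one] at hu
    obtain ⟨k, rfl⟩ := hu
    have : (algebraMap (ZMod p) (MonoidAlgebra (ZMod p) (FreeGroup α))) k =
        MonoidAlgebra.single 1 k := rfl
    rw [this, lext_single]
    exact (hf.tr 1).smul k
  | succ d ih =>
    rw [pow_succ'] at hu
    induction hu using Submodule.mul_induction_on' with
    | mem_mul_mem a ha b hb =>
      induction ha using Submodule.span_induction with
      | mem a ha =>
        obtain ⟨g, rfl⟩ := ha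
        rw [lext_tr_mul]
        cases n with
        | zero =>
          have h0 : f = 0 := hf
          have h1 : dif g f = 0 := by
            rw [h0]; funext x; simp [dif]
          rw [h1]
          exact (ih (deg_zero 0) b hb).mono (by omega)
        | succ n =>
          have := ih (hf.dif g) b hb
          exact this.mono (by omega)
      | zero => rw [zero_mul, map_zero]; exact deg_zero _
      | add a a' _ _ h h' => rw [add_mul, map_add]; exact h.add h'
      | smul k a _ h => rw [smul_mul_assoc, map_smul]; exact h.smul k
    | add a _ b _ h h' => rw [map_add]; exact h.add h'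

theorem deg_dif_depth {n d : ℕ} {f : X → ZMod p} (hf : Deg α n f) {g : FreeGroup α}
    (hg : Depth p d g) : Deg α (n - d) (dif g f) := by
  have h1 := deg_lext hf d _ hg
  rw [map_sub, lext_of, lext_one] at h1
  have : dif g f = tr g f -
      tr (1 : FreeGroup α) f := by
    funext x
    simp [dif, tr]
  rw [this]
  exact h1

/-- the cochain of a letter -/
theorem deg_av {n : ℕ} {c : X × α → ZMod p} (hc : ∀ a, Deg α n fun x => c (x, a))
    (g : FreeGroup α) : Deg α n (av c g) := by
  induction g using FreeGroup.induction_on with
  | C1 =>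
    have : av c (1 : FreeGroup α) = 0 := by funext x; exact av_one c x
    rw [this]
    exact deg_zero n
  | of a =>
    have : av c (FreeGroup.of a) = fun x => c (x, a) := by funext x; exact av_of c a x
    rw [this]
    exact hc a
  | inv_of a _ =>
    have : av c (FreeGroup.of a)⁻¹ = -(tr (FreeGroup.of a)⁻¹ fun x => c (x, a)) := by
      funext x
      rw [av_inv, av_of]
      rfl
    rw [this]
    exact ((hc a).tr _).neg
  | mul g h hg hh =>
    have : av c (g * h) = tr h (av c g) + av c h := by
      funext x
      rw [av_mul]
      rfl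
    rw [this]
    exact (hg.tr h).add hh

theorem lext_av_mul (c : X × α → ZMod p) (g : FreeGroup α)
    (v : MonoidAlgebra (ZMod p) (FreeGroup α)) :
    lext (fun h => av c h) ((MonoidAlgebra.of (ZMod p) (FreeGroup α) g - 1) * v) =
      lext (fun h => tr h (av c g)) v := by
  induction v using MonoidAlgebra.induction_linear with
  | zero => simp
  | add u v hu hv => rw [mul_add, map_add, map_add, hu, hv]
  | single h k =>
    rw [sub_mul, one_mul, map_sub, MonoidAlgebra.of_apply, MonoidAlgebra.single_mul_single,
      one_mul, lext_single, lext_single, lext_single, ← smul_sub]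
    congr 1
    funext x
    rw [Pi.sub_apply, av_mul, add_sub_cancel_right]
    rfl

theorem deg_av_depth {n d : ℕ} {c : X × α → ZMod p} (hc : ∀ a, Deg α n fun x => c (x, a))
    {g : FreeGroup α} (hg : Depth p (d + 1) g) : Deg α (n - d) (av c g) := by
  have key : ∀ u ∈ augI p (FreeGroup α) ^ (d + 1), Deg α (n - d) (lext (fun h => av c h) u) := by
    intro u hu
    rw [pow_succ'] at hu
    induction hu using Submodule.mul_induction_on' with
    | mem_mul_mem a ha b hb =>
      induction ha using Submodule.span_induction with
      | mem a ha =>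
        obtain ⟨g, rfl⟩ := ha
        rw [lext_av_mul]
        exact deg_lext (deg_av hc g) d b hb
      | zero => rw [zero_mul, map_zero]; exact deg_zero _
      | add a a' _ _ h h' => rw [add_mul, map_add]; exact h.add h'
      | smul k a _ h => rw [smul_mul_assoc, map_smul]; exact h.smul k
    | add a _ b _ h h' => rw [map_add]; exact h.add h'
  have h1 := key _ hg
  rw [map_sub, lext_of, lext_one] at h1
  have : av c (1 : FreeGroup α) = 0 := by funext x; exact av_one c x
  rw [this, sub_zero] at h1
  exact h1

/-- powers -/
theorem depth_pow [Fact p.Prime] {G : Type*} [Group G] (w : G) (e : ℕ) :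
    Depth p (p ^ e) (w ^ (p ^ e)) := by
  unfold Depth
  have h1 : MonoidAlgebra.of (ZMod p) G (w ^ (p ^ e)) - 1 =
      (MonoidAlgebra.of (ZMod p) G w - 1) ^ (p ^ e) := by
    have : CharP (MonoidAlgebra (ZMod p) G) p :=
      charP_of_injective_algebraMap (algebraMap (ZMod p) (MonoidAlgebra (ZMod p) G)).injective p
    rw [sub_pow_char_pow_of_commute _ _ (Commute.one_right _), one_pow, map_pow]
  rw [h1]
  exact Submodule.pow_mem_pow _ (Submodule.subset_span (Set.mem_range_self w)) _

end Vale.Agent.P192.H121
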