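import Mathlib

/-!
# P192: elements of infinite order in free products
-/

namespace Vale.Agent.P192.H121

open Monoid

section FreeProd

variable {ι : Type*} {M : ι → Type*} [∀ i, Group (M i)]

/-- product of a list of letters in a free product -/
def lp (l : List (Σ i, M i)) : CoprodI M := (l.map fun p => CoprodI.of p.2).prod

/-- reduced lists of letters -/
def Red (l : List (Σ i, M i)) : Prop :=
  (∀ p ∈ l, p.2 ≠ 1) ∧ l.IsChain fun a b => a.1 ≠ b.1

omit [∀ i, Group (M i)] in
theorem chain_append_iff (l₁ l₂ : List (Σ i, M i)) :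
    (l₁ ++ l₂).IsChain (fun a b => a.1 ≠ b.1) ↔
      l₁.IsChain (fun a b => a.1 ≠ b.1) ∧ l₂.IsChain (fun a b => a.1 ≠ b.1) ∧
        ∀ x ∈ l₁.getLast?, ∀ y ∈ l₂.head?, x.1 ≠ y.1 :=
  List.isChain_append

theorem lp_nil : lp ([] : List (Σ i, M i)) = 1 := rfl

theorem lp_cons (a : Σ i, M i) (l : List (Σ i, M i)) :
    lp (a :: l) = CoprodI.of a.2 * lp l := by
  simp [lp]

theorem lp_append (l l' : List (Σ i, M i)) : lp (l ++ l') = lp l * lp l' := by
  simp [lp]

theorem exists_red (g : CoprodI M) : ∃ l : List (Σ i, M i), Red l ∧ lp l = g := by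
  classical
  refine ⟨(CoprodI.Word.equiv g).toList, ⟨(CoprodI.Word.equiv g).ne_one,
    (CoprodI.Word.equiv g).chain_ne⟩, ?_⟩
  exact CoprodI.Word.equiv.symm_apply_apply g

theorem lp_ne_one {l : List (Σ i, M i)} (h : Red l) (hl : l ≠ []) : lp l ≠ 1 := by
  classical
  intro h1
  let w : CoprodI.Word M := ⟨l, h.1, h.2⟩
  have h2 : CoprodI.Word.prod w = CoprodI.Word.prod CoprodI.Word.empty := by
    rw [CoprodI.Word.prod_empty]
    exact h1
  have h3 : w = CoprodI.Word.empty := CoprodI.Word.equiv.symm.injective h2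
  exact hl (congrArg CoprodI.Word.toList h3)

theorem cyc (n : ℕ) : ∀ l : List (Σ i, M i), l.length ≤ n → Red l →
    (∃ (h : CoprodI M) (i : ι) (m : M i), lp l = h * CoprodI.of m * h⁻¹) ∨ l = [] ∨
    ∃ (h : CoprodI M) (a b : Σ i, M i) (m : List (Σ i, M i)),
      Red (a :: (m ++ [b])) ∧ b.1 ≠ a.1 ∧ lp l = h * lp (a :: (m ++ [b])) * h⁻¹ := by
  induction n with
  | zero =>
    intro l hl _
    exact Or.inr (Or.inl (List.length_eq_zero_iff.1 (Nat.le_zero.1 hl)))
  | succ n ih =>
    intro l hl hr
    rcases l with _ | ⟨⟨i, x⟩, t⟩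
    · exact Or.inr (Or.inl rfl)
    rcases List.eq_nil_or_concat t with rfl | ⟨m, ⟨j, y⟩, rfl⟩
    · refine Or.inl ⟨1, i, x, ?_⟩
      simp [lp_cons, lp_nil]
    rw [List.concat_eq_append] at hl hr ⊢
    by_cases hij : j = i
    · subst hij
      have hne := hr.1
      have hch := hr.2
      have hchain : (m ++ [(⟨j, y⟩ : Σ i, M i)]).IsChain (fun a b : Σ i, M i => a.1 ≠ b.1) := by
        have := (chain_append_iff [⟨j, x⟩] (m ++ [⟨j, y⟩])).1 hch
        exact this.2.1
      rw [chain_append_iff] at hchain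
      by_cases hyx : y * x = 1
      · have hm : Red m := ⟨fun p hp => hne p (by simp [hp]), hchain.1⟩
        have hy : y = x⁻¹ := eq_inv_of_mul_eq_one_left hyx
        have hlp : lp (⟨j, x⟩ :: (m ++ [⟨j, y⟩])) =
            CoprodI.of x * lp m * (CoprodI.of x)⁻¹ := by
          rw [lp_cons, lp_append, lp_cons, lp_nil, hy, map_inv, mul_one, mul_assoc]
        rcases ih m (by simp at hl; omega) hm with ⟨h, k, z, hz⟩ | h0 | ⟨h, a, b, m', h1, h2, h3⟩
        · refine Or.inl ⟨CoprodI.of x * h, k, z, ?_⟩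
          rw [hlp, hz]; group
        · refine Or.inl ⟨1, j, 1, ?_⟩
          rw [hlp, h0, lp_nil]; simp
        · refine Or.inr (Or.inr ⟨CoprodI.of x * h, a, b, m', h1, h2, ?_⟩)
          rw [hlp, h3]; group
      · have hm : Red (m ++ [⟨j, y * x⟩]) := by
          refine ⟨fun p hp => ?_, (chain_append_iff _ _).2 ⟨hchain.1, List.isChain_singleton _, ?_⟩⟩
          · rcases List.mem_append.1 hp with hp | hp
            · exact hne p (by simp [hp])
            · rw [List.mem_singleton] at hp
              subst hp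
              exact hyx
          · intro a ha b hb
            have := hchain.2.2 a ha ⟨j, y⟩ (by simp)
            simp at hb
            subst hb
            exact this
        have hlp : lp (⟨j, x⟩ :: (m ++ [⟨j, y⟩])) =
            CoprodI.of x * lp (m ++ [⟨j, y * x⟩]) * (CoprodI.of x)⁻¹ := by
          rw [lp_cons, lp_append, lp_cons, lp_nil, lp_append, lp_cons, lp_nil, mul_one, mul_one,
            map_mul]
          group
        rcases ih (m ++ [⟨j, y * x⟩]) (by simp at hl ⊢; omega) hm with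
          ⟨h, k, z, hz⟩ | h0 | ⟨h, a, b, m', h1, h2, h3⟩
        · refine Or.inl ⟨CoprodI.of x * h, k, z, ?_⟩
          rw [hlp, hz]; group
        · simp at h0
        · refine Or.inr (Or.inr ⟨CoprodI.of x * h, a, b, m', h1, h2, ?_⟩)
          rw [hlp, h3]; group
    · exact Or.inr (Or.inr ⟨1, ⟨i, x⟩, ⟨j, y⟩, m, hr, hij, by simp⟩)

theorem cyc_pow {a b : Σ i, M i} {m : List (Σ i, M i)} (h : Red (a :: (m ++ [b])))
    (hab : b.1 ≠ a.1) (k : ℕ) :
    ∃ l : List (Σ i, M i), Red (a :: (l ++ [b])) ∧
      lp (a :: (l ++ [b])) = lp (a :: (m ++ [b])) ^ (k + 1) := by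
  induction k with
  | zero => exact ⟨m, h, by simp⟩
  | succ k ih =>
    obtain ⟨l, h1, h2⟩ := ih
    have e : a :: ((m ++ [b] ++ a :: l) ++ [b]) = (a :: (m ++ [b])) ++ (a :: (l ++ [b])) := by
      simp
    refine ⟨m ++ [b] ++ a :: l, ?_, ?_⟩
    · rw [e]
      refine ⟨fun p hp => ?_, (chain_append_iff _ _).2 ⟨h.2, h1.2, ?_⟩⟩
      · rcases List.mem_append.1 hp with hp | hp
        · exact h.1 p hp
        · exact h1.1 p hp
      · intro x hx y hy
        have hx' : x = b := by
          rw [← List.cons_append, List.getLast?_concat] at hx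
          simpa using hx.symm
        have hy' : y = a := by simpa using hy.symm
        rw [hx', hy']
        exact hab
    · rw [e, lp_append, h2, ← pow_succ']

end FreeProd

/-- projection of a free power to one of its factors -/
noncomputable def proj {H : Type*} [Group H] (b : Bool) : CoprodI (fun _ : Bool => H) →* H :=
  CoprodI.lift fun k => if k = b then MonoidHom.id H else 1

theorem proj_of {H : Type*} [Group H] (b k : Bool) (h : H) :
    proj b (CoprodI.of (i := k) h : CoprodI (fun _ : Bool => H)) = if k = b then h else 1 := by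
  unfold proj
  rw [CoprodI.lift_of]
  split <;> rfl

/-- An element of a free product with both projections nontrivial has infinite order. -/
theorem pow_ne_one {H : Type*} [Group H] (g : CoprodI (fun _ : Bool => H))
    (h1 : ∀ b, proj b g ≠ 1) (k : ℕ) : g ^ (k + 1) ≠ 1 := by
  obtain ⟨l, hl, rfl⟩ := exists_red g
  rcases cyc l.length l le_rfl hl with ⟨h, i, m, e⟩ | h0 | ⟨h, a, b, m, h2, h3, h4⟩
  · exfalso
    apply h1 (!i)
    rw [e, map_mul, map_mul, map_inv, proj_of]
    simp
  · exfalso
    apply h1 true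
    rw [h0, lp_nil, map_one]
  · obtain ⟨l', h5, h6⟩ := cyc_pow h2 h3 k
    intro h7
    rw [h4, conj_pow, ← h6] at h7
    exact lp_ne_one h5 (by simp) (by
      have := congrArg (fun z => h⁻¹ * z * h) h7
      simpa [mul_assoc] using this)

end Vale.Agent.P192.H121
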