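import Vale.Agent.P192.H121.Chain

/-!
# P192: power relators and the mod-p homology of subgroups of finite index
-/

namespace Vale.Agent.P192.H121

open Monoid

variable {α X : Type*} [MulAction (FreeGroup α) X]

theorem av_pow {M : Type*} [AddCommGroup M] (c : X × α → M) (w : FreeGroup α) (x : X)
    (hx : w • x = x) (k : ℕ) : av c (w ^ k) x = k • av c w x := by
  induction k with
  | zero => simp [av_one]
  | succ k ih => rw [pow_succ, av_mul, hx, ih, succ_nsmul]

theorem pow_smul_eq {s : FreeGroup α} {x : X} (hx : s • x = x) (k : ℕ) : s ^ k • x = x := by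
  induction k with
  | zero => simp
  | succ k ih => rw [pow_succ, mul_smul, hx, ih]

theorem zpow_smul_eq {s : FreeGroup α} {x : X} (hx : s • x = x) (k : ℤ) : s ^ k • x = x := by
  have h1 : s ∈ MulAction.stabilizer (FreeGroup α) x := hx
  exact Subgroup.zpow_mem _ h1 k

/-- the value of a power relator is the same along the orbit of its root -/
theorem av_power_shift {M : Type*} [AddCommGroup M] (c : X × α → M) (s : FreeGroup α) (q : ℕ)
    (x : X) (hx : s ^ q • x = x) (j : ℕ) : av c (s ^ q) (s ^ j • x) = av c (s ^ q) x := by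
  have h1 := av_mul c (s ^ q) (s ^ j) x
  have h2 := av_mul c (s ^ j) (s ^ q) x
  rw [hx] at h2
  have h3 : s ^ q * s ^ j = s ^ j * s ^ q := by rw [← pow_add, ← pow_add, add_comm]
  rw [h3, h2] at h1
  exact (add_left_cancel (h1.trans (add_comm _ _))).symm

/-- if the orbit of the root is shorter than the exponent, the value is zero -/
theorem av_power_zero {p : ℕ} [Fact p.Prime] (c : X × α → ZMod p) (s : FreeGroup α) (e : ℕ)
    (x : X) (hx : s ^ (p ^ e) • x = x) {i j : ℕ} (hij : i < j) (hj : j < p ^ e)
    (h : s ^ i • x = s ^ j • x) : av c (s ^ (p ^ e)) x = 0 := by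
  have hl : s ^ (j - i) • x = x := by
    have h1 : s ^ j = s ^ i * s ^ (j - i) := by rw [← pow_add]; congr 1; omega
    rw [h1, mul_smul] at h
    exact (MulAction.injective (s ^ i) h).symm
  have hg : s ^ (Nat.gcd (j - i) (p ^ e)) • x = x := by
    have h1 := Nat.gcd_eq_gcd_ab (j - i) (p ^ e)
    have h2 : s ^ (Nat.gcd (j - i) (p ^ e)) =
        (s ^ (j - i)) ^ (Nat.gcdA (j - i) (p ^ e)) * (s ^ (p ^ e)) ^ (Nat.gcdB (j - i) (p ^ e)) := by
      rw [← zpow_natCast s (j - i), ← zpow_natCast s (p ^ e), ← zpow_mul, ← zpow_mul, ← zpow_add,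
        ← zpow_natCast, h1]
    rw [h2, mul_smul, zpow_smul_eq hx, zpow_smul_eq hl]
  obtain ⟨b, hb, hgb⟩ := (Nat.dvd_prime_pow (Fact.out : p.Prime)).1
    (Nat.gcd_dvd_right (j - i) (p ^ e))
  have hlt : p ^ b < p ^ e := by
    rw [← hgb]
    exact (Nat.gcd_le_left _ (by omega)).trans_lt (by omega)
  have hbe : b < e := (Nat.pow_lt_pow_iff_right (Fact.out : p.Prime).one_lt).1 hlt
  rw [hgb] at hg
  have h1 : s ^ (p ^ e) = (s ^ (p ^ b)) ^ (p ^ (e - b)) := by
    rw [← pow_mul, ← pow_add]
    congr 2
    omega
  rw [h1, av_pow c _ x hg]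
  have h2 : p ∣ p ^ (e - b) := dvd_pow_self p (by omega)
  obtain ⟨t, ht⟩ := h2
  rw [ht, mul_comm, mul_smul, nsmul_eq_mul p, CharP.cast_eq_zero, zero_mul, smul_zero]

section dim

variable {p : ℕ} [Fact p.Prime] [Fintype X]

/-- at most `|X| / q` nonzero functionals come from a `q`-th power -/
theorem card_power_functionals (s : FreeGroup α) (e : ℕ) (hs : ∀ x : X, s ^ (p ^ e) • x = x)
    (S : Finset (Module.Dual (ZMod p) (X × α → ZMod p)))
    (hS : ∀ f ∈ S, f ≠ 0 ∧ ∃ x : X, avL (p := p) (s ^ (p ^ e)) x = f) :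
    S.card * p ^ e ≤ Fintype.card X := by
  classical
  have h1 : ∀ f ∈ S, p ^ e ≤ (Finset.univ.filter fun x : X =>
      (avL (p := p) (s ^ (p ^ e)) x : Module.Dual (ZMod p) (X × α → ZMod p)) = f).card := by
    intro f hf
    obtain ⟨hf0, x, hx⟩ := hS f hf
    have hinj : Set.InjOn (fun j : ℕ => s ^ j • x) (Finset.range (p ^ e) : Set ℕ) := by
      intro i hi j hj hij
      by_contra hne
      apply hf0
      rw [← hx]
      ext1 c
      change av c (s ^ (p ^ e)) x = 0
      simp only [Finset.coe_range, Set.mem_Iio] at hi hj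
      rcases Nat.lt_or_gt_of_ne hne with h2 | h2
      · exact av_power_zero c s e x (hs x) h2 hj hij
      · exact av_power_zero c s e x (hs x) h2 hi hij.symm
    have h3 := Finset.card_image_of_injOn hinj
    rw [Finset.card_range] at h3
    refine h3.symm.le.trans (Finset.card_le_card ?_)
    intro y hy
    obtain ⟨j, -, rfl⟩ := Finset.mem_image.1 hy
    refine Finset.mem_filter.2 ⟨Finset.mem_univ _, ?_⟩
    rw [← hx]
    ext1 c
    exact av_power_shift c s _ x (hs x) j
  calc S.card * p ^ e = ∑ _f ∈ S, p ^ e := by rw [Finset.sum_const, smul_eq_mul]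
    _ ≤ ∑ f ∈ S, (Finset.univ.filter fun x : X =>
      (avL (p := p) (s ^ (p ^ e)) x : Module.Dual (ZMod p) (X × α → ZMod p)) = f).card :=
        Finset.sum_le_sum h1
    _ = (S.biUnion fun f => Finset.univ.filter fun x : X =>
      (avL (p := p) (s ^ (p ^ e)) x : Module.Dual (ZMod p) (X × α → ZMod p)) = f).card := by
        rw [Finset.card_biUnion]
        intro f _ g _ hfg
        change Disjoint _ _
        rw [Finset.disjoint_left]
        intro x hx hx'
        exact hfg ((Finset.mem_filter.1 hx).2.symm.trans (Finset.mem_filter.1 hx').2)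
    _ ≤ Fintype.card X := Finset.card_le_univ _

/-- the space of cocycles -/
def cocycles (R : Set (FreeGroup α)) : Submodule (ZMod p) (X × α → ZMod p) where
  carrier := {c | AClosed R c}
  zero_mem' r _ x := (avL (p := p) (M := ZMod p) r x).map_zero
  add_mem' {c c'} h h' r hr x := by rw [av_add, h r hr, h' r hr, add_zero]
  smul_mem' t c h r hr x := by
    have := (avL (p := p) (M := ZMod p) r x).map_smul t c
    rw [avL_apply, avL_apply, h r hr, smul_zero] at this
    exact this

variable [Fintype α]

theorem finrank_cocycles {I : Type*} (s : I → FreeGroup α) (e : I → ℕ)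
    (hs : ∀ i, ∀ x : X, s i ^ (p ^ e i) • x = x) (δ : ℝ)
    (hδ : ∀ J : Finset I, ∑ i ∈ J, 1 / (p : ℝ) ^ e i ≤ δ) :
    (Fintype.card X : ℝ) * Fintype.card α ≤
      Module.finrank (ZMod p) (cocycles (p := p) (X := X) (Set.range fun i => s i ^ (p ^ e i))) +
        Fintype.card X * δ := by
  classical
  let T : Set (Module.Dual (ZMod p) (X × α → ZMod p)) :=
    {f | ∃ i x, avL (p := p) (s i ^ (p ^ e i)) x = f}
  obtain ⟨B, hBT, hBspan, hBli⟩ := exists_linearIndependent (ZMod p) T
  have hBfin : B.Finite := hBli.setFinite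
  have hB0 : ∀ f ∈ B, f ≠ 0 := by
    intro f hf h0
    exact hBli.ne_zero ⟨f, hf⟩ h0
  let F := hBfin.toFinset
  have hF : ∀ f ∈ F, f ∈ B := fun f hf => hBfin.mem_toFinset.1 hf
  -- the cocycles are the common kernel
  have hker : cocycles (p := p) (X := X) (Set.range fun i => s i ^ (p ^ e i)) =
      (Submodule.span (ZMod p) T).dualCoannihilator := by
    ext c
    rw [Submodule.mem_dualCoannihilator]
    constructor
    · intro hc f hf
      induction hf using Submodule.span_induction with
      | mem f hf =>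
        obtain ⟨i, x, rfl⟩ := hf
        exact hc _ ⟨i, rfl⟩ x
      | zero => rfl
      | add f g _ _ h1 h2 => rw [LinearMap.add_apply, h1, h2, add_zero]
      | smul t f _ h1 => rw [LinearMap.smul_apply, h1, smul_zero]
    · rintro hc _ ⟨i, rfl⟩ x
      exact hc _ (Submodule.subset_span ⟨i, x, rfl⟩)
  have hdim : Module.finrank (ZMod p) (Submodule.span (ZMod p) T) +
      Module.finrank (ZMod p) (cocycles (p := p) (X := X) (Set.range fun i => s i ^ (p ^ e i))) =
        Fintype.card X * Fintype.card α := by
    rw [hker, Subspace.finrank_add_finrank_dualCoannihilator_eq,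
      Module.finrank_fintype_fun_eq_card, Fintype.card_prod]
  have hspan : Module.finrank (ZMod p) (Submodule.span (ZMod p) T) = F.card := by
    rw [← hBspan]
    haveI := hBfin.fintype
    have h1 := finrank_span_set_eq_card (R := ZMod p) (s := B) hBli
    rw [h1]
    congr 1
    ext f
    simp [F]
  -- choose an index for each functional
  have hex : ∀ f : {f // f ∈ F}, ∃ i, ∃ x, avL (p := p) (s i ^ (p ^ e i)) x = f.1 :=
    fun f => hBT (hF f.1 f.2)
  choose ix hix using hex
  let J : Finset I := Finset.univ.image ix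
  have hcard : (F.card : ℝ) ≤ Fintype.card X * δ := by
    have h1 : F.card = ∑ i ∈ J, (Finset.univ.filter fun f : {f // f ∈ F} => ix f = i).card := by
      have h2 := Finset.card_eq_sum_card_fiberwise (f := ix) (s := Finset.univ) (t := J)
        (fun f _ => Finset.mem_image_of_mem _ (Finset.mem_univ f))
      rw [Finset.card_univ, Fintype.card_coe] at h2
      exact h2
    have h2 : ∀ i ∈ J, ((Finset.univ.filter fun f : {f // f ∈ F} => ix f = i).card : ℝ) ≤
        Fintype.card X * (1 / (p : ℝ) ^ e i) := by
      intro i _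
      have h3 := card_power_functionals (p := p) (X := X) (s i) (e i) (hs i)
        ((Finset.univ.filter fun f : {f // f ∈ F} => ix f = i).image Subtype.val)
        (by
          intro f hf
          obtain ⟨g, hg, rfl⟩ := Finset.mem_image.1 hf
          have hg2 := (Finset.mem_filter.1 hg).2
          refine ⟨hB0 _ (hF g.1 g.2), ?_⟩
          obtain ⟨x, hx⟩ := hix g
          rw [hg2] at hx
          exact ⟨x, hx⟩)
      rw [Finset.card_image_of_injective _ Subtype.val_injective] at h3
      have hp0 : (0 : ℝ) < (p : ℝ) ^ e i := by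
        have : 0 < p := (Fact.out : p.Prime).pos
        positivity
      rw [mul_one_div, le_div_iff₀ hp0]
      exact_mod_cast h3
    rw [h1]
    push_cast
    calc _ ≤ ∑ i ∈ J, (Fintype.card X : ℝ) * (1 / (p : ℝ) ^ e i) := Finset.sum_le_sum h2
      _ = Fintype.card X * ∑ i ∈ J, 1 / (p : ℝ) ^ e i := by rw [Finset.mul_sum]
      _ ≤ _ := by
        gcongr
        exact hδ J
  rw [hspan] at hdim
  have h4 : (Fintype.card X : ℝ) * Fintype.card α = F.card +
      Module.finrank (ZMod p) (cocycles (p := p) (X := X)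
        (Set.range fun i => s i ^ (p ^ e i))) := by
    exact_mod_cast hdim.symm
  rw [h4]
  linarith

/-- the cocycles which vanish on the stabiliser -/
def trivials (x₀ : X) : Submodule (ZMod p) (X × α → ZMod p) where
  carrier := {c | ∀ w : FreeGroup α, w • x₀ = x₀ → av c w x₀ = 0}
  zero_mem' w _ := (avL (p := p) (M := ZMod p) w x₀).map_zero
  add_mem' {c c'} h h' w hw := by rw [av_add, h w hw, h' w hw, add_zero]
  smul_mem' t c h w hw := by
    have := (avL (p := p) (M := ZMod p) w x₀).map_smul t c
    rw [avL_apply, avL_apply, h w hw, smul_zero] at this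
    exact this

theorem finrank_trivials (x₀ : X) (ht : ∀ x : X, ∃ w : FreeGroup α, w • x₀ = x) :
    Module.finrank (ZMod p) (trivials (p := p) (α := α) x₀) + 1 ≤ Fintype.card X := by
  classical
  let D : (X → ZMod p) →ₗ[ZMod p] (X × α → ZMod p) :=
    { toFun := fun f e => f (FreeGroup.of e.2 • e.1) - f e.1
      map_add' := fun f g => by
        funext e
        simp only [Pi.add_apply]
        ring
      map_smul' := fun t f => by
        funext e
        simp only [Pi.smul_apply, smul_eq_mul, RingHom.id_apply]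
        ring }
  have h1 : trivials (p := p) (α := α) x₀ ≤ LinearMap.range D := by
    intro c hc
    choose t ht using ht
    refine ⟨fun x => av c (t x) x₀, ?_⟩
    funext e
    obtain ⟨x, a⟩ := e
    change av c (t (FreeGroup.of a • x)) x₀ - av c (t x) x₀ = c (x, a)
    have h2 : ((t (FreeGroup.of a • x))⁻¹ * (FreeGroup.of a * t x)) • x₀ = x₀ := by
      rw [mul_smul, mul_smul, ht, inv_smul_eq_iff, ht]
    have h3 := hc _ h2
    have h4 := av_mul c (t (FreeGroup.of a • x))
      ((t (FreeGroup.of a • x))⁻¹ * (FreeGroup.of a * t x)) x₀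
    rw [h2, h3, add_zero, mul_inv_cancel_left, av_mul, ht, av_of] at h4
    rw [← h4]
    ring
  have h2 := Submodule.finrank_mono h1
  have h3 := LinearMap.finrank_range_add_finrank_ker D
  rw [Module.finrank_fintype_fun_eq_card] at h3
  have h4 : 0 < Module.finrank (ZMod p) (LinearMap.ker D) := by
    rw [Module.finrank_pos_iff_exists_ne_zero]
    refine ⟨⟨fun _ => 1, ?_⟩, ?_⟩
    · rw [LinearMap.mem_ker]
      funext e
      change (1 : ZMod p) - 1 = 0
      ring
    · intro h5
      have h6 := congrArg (fun f : LinearMap.ker D => (f : X → ZMod p) x₀) h5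
      exact one_ne_zero h6
  omega

/-- many classes -/
theorem exists_classes {I : Type*} (s : I → FreeGroup α) (e : I → ℕ)
    (hs : ∀ i, ∀ x : X, s i ^ (p ^ e i) • x = x) (δ : ℝ)
    (hδ : ∀ J : Finset I, ∑ i ∈ J, 1 / (p : ℝ) ^ e i ≤ δ) (x₀ : X)
    (ht : ∀ x : X, ∃ w : FreeGroup α, w • x₀ = x) :
    ∃ (m : ℕ) (c : X × α → Fin m → ZMod p),
      (Fintype.card X : ℝ) * (Fintype.card α - 1 - δ) + 1 ≤ m ∧
      AClosed (Set.range fun i => s i ^ (p ^ e i)) c ∧ Onto x₀ c := by
  classical
  have h1 := finrank_cocycles (p := p) (X := X) s e hs δ hδ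
  have h2 := finrank_trivials (p := p) (α := α) x₀ ht
  set Z := cocycles (p := p) (X := X) (Set.range fun i => s i ^ (p ^ e i)) with hZ
  let Tz : Submodule (ZMod p) Z := (trivials (p := p) (α := α) x₀).comap Z.subtype
  obtain ⟨C, hC⟩ := Submodule.exists_isCompl Tz
  have h3 : Module.finrank (ZMod p) Tz + Module.finrank (ZMod p) C =
      Module.finrank (ZMod p) Z := Submodule.finrank_add_eq_of_isCompl hC
  have h4 : Module.finrank (ZMod p) Tz ≤
      Module.finrank (ZMod p) (trivials (p := p) (α := α) x₀) := by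
    let g : Tz →ₗ[ZMod p] trivials (p := p) (α := α) x₀ :=
      { toFun := fun c => ⟨((c : Z) : X × α → ZMod p), c.2⟩
        map_add' := fun _ _ => rfl
        map_smul' := fun _ _ => rfl }
    refine LinearMap.finrank_le_finrank_of_injective (f := g) ?_
    intro c c' h
    have h5 := congrArg Subtype.val h
    exact Subtype.ext (Subtype.ext h5)
  let b := Module.finBasis (ZMod p) C
  refine ⟨Module.finrank (ZMod p) C, fun q k => ((b k : Z) : X × α → ZMod p) q, ?_, ?_, ?_⟩
  · have h5 : (Fintype.card X : ℝ) * Fintype.card α ≤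
        Module.finrank (ZMod p) Z + Fintype.card X * δ := h1
    have h6 : (Module.finrank (ZMod p) Z : ℝ) + 1 ≤
        Fintype.card X + Module.finrank (ZMod p) C := by
      exact_mod_cast (by omega : Module.finrank (ZMod p) Z + 1 ≤
        Fintype.card X + Module.finrank (ZMod p) C)
    linarith
  · intro r hr x
    funext k
    rw [av_apply]
    exact (b k : Z).2 r hr x
  · refine onto_of_indep _ _ fun l hl => ?_
    have h5 : (∑ k, l k • b k : C) = 0 := by
      have h6 : ((∑ k, l k • b k : C) : Z) ∈ Tz := by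
        change (((∑ k, l k • b k : C) : Z) : X × α → ZMod p) ∈ trivials (p := p) (α := α) x₀
        intro w hw
        have h7 := hl w hw
        have h8 : (fun q => ∑ k, l k * ((b k : Z) : X × α → ZMod p) q) =
            (((∑ k, l k • b k : C) : Z) : X × α → ZMod p) := by
          funext q
          simp
        rw [← h8]
        exact h7
      have h7 : ((∑ k, l k • b k : C) : Z) = 0 :=
        Submodule.disjoint_def.1 hC.disjoint _ h6 (∑ k, l k • b k : C).2
      exact Subtype.ext h7
    exact funext ((Fintype.linearIndependent_iff.1 b.linearIndependent) l h5)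

end dim

end Vale.Agent.P192.H121
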