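import Vale.Agent.P192.H121.Chain4
import Vale.Agent.P192.H121.Power

/-!
# P192: rapid descent and power relators, for abstract groups
-/

namespace Vale.Agent.P192.H121

open Monoid Filter

section next

variable {α : Type} [Fintype α]

omit [Fintype α] in
theorem rel_smul {X : Type*} [MulAction (FreeGroup α) X] {R : Set (FreeGroup α)} {x₀ : X}
    (ht : ∀ x : X, ∃ w : FreeGroup α, w • x₀ = x)
    (hR : Subgroup.normalClosure R ≤ MulAction.stabilizer (FreeGroup α) x₀) :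
    ∀ r ∈ R, ∀ x : X, r • x = x := by
  intro r hr x
  obtain ⟨v, rfl⟩ := ht x
  have h1 : v⁻¹ * r * v ∈ MulAction.stabilizer (FreeGroup α) x₀ := by
    apply hR
    have := Subgroup.normalClosure_normal.conj_mem r
      (Subgroup.subset_normalClosure hr : r ∈ Subgroup.normalClosure R) v⁻¹
    simpa using this
  have h2 : (v⁻¹ * r * v) • x₀ = x₀ := h1
  rwa [mul_smul, mul_smul, inv_smul_eq_iff] at h2

theorem nextF {p : ℕ} [Fact p.Prime] {I : Type*} (s : I → FreeGroup α) (e : I → ℕ) (δ : ℝ)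
    (hδ : ∀ J : Finset I, ∑ i ∈ J, 1 / (p : ℝ) ^ e i ≤ δ) (H : Subgroup (FreeGroup α))
    (hfi : H.FiniteIndex)
    (hR : Subgroup.normalClosure (Set.range fun i => s i ^ (p ^ e i)) ≤ H) :
    ∃ H' : Subgroup (FreeGroup α),
      Subgroup.normalClosure (Set.range fun i => s i ^ (p ^ e i)) ≤ H' ∧ ElAb p H' H ∧
      ∃ m : ℕ, H'.relIndex H = p ^ m ∧ (H.index : ℝ) * (Fintype.card α - 1 - δ) + 1 ≤ m := by
  classical
  have hfin : Finite (FreeGroup α ⧸ H) := Subgroup.finite_quotient_of_finiteIndex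
  letI : Fintype (FreeGroup α ⧸ H) := Fintype.ofFinite _
  let x₀ : FreeGroup α ⧸ H := ((1 : FreeGroup α) : FreeGroup α ⧸ H)
  have ht : ∀ x : FreeGroup α ⧸ H, ∃ w : FreeGroup α, w • x₀ = x := by
    intro x
    obtain ⟨w, rfl⟩ := QuotientGroup.mk_surjective x
    exact ⟨w, by
      change ((w * 1 : FreeGroup α) : FreeGroup α ⧸ H) = _
      rw [mul_one]⟩
  have hst : MulAction.stabilizer (FreeGroup α) x₀ = H := MulAction.stabilizer_quotient H
  have hX := rel_smul (R := Set.range fun i => s i ^ (p ^ e i)) ht (by rw [hst]; exact hR)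
  obtain ⟨m, c, h1, h2, h3⟩ := exists_classes s e (fun i x => hX _ ⟨i, rfl⟩ x) δ hδ x₀ ht
  have hidx : H.index = Fintype.card (FreeGroup α ⧸ H) := by
    rw [Subgroup.index, Nat.card_eq_fintype_card]
  have hmem : ∀ w, w ∈ MulAction.stabilizer (FreeGroup α) (⟨x₀, 0⟩ : Cov c) ↔
      w ∈ H ∧ av c w x₀ = 0 := by
    intro w
    rw [MulAction.mem_stabilizer_iff, cov_stab]
    have h4 : w • x₀ = x₀ ↔ w ∈ H := by
      rw [← MulAction.mem_stabilizer_iff, hst]
    rw [h4]
  have hfix : ∀ w ∈ H, w • x₀ = x₀ := by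
    intro w hw
    have h4 : w ∈ MulAction.stabilizer (FreeGroup α) x₀ := by rw [hst]; exact hw
    exact h4
  have hle : MulAction.stabilizer (FreeGroup α) (⟨x₀, 0⟩ : Cov c) ≤ H :=
    fun w hw => ((hmem w).1 hw).1
  refine ⟨MulAction.stabilizer (FreeGroup α) (⟨x₀, 0⟩ : Cov c), ?_, ⟨hle, ?_, ?_⟩, m, ?_, ?_⟩
  · intro w hw
    have h4 := map_eq_one_of_rel (MulAction.toPermHom (FreeGroup α) (Cov c))
      (fun r hr => Equiv.ext fun y => cov_rel c hX h2 r hr y) hw
    exact congrArg (fun f : Equiv.Perm (Cov c) => f ⟨x₀, 0⟩) h4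
  · intro x hx y hy
    rw [hmem]
    have hx' := hfix x hx
    have hy' := hfix y hy
    refine ⟨mul_mem (mul_mem (mul_mem hx hy) (inv_mem hx)) (inv_mem hy), ?_⟩
    rw [av_stab_mul c (inv_smul_eq_iff.2 hy'.symm), av_stab_mul c (inv_smul_eq_iff.2 hx'.symm),
      av_stab_mul c hy', av_stab_inv c hx', av_stab_inv c hy']
    abel
  · intro x hx
    rw [hmem]
    refine ⟨pow_mem hx p, ?_⟩
    rw [av_pow c x x₀ (hfix x hx)]
    funext k
    rw [Pi.smul_apply, nsmul_eq_mul, CharP.cast_eq_zero, zero_mul, Pi.zero_apply]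
  · have h4 := Subgroup.relIndex_mul_index hle
    have h5 : (MulAction.stabilizer (FreeGroup α) (⟨x₀, 0⟩ : Cov c)).index =
        Fintype.card (FreeGroup α ⧸ H) * p ^ m := by
      rw [MulAction.index_stabilizer]
      have h6 : MulAction.orbit (FreeGroup α) (⟨x₀, 0⟩ : Cov c) = Set.univ :=
        Set.eq_univ_of_forall fun y => cov_transitive c x₀ ht h3 0 y
      rw [h6, Set.ncard_univ, Nat.card_eq_fintype_card, card_cov, Fintype.card_fun, ZMod.card,
        Fintype.card_fin]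
    rw [h5, hidx, mul_comm] at h4
    exact Nat.eq_of_mul_eq_mul_left (Fintype.card_pos_iff.2 ⟨x₀⟩) h4
  · rw [hidx]
    exact h1

end next

section presented

variable {α : Type} [Fintype α]

theorem next_subgroup {p : ℕ} [Fact p.Prime] {I : Type*} (s : I → FreeGroup α) (e : I → ℕ) (δ : ℝ)
    (hδ : ∀ J : Finset I, ∑ i ∈ J, 1 / (p : ℝ) ^ e i ≤ δ)
    (K : Subgroup (PresentedGroup (Set.range fun i => s i ^ (p ^ e i)))) (hfi : K.FiniteIndex) :
    ∃ K' : Subgroup (PresentedGroup (Set.range fun i => s i ^ (p ^ e i))), ElAb p K' K ∧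
      ∃ m : ℕ, K'.relIndex K = p ^ m ∧ (K.index : ℝ) * (Fintype.card α - 1 - δ) + 1 ≤ m := by
  let π : FreeGroup α →* PresentedGroup (Set.range fun i => s i ^ (p ^ e i)) :=
    PresentedGroup.mk _
  have hπ : Function.Surjective π := PresentedGroup.mk_surjective _
  have hker : π.ker = Subgroup.normalClosure (Set.range fun i => s i ^ (p ^ e i)) :=
    QuotientGroup.ker_mk' _
  have h0 : (K.comap π).FiniteIndex := ⟨by
    rw [Subgroup.index_comap_of_surjective _ hπ]
    exact hfi.index_ne_zero⟩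
  obtain ⟨H', h1, h2, m, h3, h4⟩ := nextF s e δ hδ (K.comap π) h0 (by
    rw [← hker]
    exact MonoidHom.ker_le_comap _ _)
  have h5 : (H'.map π).comap π = H' := by
    rw [Subgroup.comap_map_eq_self]
    rw [hker]
    exact h1
  have h6 : (H'.map π) ≤ K := by
    rw [Subgroup.map_le_iff_le_comap]
    exact h2.1
  refine ⟨H'.map π, ⟨h6, ?_, ?_⟩, m, ?_, ?_⟩
  · intro x hx y hy
    obtain ⟨x, rfl⟩ := hπ x
    obtain ⟨y, rfl⟩ := hπ y
    have h7 := h2.2.1 x hx y hy
    have h8 := Subgroup.mem_map_of_mem π h7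
    simpa using h8
  · intro x hx
    obtain ⟨x, rfl⟩ := hπ x
    have h7 := h2.2.2 x hx
    have h8 := Subgroup.mem_map_of_mem π h7
    simpa using h8
  · have h7 : (H'.map π).relIndex K = ((H'.map π).comap π).relIndex (K.comap π) := by
      rw [Subgroup.relIndex_comap, Subgroup.map_comap_eq_self_of_surjective hπ]
    rw [h7, h5, h3]
  · rw [Subgroup.index_comap_of_surjective _ hπ] at h4
    exact h4

end presented

section chains

/-- **No rapid descent** in finitely presented periodic groups. -/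
theorem rapidG (G : Type*) [Group G] [Group.IsFinitelyPresented G]
    (hG : ∀ g : G, IsOfFinOrder g) (p : ℕ) [Fact p.Prime] :
    ∃ K : ℝ, 0 < K ∧ ∀ i₁ : ℕ, ∃ k : ℕ, ∀ H : ℕ → Subgroup G, (H i₁).FiniteIndex →
      (∀ i, i₁ ≤ i → i < k → ElAb p (H (i + 1)) (H i) ∧
        (p : ℝ) ^ (K * (H i).index / Real.log (i + 2)) ≤ (H (i + 1)).relIndex (H i)) → False := by
  classical
  obtain ⟨n, φ, hφ, S, hS, hSφ⟩ := (inferInstance : Group.IsFinitelyPresented G).out
  obtain ⟨R, rfl⟩ := hS.exists_finset_coe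
  have hT : TorsRel (R : Set (FreeGroup (Fin n))) := by
    intro w
    obtain ⟨k, hk, hk1⟩ := isOfFinOrder_iff_pow_eq_one.1 (hG (φ w))
    refine ⟨k - 1, ?_⟩
    rw [Nat.sub_add_cancel hk, hSφ, MonoidHom.mem_ker, map_pow]
    exact hk1
  obtain ⟨K, hK, h⟩ := chainF hT p
  refine ⟨K, hK, fun i₁ => ?_⟩
  obtain ⟨k, hk⟩ := h i₁
  refine ⟨k, fun H hfi hH => ?_⟩
  refine hk (fun i => (H i).comap φ) (fun i _ => ?_) ?_ (fun i h1 h2 => ?_)
  · rw [hSφ]
    exact MonoidHom.ker_le_comap _ _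
  · exact ⟨by
      rw [Subgroup.index_comap_of_surjective _ hφ]
      exact hfi.index_ne_zero⟩
  · obtain ⟨⟨h3, h4, h5⟩, h6⟩ := hH i h1 h2
    refine ⟨⟨Subgroup.comap_mono h3, ?_, ?_⟩, ?_⟩
    · intro x hx y hy
      have := h4 _ hx _ hy
      change φ (x * y * x⁻¹ * y⁻¹) ∈ H (i + 1)
      simpa using this
    · intro x hx
      have := h5 _ hx
      change φ (x ^ p) ∈ H (i + 1)
      simpa using this
    · rw [Subgroup.index_comap_of_surjective _ hφ, Subgroup.relIndex_comap,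
        Subgroup.map_comap_eq_self_of_surjective hφ]
      exact h6

/-- growth of the index along a chain -/
theorem chain_index {Q : Type*} [Group Q] (p : ℕ) [Fact p.Prime] (H : ℕ → Subgroup Q)
    (h0 : (H 0).FiniteIndex) (hH : ∀ i, ElAb p (H (i + 1)) (H i))
    (hr : ∀ i, (H (i + 1)).relIndex (H i) ≠ 0) : ∀ i, (H i).index ≠ 0 := by
  intro i
  induction i with
  | zero => exact h0.index_ne_zero
  | succ i ih =>
    rw [← Subgroup.relIndex_mul_index (hH i).1]
    exact mul_ne_zero (hr i) ih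

theorem relIndex_inter {Q : Type*} [Group Q] {A B N : Subgroup Q} (hBA : B ≤ A)
    (hN : N.index ≠ 0) : B.relIndex A ≤ N.index * B.relIndex (A ⊓ N) := by
  by_cases h0 : B.relIndex A = 0
  · rw [h0]; exact Nat.zero_le _
  have h1 : (B ⊓ N).relIndex (A ⊓ N) * (A ⊓ N).relIndex A = (B ⊓ N).relIndex A :=
    Subgroup.relIndex_mul_relIndex _ _ _ (inf_le_inf_right N hBA) inf_le_left
  have h2 : (B ⊓ N).relIndex B * B.relIndex A = (B ⊓ N).relIndex A :=
    Subgroup.relIndex_mul_relIndex _ _ _ inf_le_left hBA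
  rw [Subgroup.inf_relIndex_left] at h1 h2
  have h3 : (B ⊓ N).relIndex (A ⊓ N) = B.relIndex (A ⊓ N) := by
    have : B ⊓ N = B ⊓ (A ⊓ N) := by
      rw [← inf_assoc, inf_eq_left.2 hBA]
    rw [this, Subgroup.inf_relIndex_right]
  rw [h3] at h1
  have h4 : N.relIndex A ≤ N.index := by
    rw [← Subgroup.relIndex_top_right]
    exact Subgroup.relIndex_le_of_le_right le_top (by rwa [Subgroup.relIndex_top_right])
  have h5 : N.relIndex B ≠ 0 := by
    intro h
    exact hN (Subgroup.index_eq_zero_of_relIndex_eq_zero h)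
  calc B.relIndex A = 1 * B.relIndex A := (one_mul _).symm
    _ ≤ N.relIndex B * B.relIndex A := Nat.mul_le_mul_right _ (Nat.one_le_iff_ne_zero.2 h5)
    _ = B.relIndex (A ⊓ N) * N.relIndex A := by rw [h2, ← h1]
    _ ≤ B.relIndex (A ⊓ N) * N.index := Nat.mul_le_mul_left _ h4
    _ = _ := mul_comm _ _

/-- rapid growth of the index along a rapidly descending chain -/
theorem index_large {Q : Type*} [Group Q] (p : ℕ) [Fact p.Prime] (H : ℕ → Subgroup Q)
    (hfi : ∀ i, (H i).FiniteIndex) (hH : ∀ i, ElAb p (H (i + 1)) (H i))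
    (hgrow : ∀ᶠ i : ℕ in atTop, (p : ℝ) ^ ((H i).index / Real.log (i + 2)) ≤
      (H (i + 1)).relIndex (H i)) (q : ℕ) :
    ∀ᶠ i : ℕ in atTop, (q : ℝ) ≤ (p : ℝ) ^ ((H i).index / Real.log (i + 2)) := by
  have hp : p.Prime := Fact.out
  have hp1 : (1 : ℝ) < p := by exact_mod_cast hp.one_lt
  obtain ⟨a, ha⟩ := eventually_atTop.1 hgrow
  have h1 : ∀ j, 2 ^ j ≤ (H (a + j)).index := by
    intro j
    induction j with
    | zero => exact Nat.one_le_iff_ne_zero.2 (hfi _).index_ne_zero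
    | succ j ih =>
      have h2 := ha (a + j) (by omega)
      have h3 : (0 : ℝ) < (H (a + j)).index := by
        have : 0 < (H (a + j)).index := lt_of_lt_of_le (by positivity) ih
        exact_mod_cast this
      have h4 := log_i_pos (a + j)
      have h5 : (1 : ℝ) < (H (a + j + 1)).relIndex (H (a + j)) := by
        refine lt_of_lt_of_le ?_ h2
        exact Real.one_lt_rpow hp1 (by positivity)
      have h6 : 2 ≤ (H (a + j + 1)).relIndex (H (a + j)) := by
        have : 1 < (H (a + j + 1)).relIndex (H (a + j)) := by exact_mod_cast h5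
        omega
      rw [← add_assoc, ← Subgroup.relIndex_mul_index (hH (a + j)).1, pow_succ, mul_comm (2 ^ j) 2]
      exact Nat.mul_le_mul h6 ih
  -- `q (i + 1) ≤ 2 ^ (i - a)` for large `i`
  have h2 : Tendsto (fun n : ℕ => (n : ℝ) ^ 2 / 2 ^ n) atTop (nhds 0) := by
    simpa using tendsto_pow_const_div_const_pow_of_one_lt 2 (one_lt_two : (1 : ℝ) < 2)
  have h3 := h2.eventually (gt_mem_nhds (show (0 : ℝ) < 1 / ((q + 1) * 2 * 2 ^ a) by positivity))
  filter_upwards [h3, eventually_ge_atTop (a + 2)] with i hi hia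
  have h4 : (2 : ℝ) ^ (i - a) ≤ (H i).index := by
    have := h1 (i - a)
    rw [Nat.add_sub_cancel' (by omega)] at this
    exact_mod_cast this
  have h5 : (2 : ℝ) ^ i = 2 ^ (i - a) * 2 ^ a := by
    rw [← pow_add]
    congr 1
    omega
  rw [div_lt_iff₀ (by positivity)] at hi
  have h6 : 1 / (((q : ℝ) + 1) * 2 * 2 ^ a) * 2 ^ i = 2 ^ (i - a) / ((q + 1) * 2) := by
    rw [h5]
    field_simp
  rw [h6, lt_div_iff₀ (by positivity)] at hi
  have h7 : (2 : ℝ) ≤ i := by
    have : 2 ≤ i := by omega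
    exact_mod_cast this
  have hq0 : (0 : ℝ) ≤ q := Nat.cast_nonneg q
  have h8 : (q : ℝ) * (i + 1) ≤ (H i).index := by
    have hi2 : (i : ℝ) + 1 ≤ (i : ℝ) ^ 2 := by nlinarith
    have hi3 : (0 : ℝ) ≤ (i : ℝ) ^ 2 := by positivity
    have h9 : (q : ℝ) * (i + 1) ≤ (i : ℝ) ^ 2 * ((q + 1) * 2) := by
      calc (q : ℝ) * (i + 1) ≤ q * (i : ℝ) ^ 2 := by gcongr
        _ ≤ (i : ℝ) ^ 2 * ((q + 1) * 2) := by nlinarith
    linarith
  have h9 : Real.log ((i : ℝ) + 2) ≤ i + 1 := by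
    have := Real.log_le_sub_one_of_pos (show (0 : ℝ) < (i : ℝ) + 2 by positivity)
    linarith
  have h10 : (q : ℝ) ≤ (H i).index / Real.log (i + 2) := by
    rw [le_div_iff₀ (log_i_pos i)]
    calc (q : ℝ) * Real.log (i + 2) ≤ q * (i + 1) := by gcongr
      _ ≤ _ := h8
  calc (q : ℝ) ≤ (p : ℝ) ^ q := by
        have : q < p ^ q := Nat.lt_pow_self hp.one_lt
        exact_mod_cast this.le
    _ = (p : ℝ) ^ (q : ℝ) := (Real.rpow_natCast _ _).symm
    _ ≤ _ := Real.rpow_le_rpow_of_exponent_le hp1.le h10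

/-- **Covers of groups with rapid descent.** -/
theorem cover {Γ Q : Type*} [Group Γ] [Group Q] [Group.IsFinitelyPresented Γ] (φ : Γ →* Q)
    (hφ : φ.range.FiniteIndex) (p : ℕ) [Fact p.Prime] (H : ℕ → Subgroup Q)
    (hfi : ∀ i, (H i).FiniteIndex) (hH : ∀ i, ElAb p (H (i + 1)) (H i))
    (hgrow : ∀ K : ℝ, ∀ᶠ i : ℕ in atTop, (p : ℝ) ^ (K * (H i).index / Real.log (i + 2)) ≤
      (H (i + 1)).relIndex (H i)) : ∃ γ : Γ, ¬ IsOfFinOrder γ := by
  by_contra hcon
  push Not at hcon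
  have hp : p.Prime := Fact.out
  have hp1 : (1 : ℝ) < p := by exact_mod_cast hp.one_lt
  have hp0 : (0 : ℝ) < p := by linarith
  obtain ⟨K, hK, h⟩ := rapidG Γ hcon p
  have hq := index_large p H hfi hH (by simpa using hgrow 1) φ.range.index
  obtain ⟨i₁, hi₁⟩ := eventually_atTop.1 (hq.and (hgrow (K + 1)))
  obtain ⟨k, hk⟩ := h i₁
  have hN : φ.range.index ≠ 0 := hφ.index_ne_zero
  refine hk (fun i => (H i).comap φ) ?_ (fun i h1 _ => ?_)
  · refine ⟨?_⟩
    rw [Subgroup.index_comap]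
    intro h1
    exact (hfi i₁).index_ne_zero (Subgroup.index_eq_zero_of_relIndex_eq_zero h1)
  · obtain ⟨h2, h3⟩ := hi₁ i h1
    refine ⟨⟨Subgroup.comap_mono (hH i).1, ?_, ?_⟩, ?_⟩
    · intro x hx y hy
      have := (hH i).2.1 _ hx _ hy
      change φ (x * y * x⁻¹ * y⁻¹) ∈ H (i + 1)
      simpa using this
    · intro x hx
      have := (hH i).2.2 _ hx
      change φ (x ^ p) ∈ H (i + 1)
      simpa using this
    · rw [Subgroup.index_comap, Subgroup.relIndex_comap, Subgroup.map_comap_eq, inf_comm]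
      have h4 : (((H i).relIndex φ.range : ℕ) : ℝ) ≤ (H i).index := by
        have : (H i).relIndex φ.range ≤ (H i).index := by
          rw [← Subgroup.relIndex_top_right]
          exact Subgroup.relIndex_le_of_le_right le_top
            (by rw [Subgroup.relIndex_top_right]; exact (hfi i).index_ne_zero)
        exact_mod_cast this
      have h5 : ((H (i + 1)).relIndex (H i) : ℝ) ≤
          φ.range.index * (H (i + 1)).relIndex (H i ⊓ φ.range) := by
        exact_mod_cast relIndex_inter (hH i).1 hN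
      have hlog := log_i_pos i
      have h6 : (p : ℝ) ^ (K * (H i).index / Real.log (i + 2)) *
          (p : ℝ) ^ ((H i).index / Real.log (i + 2)) =
          (p : ℝ) ^ ((K + 1) * (H i).index / Real.log (i + 2)) := by
        rw [← Real.rpow_add hp0]
        congr 1
        ring
      have h7 : (0 : ℝ) < (p : ℝ) ^ ((H i).index / Real.log (i + 2)) :=
        Real.rpow_pos_of_pos hp0 _
      have h8 : (p : ℝ) ^ (K * (H i).index / Real.log (i + 2)) ≤
          (H (i + 1)).relIndex (H i ⊓ φ.range) := by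
        rw [← mul_le_mul_iff_left₀ h7, h6]
        calc _ ≤ _ := h3
          _ ≤ _ := h5
          _ ≤ (p : ℝ) ^ ((H i).index / Real.log (i + 2)) *
              (H (i + 1)).relIndex (H i ⊓ φ.range) := by gcongr
          _ = _ := mul_comm _ _
      refine le_trans ?_ h8
      apply Real.rpow_le_rpow_of_exponent_le hp1.le
      gcongr

/-- linear growth of ranks is rapid -/
theorem linear_rapid {Q : Type*} [Group Q] (p : ℕ) [Fact p.Prime] (H : ℕ → Subgroup Q) (ε : ℝ)
    (hε : 0 < ε) (h : ∀ i, (p : ℝ) ^ (ε * (H i).index) ≤ (H (i + 1)).relIndex (H i)) (K : ℝ) :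
    ∀ᶠ i : ℕ in atTop, (p : ℝ) ^ (K * (H i).index / Real.log (i + 2)) ≤
      (H (i + 1)).relIndex (H i) := by
  have hp : p.Prime := Fact.out
  have hp1 : (1 : ℝ) < p := by exact_mod_cast hp.one_lt
  have h1 : Tendsto (fun i : ℕ => Real.log ((i : ℝ) + 2)) atTop atTop :=
    Real.tendsto_log_atTop.comp
      (tendsto_atTop_add_const_right _ _ tendsto_natCast_atTop_atTop)
  filter_upwards [h1.eventually_ge_atTop (K / ε)] with i hi
  refine le_trans ?_ (h i)
  apply Real.rpow_le_rpow_of_exponent_le hp1.le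
  rw [div_le_iff₀ (log_i_pos i)]
  rw [div_le_iff₀ hε] at hi
  have h2 : (0 : ℝ) ≤ (H i).index := Nat.cast_nonneg _
  nlinarith

/-- a chain from a choice of subgroups -/
theorem exists_chain {Q : Type*} [Group Q] (p : ℕ) [Fact p.Prime] (ε : ℝ) (H₀ : Subgroup Q)
    (h0 : H₀.FiniteIndex)
    (h : ∀ H : Subgroup Q, H ≤ H₀ → H.FiniteIndex → ∃ H' : Subgroup Q, ElAb p H' H ∧
      (p : ℝ) ^ (ε * H.index) ≤ H'.relIndex H) :
    ∃ H : ℕ → Subgroup Q, (∀ i, (H i).FiniteIndex) ∧ (∀ i, ElAb p (H (i + 1)) (H i)) ∧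
      ∀ i, (p : ℝ) ^ (ε * (H i).index) ≤ (H (i + 1)).relIndex (H i) := by
  have hp : p.Prime := Fact.out
  have hp0 : (0 : ℝ) < p := by exact_mod_cast hp.pos
  have h' : ∀ H : {H : Subgroup Q // H ≤ H₀ ∧ H.FiniteIndex},
      ∃ H' : {H : Subgroup Q // H ≤ H₀ ∧ H.FiniteIndex}, ElAb p H'.1 H.1 ∧
        (p : ℝ) ^ (ε * H.1.index) ≤ H'.1.relIndex H.1 := by
    rintro ⟨H, h1, h2⟩
    obtain ⟨H', h3, h4⟩ := h H h1 h2
    refine ⟨⟨H', h3.1.trans h1, ⟨?_⟩⟩, h3, h4⟩
    rw [← Subgroup.relIndex_mul_index h3.1]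
    refine mul_ne_zero ?_ h2.index_ne_zero
    intro h5
    rw [h5, Nat.cast_zero] at h4
    exact absurd h4 (not_le.2 (Real.rpow_pos_of_pos hp0 _))
  choose f hf using h'
  let g : ℕ → {H : Subgroup Q // H ≤ H₀ ∧ H.FiniteIndex} := fun n => f^[n] ⟨H₀, le_rfl, h0⟩
  have hg : ∀ n, g (n + 1) = f (g n) := fun n => Function.iterate_succ_apply' f n _
  refine ⟨fun i => (g i).1, fun i => (g i).2.2, fun i => ?_, fun i => ?_⟩
  · change ElAb p (g (i + 1)).1 (g i).1
    rw [hg]
    exact (hf (g i)).1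
  · change (p : ℝ) ^ (ε * (g i).1.index) ≤ ((g (i + 1)).1.relIndex (g i).1 : ℝ)
    rw [hg]
    exact (hf (g i)).2

/-- **The p-gradient of a finitely presented periodic group is zero.** -/
theorem zero_gradient (G : Type*) [Group G] [Group.IsFinitelyPresented G]
    (hG : ∀ g : G, IsOfFinOrder g) (p : ℕ) [Fact p.Prime] (ε : ℝ) (hε : 0 < ε)
    (H₀ : Subgroup G) (h0 : H₀.FiniteIndex) :
    ∃ H : Subgroup G, H ≤ H₀ ∧ H.FiniteIndex ∧ ∀ H' : Subgroup G, ElAb p H' H →
      (H'.relIndex H : ℝ) < (p : ℝ) ^ (ε * H.index) := by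
  by_contra hcon
  push Not at hcon
  obtain ⟨H, h1, h2, h3⟩ := exists_chain p ε H₀ h0 fun H h4 h5 => by
    obtain ⟨H', h6, h7⟩ := hcon H h4 h5
    exact ⟨H', h6, h7⟩
  obtain ⟨γ, hγ⟩ := cover (MonoidHom.id G) (by
    rw [MonoidHom.range_eq_top.2 Function.surjective_id]
    infer_instance) p H h1 h2 (linear_rapid p H ε hε h3)
  exact hγ (hG γ)

/-- **Power relators.** -/
theorem power_relators {α : Type} [Fintype α] {I : Type*} (p : ℕ) [Fact p.Prime]
    (s : I → FreeGroup α) (e : I → ℕ) (δ : ℝ) (hδ1 : δ < Fintype.card α - 1)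
    (hδ : ∀ J : Finset I, ∑ i ∈ J, 1 / (p : ℝ) ^ e i ≤ δ)
    {Γ : Type*} [Group Γ] [Group.IsFinitelyPresented Γ]
    (φ : Γ →* PresentedGroup (Set.range fun i => s i ^ (p ^ e i))) (hφ : φ.range.FiniteIndex) :
    ∃ γ : Γ, ¬ IsOfFinOrder γ := by
  have hp : p.Prime := Fact.out
  have hp1 : (1 : ℝ) < p := by exact_mod_cast hp.one_lt
  obtain ⟨H, h1, h2, h3⟩ := exists_chain p (Fintype.card α - 1 - δ)
    (⊤ : Subgroup (PresentedGroup (Set.range fun i => s i ^ (p ^ e i)))) inferInstance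
    fun H _ h5 => by
      obtain ⟨K', h6, m, h7, h8⟩ := next_subgroup s e δ hδ H h5
      refine ⟨K', h6, ?_⟩
      rw [h7, Nat.cast_pow, ← Real.rpow_natCast (p : ℝ) m]
      apply Real.rpow_le_rpow_of_exponent_le hp1.le
      linarith
  exact cover φ hφ p H h1 h2 (linear_rapid p H _ (by linarith) h3)

end chains

end Vale.Agent.P192.H121
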