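import Mathlib

/-!
# P192: lifting homomorphisms of finitely presented groups along surjections of rings
-/

namespace Vale.Agent.P192.H121.NC

open Matrix

variable {n : ℕ}

/-- the matrix of a word -/
def wordMat {R : Type} [Ring R] {k : ℕ} (A B : Fin k → Matrix (Fin n) (Fin n) R)
    (L : List (Fin k × Bool)) : Matrix (Fin n) (Fin n) R :=
  (L.map fun x => cond x.2 (A x.1) (B x.1)).prod

theorem map_wordMat {R C : Type} [Ring R] [Ring C] {k : ℕ}
    (A B : Fin k → Matrix (Fin n) (Fin n) R) (θ : R →+* C)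
    (u : Fin k → (Matrix (Fin n) (Fin n) C)ˣ)
    (h1 : ∀ i, θ.mapMatrix (A i) = u i)
    (h2 : ∀ i, θ.mapMatrix (B i) = ((u i)⁻¹ : (Matrix (Fin n) (Fin n) C)ˣ))
    (w : FreeGroup (Fin k)) :
    θ.mapMatrix (wordMat A B w.toWord) = (FreeGroup.lift u w : Matrix (Fin n) (Fin n) C) := by
  have key : ∀ L : List (Fin k × Bool), θ.mapMatrix (wordMat A B L) =
      ((FreeGroup.lift u (FreeGroup.mk L) : (Matrix (Fin n) (Fin n) C)ˣ) :
        Matrix (Fin n) (Fin n) C) := by
    intro L
    rw [FreeGroup.lift_mk, wordMat]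
    induction L with
    | nil => simp only [List.map_nil, List.prod_nil, map_one, Units.val_one]
    | cons x L ih =>
      rw [List.map_cons, List.prod_cons, map_mul, ih, List.map_cons, List.prod_cons,
        Units.val_mul]
      congr 1
      rcases x with ⟨i, b⟩
      cases b
      · exact h2 i
      · exact h1 i
  rw [key, FreeGroup.mk_toWord]

/-- Homomorphisms of finitely presented groups to `GL n A` lift to `GL n B` for all ring
homomorphisms from `R` killing finitely many elements of the kernel of `R → A`. -/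
theorem exists_lift {Γ : Type} [Group Γ] (hΓ : Group.IsFinitelyPresented Γ) {R A : Type} [Ring R]
    [Ring A] (π : R →+* A) (hπ : Function.Surjective π)
    (φ : Γ →* (Matrix (Fin n) (Fin n) A)ˣ) :
    ∃ (T : Set R) (m : Γ → Matrix (Fin n) (Fin n) R), T.Finite ∧ (∀ t ∈ T, π t = 0) ∧
      (∀ g, π.mapMatrix (m g) = φ g) ∧
      ∀ (B : Type) [Ring B] (ψ : R →+* B), (∀ t ∈ T, ψ t = 0) →
        ∃ φ' : Γ →* (Matrix (Fin n) (Fin n) B)ˣ, ∀ g, ψ.mapMatrix (m g) = φ' g := by
  classical
  obtain ⟨k, q, hq, S, hS, hSker⟩ := hΓ.out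
  have hπm : Function.Surjective (π.mapMatrix : Matrix (Fin n) (Fin n) R →+* _) := by
    intro x
    choose y hy using fun i j => hπ (x i j)
    exact ⟨Matrix.of y, by ext i j; exact hy i j⟩
  choose X hX using fun i => hπm (φ (q (FreeGroup.of i)) : Matrix (Fin n) (Fin n) A)
  choose Y hY using fun i => hπm (((φ (q (FreeGroup.of i)))⁻¹ : (Matrix (Fin n) (Fin n) A)ˣ) :
    Matrix (Fin n) (Fin n) A)
  choose s hs using hq
  let entries : Matrix (Fin n) (Fin n) R → Set R := fun Z => Set.range fun ij : Fin n × Fin n =>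
    Z ij.1 ij.2
  let T : Set R := (⋃ i : Fin k, (entries (X i * Y i - 1) ∪ entries (Y i * X i - 1))) ∪
    ⋃ r ∈ S, entries (wordMat X Y r.toWord - 1)
  have hent : ∀ (C : Type) [Ring C] (θ : R →+* C) (Z : Matrix (Fin n) (Fin n) R),
      (∀ t ∈ entries (Z - 1), θ t = 0) ↔ θ.mapMatrix Z = 1 := by
    intro C _ θ Z
    constructor
    · intro h
      have h1 : θ.mapMatrix (Z - 1) = 0 := by
        ext i j
        exact h _ ⟨(i, j), rfl⟩
      rw [map_sub, map_one, sub_eq_zero] at h1
      exact h1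
    · rintro h _ ⟨⟨i, j⟩, rfl⟩
      have h1 : θ.mapMatrix (Z - 1) = 0 := by rw [map_sub, map_one, h, sub_self]
      exact congrFun (congrFun h1 i) j
  have hφ : ∀ w, π.mapMatrix (wordMat X Y w.toWord) = φ (q w) := by
    intro w
    rw [map_wordMat X Y π (fun i => φ (q (FreeGroup.of i))) hX hY w]
    have : FreeGroup.lift (fun i => φ (q (FreeGroup.of i))) = φ.comp q := by
      ext i
      simp
    rw [this]; rfl
  refine ⟨T, fun g => wordMat X Y (s g).toWord, ?_, ?_, ?_, ?_⟩
  · refine Set.Finite.union ?_ ?_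
    · exact Set.finite_iUnion fun i => (Set.finite_range _).union (Set.finite_range _)
    · exact hS.biUnion fun r _ => Set.finite_range _
  · intro t ht
    rcases ht with ht | ht
    · rw [Set.mem_iUnion] at ht
      obtain ⟨i, ht | ht⟩ := ht
      · refine (hent A π _).mpr ?_ t ht
        rw [map_mul, hX, hY, ← Units.val_mul, mul_inv_cancel, Units.val_one]
      · refine (hent A π _).mpr ?_ t ht
        rw [map_mul, hY, hX, ← Units.val_mul, inv_mul_cancel, Units.val_one]
    · rw [Set.mem_iUnion₂] at ht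
      obtain ⟨r, hr, ht⟩ := ht
      refine (hent A π _).mpr ?_ t ht
      rw [hφ]
      have h1 : r ∈ q.ker := by
        rw [← hSker]
        exact Subgroup.subset_normalClosure hr
      rw [MonoidHom.mem_ker.mp h1, map_one, Units.val_one]
  · intro g
    rw [hφ, hs]
  · intro C _ ψ hψ
    have h1 : ∀ i, ψ.mapMatrix (X i) * ψ.mapMatrix (Y i) = 1 := by
      intro i
      rw [← map_mul, ← hent]
      exact fun t ht => hψ t (Or.inl (Set.mem_iUnion.mpr ⟨i, Or.inl ht⟩))
    have h2 : ∀ i, ψ.mapMatrix (Y i) * ψ.mapMatrix (X i) = 1 := by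
      intro i
      rw [← map_mul, ← hent]
      exact fun t ht => hψ t (Or.inl (Set.mem_iUnion.mpr ⟨i, Or.inr ht⟩))
    let u : Fin k → (Matrix (Fin n) (Fin n) C)ˣ := fun i => ⟨_, _, h1 i, h2 i⟩
    have hu : ∀ w, ψ.mapMatrix (wordMat X Y w.toWord) = (FreeGroup.lift u w) :=
      map_wordMat X Y ψ u (fun _ => rfl) (fun _ => rfl)
    have hker : q.ker ≤ (FreeGroup.lift u).ker := by
      rw [← hSker]
      refine Subgroup.normalClosure_le_normal ?_
      intro r hr
      rw [SetLike.mem_coe, MonoidHom.mem_ker]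
      refine Units.ext ?_
      rw [← hu, Units.val_one, ← hent]
      exact fun t ht => hψ t (Or.inr (Set.mem_iUnion₂.mpr ⟨r, hr, ht⟩))
    have hsq : ∀ w, FreeGroup.lift u (s (q w)) = FreeGroup.lift u w := by
      intro w
      have h3 : (s (q w)) * w⁻¹ ∈ q.ker := by
        rw [MonoidHom.mem_ker, map_mul, hs, map_inv, mul_inv_cancel]
      have h4 := hker h3
      rwa [MonoidHom.mem_ker, map_mul, map_inv, mul_inv_eq_one] at h4
    refine ⟨{ toFun := fun g => FreeGroup.lift u (s g), map_one' := ?_, map_mul' := ?_ }, ?_⟩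
    · have := hsq 1
      rwa [map_one, map_one] at this
    · intro g h
      have := hsq (s g * s h)
      rwa [map_mul, hs, hs, map_mul] at this
    · intro g
      exact hu (s g)

end Vale.Agent.P192.H121.NC
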