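import Vale.Agent.P192.H121.Coc

/-!
# P192: cocycles with values in vector spaces over the field with `p` elements
-/

namespace Vale.Agent.P192.H121

open Monoid

variable {α X : Type*} [MulAction (FreeGroup α) X]

section add

variable {M : Type*} [AddCommGroup M]

/-- additive version of `cval` -/
def av (c : X × α → M) (w : FreeGroup α) (x : X) : M :=
  Multiplicative.toAdd (cval (fun x a => Multiplicative.ofAdd (c (x, a))) w x)

theorem av_mul (c : X × α → M) (v w : FreeGroup α) (x : X) :
    av c (v * w) x = av c v (w • x) + av c w x := by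
  simp [av, cval_mul]

theorem av_one (c : X × α → M) (x : X) : av c 1 x = 0 := by
  simp [av, cval_one]

theorem av_of (c : X × α → M) (a : α) (x : X) : av c (FreeGroup.of a) x = c (x, a) := by
  simp [av, cval_of]

theorem av_inv (c : X × α → M) (w : FreeGroup α) (x : X) :
    av c w⁻¹ x = -(av c w (w⁻¹ • x)) := by
  simp [av, cval_inv]

theorem av_unique (c : X × α → M) (f : FreeGroup α → X → M)
    (hof : ∀ a x, f (FreeGroup.of a) x = c (x, a))
    (hmul : ∀ v w x, f (v * w) x = f v (w • x) + f w x) (w : FreeGroup α) (x : X) :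
    f w x = av c w x := by
  have := cval_unique (A := Multiplicative M) (fun x a => Multiplicative.ofAdd (c (x, a)))
    (fun w x => Multiplicative.ofAdd (f w x)) (fun a x => by simp [hof])
    (fun v w x => by simp [hmul]) w x
  exact congrArg Multiplicative.toAdd this

theorem av_map {N : Type*} [AddCommGroup N] (φ : M →+ N) (c : X × α → M) (w : FreeGroup α)
    (x : X) : φ (av c w x) = av (fun e => φ (c e)) w x :=
  av_unique (fun e => φ (c e)) (fun w x => φ (av c w x))
    (fun a x => by simp [av_of]) (fun v w x => by simp [av_mul]) w x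

theorem av_comp {Y : Type*} [MulAction (FreeGroup α) Y] (π : Y → X)
    (hπ : ∀ (w : FreeGroup α) y, π (w • y) = w • π y) (c : X × α → M) (w : FreeGroup α) (y : Y) :
    av (fun e : Y × α => c (π e.1, e.2)) w y = av c w (π y) :=
  (av_unique (fun e : Y × α => c (π e.1, e.2)) (fun w y => av c w (π y))
    (fun a x => by simp [av_of]) (fun v w x => by simp [av_mul, hπ]) w y).symm

theorem av_add (c c' : X × α → M) (w : FreeGroup α) (x : X) :
    av (c + c') w x = av c w x + av c' w x :=
  (av_unique (c + c') (fun w x => av c w x + av c' w x)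
    (fun a x => by simp [av_of]) (fun v w x => by simp only [av_mul]; abel) w x).symm

theorem av_eq_zero [DecidableEq α] (c : X × α → M) (r : FreeGroup α) (x : X)
    (h : ∀ e ∈ edges r.toWord x, c e = 0) : av c r x = 0 := by
  have h1 := cval_eq_one (A := Multiplicative M) (fun x a => Multiplicative.ofAdd (c (x, a)))
    r.toWord x (fun e he => by
      have := h e he
      simp [this])
  rw [FreeGroup.mk_toWord] at h1
  simp [av, h1]

/-- the additive cocycle condition -/
def AClosed (R : Set (FreeGroup α)) (c : X × α → M) : Prop :=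
  ∀ r ∈ R, ∀ x, av c r x = 0

/-- the cocycle is onto on the stabiliser -/
def Onto (x₀ : X) (c : X × α → M) : Prop :=
  ∀ v : M, ∃ w : FreeGroup α, w • x₀ = x₀ ∧ av c w x₀ = v

theorem av_stab_mul (c : X × α → M) {w w' : FreeGroup α} {x₀ : X} (h' : w' • x₀ = x₀) :
    av c (w * w') x₀ = av c w x₀ + av c w' x₀ := by
  rw [av_mul, h']

theorem av_stab_inv (c : X × α → M) {w : FreeGroup α} {x₀ : X} (h : w • x₀ = x₀) :
    av c w⁻¹ x₀ = -(av c w x₀) := by
  rw [av_inv, inv_smul_eq_iff.2 h.symm]

end add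

section module

variable {p : ℕ} [Fact p.Prime] {M : Type*} [AddCommGroup M] [Module (ZMod p) M]

/-- `av` as a linear map in the cochain -/
def avL (w : FreeGroup α) (x : X) : (X × α → M) →ₗ[ZMod p] M where
  toFun c := av c w x
  map_add' c c' := av_add c c' w x
  map_smul' k c := by
    have := av_map (DistribSMul.toAddMonoidHom M k) c w x
    exact this.symm

theorem avL_apply (w : FreeGroup α) (x : X) (c : X × α → M) :
    avL (p := p) w x c = av c w x := rfl

theorem av_apply {κ : Type*} (c : X × α → κ → ZMod p) (w : FreeGroup α) (x : X) (k : κ) :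
    av c w x k = av (fun e => c e k) w x :=
  av_map (Pi.evalAddMonoidHom (fun _ : κ => ZMod p) k) c w x

/-- surjectivity from linear independence -/
theorem onto_of_indep {κ : Type*} [Fintype κ] [DecidableEq κ] (x₀ : X)
    (c : X × α → κ → ZMod p)
    (h : ∀ l : κ → ZMod p, (∀ w : FreeGroup α, w • x₀ = x₀ →
      av (fun e => ∑ k, l k * c e k) w x₀ = 0) → l = 0) : Onto x₀ c := by
  let S : AddSubgroup (κ → ZMod p) :=
    { carrier := {v | ∃ w : FreeGroup α, w • x₀ = x₀ ∧ av c w x₀ = v}
      zero_mem' := ⟨1, one_smul _ _, av_one c x₀⟩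
      add_mem' := by
        rintro _ _ ⟨w, hw, rfl⟩ ⟨w', hw', rfl⟩
        exact ⟨w * w', by rw [mul_smul, hw', hw], av_stab_mul c hw'⟩
      neg_mem' := by
        rintro _ ⟨w, hw, rfl⟩
        exact ⟨w⁻¹, inv_smul_eq_iff.2 hw.symm, av_stab_inv c hw⟩ }
  let S' : Submodule (ZMod p) (κ → ZMod p) := AddSubgroup.toZModSubmodule p S
  have hS' : ∀ v, v ∈ S' ↔ v ∈ S := fun v => Iff.rfl
  by_contra hcon
  have hne : S' ≠ ⊤ := by
    intro htop
    apply hcon
    intro v
    have : v ∈ S' := by rw [htop]; trivial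
    exact this
  obtain ⟨f, hf, hle⟩ := Submodule.exists_le_ker_of_lt_top S' (lt_top_iff_ne_top.2 hne)
  apply hf
  have hfe : ∀ v, f v = ∑ k, f (Pi.single k 1) * v k := by
    intro v
    conv_lhs => rw [← Finset.univ_sum_single v, map_sum]
    refine Finset.sum_congr rfl fun k _ => ?_
    have : (Pi.single k (v k) : κ → ZMod p) = v k • Pi.single k 1 := by
      rw [← Pi.single_smul, smul_eq_mul, mul_one]
    rw [this, map_smul, smul_eq_mul, mul_comm]
  have h0 := h (fun k => f (Pi.single k 1)) (by
    intro w hw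
    have h1 : av c w x₀ ∈ S' := ⟨w, hw, rfl⟩
    have h2 : f (av c w x₀) = 0 := hle h1
    rw [← h2]
    have h3 := av_map f.toAddMonoidHom c w x₀
    have h4 : (fun e => f.toAddMonoidHom (c e)) = fun e => ∑ k, f (Pi.single k 1) * c e k := by
      funext e
      exact hfe (c e)
    rw [h4] at h3
    exact h3.symm)
  ext v
  have h1 : f (Pi.single v 1) = 0 := congrFun h0 v
  simpa using h1

end module

section cover

variable {M : Type*} [AddCommGroup M]

/-- The covering of `X` defined by a cochain with values in an additive group. -/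
@[ext] structure Cov (c : X × α → M) where
  /-- the point below -/
  base : X
  /-- the sheet -/
  val : M

/-- the covering as a product -/
def covEquiv (c : X × α → M) : Cov c ≃ X × M where
  toFun y := (y.base, y.val)
  invFun y := ⟨y.1, y.2⟩
  left_inv _ := rfl
  right_inv _ := rfl

instance covAction (c : X × α → M) : MulAction (FreeGroup α) (Cov c) where
  smul w y := ⟨w • y.base, y.val + av c w y.base⟩
  one_smul y := by
    change (⟨(1 : FreeGroup α) • y.base, y.val + av c 1 y.base⟩ : Cov c) = y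
    rw [one_smul, av_one, add_zero]
  mul_smul v w y := by
    change (⟨(v * w) • y.base, y.val + av c (v * w) y.base⟩ : Cov c) =
      ⟨v • w • y.base, y.val + av c w y.base + av c v (w • y.base)⟩
    rw [mul_smul, av_mul, add_comm (av c v _), add_assoc]

theorem cov_smul (c : X × α → M) (w : FreeGroup α) (y : Cov c) :
    w • y = ⟨w • y.base, y.val + av c w y.base⟩ := rfl

theorem cov_rel {R : Set (FreeGroup α)} (c : X × α → M) (hX : ∀ r ∈ R, ∀ x : X, r • x = x)
    (hc : AClosed R c) : ∀ r ∈ R, ∀ y : Cov c, r • y = y := by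
  intro r hr y
  rw [cov_smul, hX r hr, hc r hr, add_zero]

theorem cov_stab (c : X × α → M) (w : FreeGroup α) (x₀ : X) (v : M) :
    w • (⟨x₀, v⟩ : Cov c) = ⟨x₀, v⟩ ↔ w • x₀ = x₀ ∧ av c w x₀ = 0 := by
  rw [cov_smul]
  constructor
  · intro h
    have h1 := congrArg Cov.base h
    have h2 := congrArg Cov.val h
    exact ⟨h1, by simpa using h2⟩
  · rintro ⟨h1, h2⟩
    change (⟨w • x₀, v + av c w x₀⟩ : Cov c) = ⟨x₀, v⟩
    rw [h1, h2, add_zero]

theorem cov_transitive (c : X × α → M) (x₀ : X) (ht : ∀ x : X, ∃ w : FreeGroup α, w • x₀ = x)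
    (hc : Onto x₀ c) (v₀ : M) (y : Cov c) :
    ∃ w : FreeGroup α, w • (⟨x₀, v₀⟩ : Cov c) = y := by
  obtain ⟨x, v⟩ := y
  obtain ⟨w₁, h₁⟩ := ht x
  obtain ⟨w₂, h₂, h₃⟩ := hc (v - v₀ - av c w₁ x₀)
  refine ⟨w₁ * w₂, ?_⟩
  rw [cov_smul]
  change (⟨(w₁ * w₂) • x₀, v₀ + av c (w₁ * w₂) x₀⟩ : Cov c) = ⟨x, v⟩
  rw [mul_smul, h₂, h₁, av_mul, h₂, h₃]
  congr 1
  abel

theorem av_fst (c : X × α → M) {N : Type*} [AddCommGroup N] (b : X × α → N) (w : FreeGroup α)
    (y : Cov c) : av (fun e : Cov c × α => b (e.1.base, e.2)) w y = av b w y.base :=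
  av_comp (fun y : Cov c => y.base) (fun _ _ => rfl) b w y

theorem av_shift (c : X × α → M) {N : Type*} [AddCommGroup N] (ω : Cov c × α → N)
    (w : FreeGroup α) (x : X) (v v' : M) :
    av (fun e : Cov c × α => ω (⟨e.1.base, e.1.val + v'⟩, e.2)) w ⟨x, v⟩ =
      av ω w ⟨x, v + v'⟩ :=
  av_comp (fun y : Cov c => (⟨y.base, y.val + v'⟩ : Cov c))
    (fun w y => by
      rw [cov_smul, cov_smul]
      change (⟨w • y.base, y.val + av c w y.base + v'⟩ : Cov c) =
        ⟨w • y.base, y.val + v' + av c w y.base⟩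
      rw [add_right_comm]) ω w ⟨x, v⟩

end cover

end Vale.Agent.P192.H121
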