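import Vale.Agent.P192.H121.Cover

/-!
# P192: finitely supported cocycles of free products
-/

namespace Vale.Agent.P192.H121

open Monoid

section wr

variable {P A B : Type*} [Group P] [Group A] [Group B]

/-- the cocycle of a homomorphism to a wreath product -/
def wcoc (Θ : P →* A ≀ᵣ B) (w : P) (x : B) : A := (Θ w).left ((Θ w).right * x)

theorem wcoc_mul (Θ : P →* A ≀ᵣ B) (v w : P) (x : B) :
    wcoc Θ (v * w) x = wcoc Θ v ((Θ w).right * x) * wcoc Θ w x := by
  simp [wcoc, mul_assoc]

end wr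

section free

variable {ι : Type*} {G : ι → Type*} [∀ i, Group (G i)] {B : Type*} [Group B]
  (β : ∀ i, G i →* B) {A : Type*} [Group A]

theorem exists_free_coc [DecidableEq ι] (i₀ : ι) (f : B → A) :
    ∃ c : CoprodI G → B → A, Over (CoprodI.lift β) c ∧
      (∀ (g : G i₀) x, c (CoprodI.of g) x = f (β i₀ g * x) * (f x)⁻¹) ∧
      ∀ i, i ≠ i₀ → ∀ (g : G i) x, c (CoprodI.of g) x = 1 := by
  let Θ : CoprodI G →* A ≀ᵣ B := CoprodI.lift fun i =>
    if i = i₀ then (MulAut.conj (⟨f, 1⟩ : A ≀ᵣ B)).toMonoidHom.comp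
      (RegularWreathProduct.inl.comp (β i)) else RegularWreathProduct.inl.comp (β i)
  have hr : ∀ w, (Θ w).right = CoprodI.lift β w := by
    intro w
    have h1 : RegularWreathProduct.rightHom.comp Θ = CoprodI.lift β := by
      ext i g
      by_cases hi : i = i₀
      · simp [Θ, hi]
      · simp [Θ, hi]
    exact DFunLike.congr_fun h1 w
  refine ⟨wcoc Θ, fun v w x => by rw [wcoc_mul, hr], fun g x => ?_, fun i hi g x => ?_⟩
  · simp [wcoc, Θ]
  · simp [wcoc, Θ, hi]

theorem finite_support_free [DecidableEq ι] {i₀ : ι} {f : B → A} {c : CoprodI G → B → A}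
    (hf : {x | f x ≠ 1}.Finite) (hc : Over (CoprodI.lift β) c)
    (h1 : ∀ (g : G i₀) x, c (CoprodI.of g) x = f (β i₀ g * x) * (f x)⁻¹)
    (h2 : ∀ i, i ≠ i₀ → ∀ (g : G i) x, c (CoprodI.of g) x = 1) (w : CoprodI G) :
    {x | c w x ≠ 1}.Finite := by
  induction w using CoprodI.induction_on with
  | one => simp [hc.one]
  | of i g =>
    by_cases hi : i = i₀
    · subst hi
      have h3 : {x | c (CoprodI.of g) x ≠ 1} ⊆
          (fun x => β i g * x) ⁻¹' {x | f x ≠ 1} ∪ {x | f x ≠ 1} := by
        intro x hx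
        by_contra h4
        simp only [Set.mem_union, Set.mem_preimage, Set.mem_ofPred_eq, not_or, not_not] at h4
        apply hx
        rw [h1, h4.1, h4.2, inv_one, one_mul]
      exact ((hf.preimage (mul_right_injective _).injOn).union hf).subset h3
    · simp [h2 i hi]
  | mul v w hv hw =>
    have h3 : {x | c (v * w) x ≠ 1} ⊆
        (fun x => CoprodI.lift β w * x) ⁻¹' {x | c v x ≠ 1} ∪ {x | c w x ≠ 1} := by
      intro x hx
      by_contra h4
      simp only [Set.mem_union, Set.mem_preimage, Set.mem_ofPred_eq, not_or, not_not] at h4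
      apply hx
      rw [hc, h4.1, h4.2, one_mul]
    exact ((hv.preimage (mul_right_injective _).injOn).union hw).subset h3

/-- A nontrivial value on the kernel. -/
theorem exists_nontrivial [DecidableEq ι] {i₀ j₀ : ι} (hij : j₀ ≠ i₀) (a : A) (ha : a ≠ 1)
    (u : G i₀) (v : G j₀) (hu : β i₀ u ≠ 1) (hv : β j₀ v ≠ 1)
    (hB : ∀ b : B, IsOfFinOrder b) :
    ∃ c : CoprodI G → B → A, Over (CoprodI.lift β) c ∧ (∀ w, {x | c w x ≠ 1}.Finite) ∧
      (∀ w x, c w x ∈ Subgroup.zpowers a) ∧
      ∃ w x, CoprodI.lift β w = 1 ∧ c w x ≠ 1 := by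
  classical
  let f : B → A := Pi.mulSingle 1 a
  have hf1 : f 1 = a := Pi.mulSingle_eq_same _ _
  have hf2 : ∀ b, b ≠ 1 → f b = 1 := fun b hb => Pi.mulSingle_eq_of_ne hb _
  have hff : {x | f x ≠ 1}.Finite := by
    refine (Set.finite_singleton (1 : B)).subset ?_
    intro x hx
    by_contra h
    exact hx (hf2 x h)
  have hfa : ∀ b, f b ∈ Subgroup.zpowers a := by
    intro b
    by_cases hb : b = 1
    · rw [hb, hf1]; exact Subgroup.mem_zpowers a
    · rw [hf2 b hb]; exact one_mem _
  obtain ⟨c, hc, h1, h2⟩ := exists_free_coc β (A := A) i₀ f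
  refine ⟨c, hc, finite_support_free β hff hc h1 h2, ?_, ?_⟩
  · intro w
    induction w using CoprodI.induction_on with
    | one => intro x; rw [hc.one]; exact one_mem _
    | of i g =>
      intro x
      by_cases hi : i = i₀
      · subst hi
        rw [h1]
        exact mul_mem (hfa _) (inv_mem (hfa _))
      · rw [h2 i hi]; exact one_mem _
    | mul v w hv hw => intro x; rw [hc]; exact mul_mem (hv _) (hw _)
  set ub := β i₀ u with hub
  set vb := β j₀ v with hvb
  have hlu : CoprodI.lift β (CoprodI.of u) = ub := by simp [hub]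
  have hlv : CoprodI.lift β (CoprodI.of v) = vb := by simp [hvb]
  have hcu : ∀ x, c (CoprodI.of u) x = f (ub * x) * (f x)⁻¹ := fun x => h1 u x
  have hcv : ∀ x, c (CoprodI.of v) x = 1 := fun x => h2 j₀ hij v x
  have hcvu : ∀ x, c (CoprodI.of v * CoprodI.of u) x = f (ub * x) * (f x)⁻¹ := by
    intro x
    rw [hc, hcv, one_mul, hcu]
  have hinv : a⁻¹ ≠ 1 := inv_ne_one.2 ha
  by_cases hcase : vb * ub = 1
  · refine ⟨CoprodI.of v * CoprodI.of u, 1, ?_, ?_⟩
    · rw [map_mul, hlu, hlv, hcase]
    · rw [hcvu, mul_one, hf2 _ hu, hf1, one_mul]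
      exact hinv
  by_cases hcomm : ub * vb = vb * ub
  · refine ⟨CoprodI.of u * CoprodI.of v * (CoprodI.of u)⁻¹ * (CoprodI.of v)⁻¹, 1, ?_, ?_⟩
    · rw [map_mul, map_mul, map_mul, map_inv, map_inv, hlu, hlv, hcomm]
      group
    · rw [hc, hc, hc, hc.inv, hc.inv, hcv, hcv, hcu, hcu, map_inv, map_inv, hlu, hlv]
      have e1 : vb * (ub⁻¹ * (vb⁻¹ * 1)) = ub⁻¹ := by
        rw [mul_one, ← mul_inv_rev, ← hcomm, mul_inv_rev, mul_inv_cancel_left]
      have e2 : f (ub⁻¹ * (vb⁻¹ * 1)) = 1 := by
        refine hf2 _ ?_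
        rw [mul_one, ← mul_inv_rev]
        exact inv_ne_one.2 hcase
      have e3 : f (vb⁻¹ * 1) = 1 := by
        refine hf2 _ ?_
        rw [mul_one]
        exact inv_ne_one.2 hv
      rw [e1, mul_inv_cancel, mul_inv_cancel_left, hf1, hf2 _ (inv_ne_one.2 hu), e2, e3]
      simpa using ha
  · refine ⟨(CoprodI.of v * CoprodI.of u) ^ orderOf (vb * ub), 1, ?_, ?_⟩
    · rw [map_pow, map_mul, hlu, hlv, pow_orderOf_eq_one]
    · have hpos : 0 < orderOf (vb * ub) := orderOf_pos_iff.2 (hB _)
      have key : ∀ m, 0 < m → m ≤ orderOf (vb * ub) →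
          c ((CoprodI.of v * CoprodI.of u) ^ m) 1 = a⁻¹ := by
        intro m
        induction m with
        | zero => intro h; exact absurd h (lt_irrefl _)
        | succ m ih =>
          intro _ hm
          rw [pow_succ', hc, map_pow, map_mul, hlu, hlv, mul_one, hcvu]
          rcases Nat.eq_zero_or_pos m with rfl | hm0
          · rw [pow_zero, pow_zero, mul_one, hf2 _ hu, hf1, hc.one, one_mul, mul_one]
          · rw [ih hm0 (by omega), hf2 ((vb * ub) ^ m) (by
              intro h
              have := orderOf_dvd_of_pow_eq_one h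
              have := Nat.le_of_dvd hm0 this
              omega), hf2 (ub * (vb * ub) ^ m) (by
              intro h
              apply hcomm
              have h3 : ub = ((vb * ub) ^ m)⁻¹ := eq_inv_of_mul_eq_one_left h
              have h4 : Commute ((vb * ub) ^ m)⁻¹ (vb * ub) :=
                ((Commute.refl (vb * ub)).pow_left m).inv_left
              rw [← h3] at h4
              have h5 : ub * (vb * ub) = vb * ub * ub := h4
              rw [← mul_assoc] at h5
              exact mul_right_cancel h5), inv_one, one_mul, one_mul]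
      rw [key _ hpos le_rfl]
      exact hinv

end free

end Vale.Agent.P192.H121
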