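import Vale.Agent.P192.H121.Regular

/-!
# P192: monomial algebras
-/

namespace Vale.Agent.P192.H121.NC

open Matrix Vale.Agent.P192 Vale.Agent.P192.H903

theorem infix_append_cases {X : Type} {w u v : List X} (h : w <:+: u ++ v) :
    w <:+: u ∨ w <:+: v ∨ ∃ p q, w = p ++ q ∧ p <:+ u ∧ q <+: v := by
  obtain ⟨a, b, hab⟩ := h
  rw [List.append_eq_append_iff] at hab
  rcases hab with ⟨c, h1, h2⟩ | ⟨c, h1, h2⟩
  · exact Or.inl ⟨a, c, h1.symm⟩
  · rw [List.append_eq_append_iff] at h1
    rcases h1 with ⟨d, h3, h4⟩ | ⟨d, h3, h4⟩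
    · exact Or.inr (Or.inr ⟨d, c, h4, ⟨a, h3.symm⟩, ⟨b, h2.symm⟩⟩)
    · refine Or.inr (Or.inl ⟨d, b, ?_⟩)
      rw [h2, h4]

theorem factor_transfer {X : Type} (w u u' v : List X) (h1 : w <:+: u → w <:+: u')
    (h2 : ∀ p, p <+: w → p <:+ u → p <:+ u') : w <:+: u ++ v → w <:+: u' ++ v := by
  intro h
  rcases infix_append_cases h with h | h | ⟨p, q, rfl, hp, hq⟩
  · exact (h1 h).trans (List.prefix_append _ _).isInfix
  · exact h.trans (List.suffix_append _ _).isInfix
  · obtain ⟨a, ha⟩ := h2 p (List.prefix_append _ _) hp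
    obtain ⟨b, hb⟩ := hq
    refine ⟨a, b, ?_⟩
    rw [← ha, ← hb]
    simp

variable {m : ℕ} {X : Fin m → Type}

/-- the tuples of words with factors in `W` -/
def factorIdeal (W : Set (∀ i, FreeMonoid (X i))) : Set (∀ i, FreeMonoid (X i)) :=
  {z | ∃ w ∈ W, ∀ i, FreeMonoid.toList (w i) <:+: FreeMonoid.toList (z i)}

theorem isId_factorIdeal (W : Set (∀ i, FreeMonoid (X i))) : IsId (factorIdeal W) := by
  rintro u v z ⟨w, hw, hz⟩
  refine ⟨w, hw, fun i => (hz i).trans ?_⟩
  rw [Pi.mul_apply, Pi.mul_apply, FreeMonoid.toList_mul, FreeMonoid.toList_mul]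
  exact List.infix_append _ _ _

theorem finite_st_factorIdeal (W : Set (∀ i, FreeMonoid (X i))) (hW : W.Finite) :
    Finite (St (factorIdeal W)) := by
  classical
  have hWf : Finite W := hW
  let P : Type := Σ i : Fin m, {p : List (X i) // ∃ w ∈ W, p <+: FreeMonoid.toList (w i)}
  have hPf : Finite P := by
    have h : ∀ i : Fin m, Finite {p : List (X i) // ∃ w ∈ W, p <+: FreeMonoid.toList (w i)} := by
      intro i
      have h1 : (⋃ w ∈ W, {p : List (X i) | p <+: FreeMonoid.toList (w i)}).Finite := by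
        refine hW.biUnion fun w _ => ?_
        refine ((FreeMonoid.toList (w i)).inits.toFinset.finite_toSet).subset fun p hp => ?_
        rw [Finset.mem_coe, List.mem_toFinset, List.mem_inits]
        exact hp
      refine h1.subset fun p hp => ?_
      obtain ⟨w, hw, hp⟩ := hp
      exact Set.mem_biUnion hw hp
    infer_instance
  let F : (∀ i, FreeMonoid (X i)) → Set (W × Fin m) × Set P := fun u =>
    ({c | FreeMonoid.toList (c.1.1 c.2) <:+: FreeMonoid.toList (u c.2)},
      {p | p.2.1 <:+ FreeMonoid.toList (u p.1)})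
  have key : ∀ u u', F u = F u' → ∀ v, u * v ∈ factorIdeal W → u' * v ∈ factorIdeal W := by
    rintro u u' h v ⟨w, hw, huv⟩
    rw [Prod.mk.injEq] at h
    refine ⟨w, hw, fun i => ?_⟩
    refine factor_transfer (FreeMonoid.toList (w i)) (FreeMonoid.toList (u i))
      (FreeMonoid.toList (u' i)) (FreeMonoid.toList (v i)) (fun h3 => ?_) (fun p hp h3 => ?_)
      (huv i)
    · have h4 : ((⟨w, hw⟩, i) : W × Fin m) ∈
        {c : W × Fin m | FreeMonoid.toList (c.1.1 c.2) <:+: FreeMonoid.toList (u c.2)} := h3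
      rw [h.1] at h4
      exact h4
    · have h4 : (⟨i, p, w, hw, hp⟩ : P) ∈ {p : P | p.2.1 <:+ FreeMonoid.toList (u p.1)} := h3
      rw [h.2] at h4
      exact h4
  have key2 : ∀ u u', F u = F u' → (synt (factorIdeal W)).r u u' :=
    fun u u' h v => ⟨key u u' h v, key u' u h.symm v⟩
  refine Finite.of_injective (fun q : St (factorIdeal W) => F q.out) ?_
  intro q q' h
  rw [← Quotient.out_eq q, ← Quotient.out_eq q']
  exact Quotient.sound (key2 _ _ h)

theorem locally_regular (J : Set (∀ i, FreeMonoid (X i))) (hJ : IsId J)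
    (W : Set (∀ i, FreeMonoid (X i))) (hW : W.Finite) (hWJ : W ⊆ J) :
    ∃ J' : Set (∀ i, FreeMonoid (X i)), W ⊆ J' ∧ J' ⊆ J ∧ IsId J' ∧ Finite (St J') := by
  refine ⟨factorIdeal W, fun w hw => ⟨w, hw, fun i => List.infix_refl _⟩, ?_,
    isId_factorIdeal _, finite_st_factorIdeal _ hW⟩
  rintro z ⟨w, hw, h⟩
  choose a b hab using h
  have h1 := hJ (fun i => FreeMonoid.ofList (a i)) (fun i => FreeMonoid.ofList (b i)) w (hWJ hw)
  have h2 : (fun i => FreeMonoid.ofList (a i)) * w * (fun i => FreeMonoid.ofList (b i)) = z := by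
    funext i
    apply FreeMonoid.toList.injective
    rw [Pi.mul_apply, Pi.mul_apply, FreeMonoid.toList_mul, FreeMonoid.toList_mul]
    exact hab i
  rwa [h2] at h1

end Vale.Agent.P192.H121.NC
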