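import Vale.Agent.P192.H121.Supp

/-!
# P192: pairs of cocycles
-/

namespace Vale.Agent.P192.H121

open Monoid

universe u1 u2 u3 u4 u5

theorem IsCoc.inv {G : Type*} [Group G] {X : Type*} [MulAction G X] {A : Type*} [Group A]
    {c : G → X → A} (hc : IsCoc c) (g : G) (x : X) : c g⁻¹ x = (c g (g⁻¹ • x))⁻¹ := by
  have := hc g g⁻¹ x
  rw [mul_inv_cancel, hc.one] at this
  exact eq_inv_of_mul_eq_one_right this.symm

/-- the places where a cocycle is read -/
theorem exists_places {G : Type u1} [Group G] (S : Set G) (hS : Subgroup.closure S = ⊤) (g : G) :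
    ∃ T : Finset G, ∀ (X : Type u2) [MulAction G X] (A : Type u3) [Group A] (c : G → X → A),
      IsCoc c → ∀ x : X, (∀ s ∈ S, ∀ t ∈ T, c s (t • x) = 1) → c g x = 1 := by
  classical
  have hg : g ∈ Subgroup.closure S := by rw [hS]; trivial
  induction hg using Subgroup.closure_induction with
  | mem s hs =>
    refine ⟨{1}, fun X _ A _ c _ x h => ?_⟩
    have := h s hs 1 (Finset.mem_singleton_self _)
    rwa [one_smul] at this
  | one => exact ⟨∅, fun X _ A _ c hc x _ => hc.one x⟩
  | mul g h _ _ ih1 ih2 =>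
    obtain ⟨T1, h1⟩ := ih1
    obtain ⟨T2, h2⟩ := ih2
    refine ⟨T1.image (· * h) ∪ T2, fun X _ A _ c hc x hx => ?_⟩
    rw [hc, h1 X A c hc (h • x) fun s hs t ht => ?_, h2 X A c hc x fun s hs t ht =>
      hx s hs t (Finset.mem_union_right _ ht), one_mul]
    have := hx s hs (t * h) (Finset.mem_union_left _ (Finset.mem_image_of_mem _ ht))
    rwa [mul_smul] at this
  | inv g _ ih =>
    obtain ⟨T, h⟩ := ih
    refine ⟨T.image (· * g⁻¹), fun X _ A _ c hc x hx => ?_⟩
    rw [hc.inv, h X A c hc (g⁻¹ • x) fun s hs t ht => ?_, inv_one]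
    have := hx s hs (t * g⁻¹) (Finset.mem_image_of_mem _ ht)
    rwa [mul_smul] at this

/-- the points on the loop of a word -/
theorem exists_pts {α : Type u1} [DecidableEq α] (l : List (α × Bool)) :
    ∃ U : Finset (FreeGroup α), ∀ (X : Type u2) [MulAction (FreeGroup α) X] (x : X),
      ∀ e ∈ edges l x, ∃ u ∈ U, e.1 = u • x := by
  induction l with
  | nil => exact ⟨∅, fun X _ x e he => by simp [edges] at he⟩
  | cons p t ih =>
    obtain ⟨U, hU⟩ := ih
    refine ⟨insert (FreeGroup.mk t) (insert ((FreeGroup.of p.1)⁻¹ * FreeGroup.mk t) U),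
      fun X _ x e he => ?_⟩
    rw [edges, List.mem_cons] at he
    rcases he with rfl | he
    · unfold edge
      split_ifs with hp
      · exact ⟨_, Finset.mem_insert_self _ _, rfl⟩
      · refine ⟨_, Finset.mem_insert_of_mem (Finset.mem_insert_self _ _), ?_⟩
        rw [mul_smul]
    · obtain ⟨u, hu, h⟩ := hU X x e he
      exact ⟨u, Finset.mem_insert_of_mem (Finset.mem_insert_of_mem hu), h⟩

/-- **Pairs of cocycles.** -/
theorem pairs (G : Type u1) [Group G] [Group.IsFinitelyPresented G]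
    (hG : ∀ g : G, IsOfFinOrder g) (S : Set G) (hS : Subgroup.closure S = ⊤) :
    ∃ T : Finset G, ∀ (X : Type u2) (Y : Type u3) [MulAction G X] [MulAction G Y]
      (A : Type u4) (B : Type u5) [Group A] [Group B] (c : G → X → A) (d : G → Y → B),
      IsCoc c → IsCoc d → ∀ (x : X) (y : Y),
      (∀ g : G, (∀ s ∈ S, ∀ t ∈ T, c s (t • g • x) = 1) ∨
        (∀ s ∈ S, ∀ t ∈ T, d s (t • g • y) = 1)) →
      (∀ g : G, g • x = x → g • y = y → c g x = 1) ∨
        (∀ g : G, g • x = x → g • y = y → d g y = 1) := by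
  classical
  obtain ⟨n, φ, hφ, R', hTf, hTφ⟩ := (inferInstance : Group.IsFinitelyPresented G).out
  obtain ⟨R, rfl⟩ := hTf.exists_finset_coe
  have hT : TorsRel (R : Set (FreeGroup (Fin n))) := by
    intro w
    obtain ⟨k, hk, hk1⟩ := isOfFinOrder_iff_pow_eq_one.1 (hG (φ w))
    refine ⟨k - 1, ?_⟩
    rw [Nat.sub_add_cancel hk, hTφ, MonoidHom.mem_ker, map_pow]
    exact hk1
  have hRφ : ∀ r ∈ R, φ r = 1 := by
    intro r hr
    have : r ∈ φ.ker := by
      rw [← hTφ]
      exact Subgroup.subset_normalClosure hr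
    exact this
  choose P1 hP1 using fun a : Fin n =>
    exists_places.{u1, u2, u4} S hS (φ (FreeGroup.of a))
  choose P2 hP2 using fun a : Fin n =>
    exists_places.{u1, u3, u5} S hS (φ (FreeGroup.of a))
  choose U hU using fun r : FreeGroup (Fin n) => exists_pts.{0, max u2 u3} r.toWord
  refine ⟨R.biUnion fun r => (U r).biUnion fun u => Finset.univ.biUnion fun a =>
    (P1 a ∪ P2 a).image fun t => t * φ u, ?_⟩
  intro X Y _ _ A B _ _ c d hc hd x y hsep
  let Z := MulAction.orbit G ((x, y) : X × Y)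
  letI : MulAction (FreeGroup (Fin n)) Z := MulAction.compHom Z φ
  have hsm : ∀ (w : FreeGroup (Fin n)) (z : Z), ((w • z : Z) : X × Y) = φ w • (z : X × Y) :=
    fun _ _ => rfl
  let C : Bool → Z → Fin n → A × B := fun b z a =>
    if b then (c (φ (FreeGroup.of a)) z.1.1, 1) else (1, d (φ (FreeGroup.of a)) z.1.2)
  have hC1 : ∀ w z, cval (C true) w z = (c (φ w) z.1.1, 1) := by
    intro w z
    refine (cval_unique (C true) (fun w z => ((c (φ w) z.1.1, 1) : A × B)) (fun _ _ => rfl)
      (fun v w z => ?_) w z).symm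
    rw [Prod.mk_mul_mk, one_mul, map_mul, hc, hsm]
    rfl
  have hC2 : ∀ w z, cval (C false) w z = (1, d (φ w) z.1.2) := by
    intro w z
    refine (cval_unique (C false) (fun w z => ((1, d (φ w) z.1.2) : A × B)) (fun _ _ => rfl)
      (fun v w z => ?_) w z).symm
    rw [Prod.mk_mul_mk, one_mul, map_mul, hd, hsm]
    rfl
  let z₀ : Z := ⟨(x, y), MulAction.mem_orbit_self _⟩
  have hX : ∀ r ∈ (R : Set (FreeGroup (Fin n))), ∀ z : Z, r • z = z := by
    intro r hr z
    apply Subtype.ext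
    rw [hsm, hRφ r hr, one_smul]
  have hcl : ∀ b, Closed (R : Set (FreeGroup (Fin n))) (C b) := by
    intro b r hr z
    cases b
    · rw [hC2, hRφ r hr, hd.one]; rfl
    · rw [hC1, hRφ r hr, hc.one]; rfl
  obtain ⟨b, hb⟩ := separated hT hX C hcl (by
    intro r hr z
    obtain ⟨z, g, hg⟩ := z
    have hz : (z.1, z.2) = (g • x, g • y) := hg.symm
    rw [Prod.mk.injEq] at hz
    rcases hsep g with h | h
    · refine ⟨true, fun e he => ?_⟩
      obtain ⟨u, hu, heu⟩ := hU r Z _ e he
      have h1 : e.1.1 = φ u • z := by rw [heu, hsm]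
      change ((c (φ (FreeGroup.of e.2)) e.1.1.1, 1) : A × B) = 1
      rw [h1, hP1 e.2 X A c hc, Prod.mk_one_one]
      intro s hs t ht
      have h2 := h s hs (t * φ u) (Finset.mem_biUnion.2 ⟨r, hr, Finset.mem_biUnion.2 ⟨u, hu,
        Finset.mem_biUnion.2 ⟨e.2, Finset.mem_univ _,
          Finset.mem_image_of_mem _ (Finset.mem_union_left _ ht)⟩⟩⟩)
      rw [mul_smul, ← hz.1] at h2
      exact h2
    · refine ⟨false, fun e he => ?_⟩
      obtain ⟨u, hu, heu⟩ := hU r Z _ e he
      have h1 : e.1.1 = φ u • z := by rw [heu, hsm]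
      change ((1, d (φ (FreeGroup.of e.2)) e.1.1.2) : A × B) = 1
      rw [h1, hP2 e.2 Y B d hd, Prod.mk_one_one]
      intro s hs t ht
      have h2 := h s hs (t * φ u) (Finset.mem_biUnion.2 ⟨r, hr, Finset.mem_biUnion.2 ⟨u, hu,
        Finset.mem_biUnion.2 ⟨e.2, Finset.mem_univ _,
          Finset.mem_image_of_mem _ (Finset.mem_union_right _ ht)⟩⟩⟩)
      rw [mul_smul, ← hz.2] at h2
      exact h2) z₀
  cases b
  · right
    intro g hg1 hg2
    obtain ⟨w, rfl⟩ := hφ g
    have h := hb w (Subtype.ext (Prod.ext hg1 hg2))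
    rw [hC2] at h
    exact congrArg Prod.snd h
  · left
    intro g hg1 hg2
    obtain ⟨w, rfl⟩ := hφ g
    have h := hb w (Subtype.ext (Prod.ext hg1 hg2))
    rw [hC1] at h
    exact congrArg Prod.fst h

end Vale.Agent.P192.H121
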