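import Vale.Agent.P192.H121.Pairs

/-!
# P192: the number of orbits of pairs
-/

namespace Vale.Agent.P192.H121

open Monoid

universe u1 u2 u3 u4 u5 u6

theorem encard_biUnion_le' {ι X : Type*} (s : Finset ι) (f : ι → Set X) (N : ℕ∞)
    (h : ∀ i ∈ s, (f i).encard ≤ N) : (⋃ i ∈ s, f i).encard ≤ s.card * N := by
  classical
  induction s using Finset.induction_on with
  | empty => simp
  | insert a s ha ih =>
    rw [Finset.set_biUnion_insert, Finset.card_insert_of_notMem ha, Nat.cast_add, Nat.cast_one,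
      add_mul, one_mul, add_comm]
    exact (Set.encard_union_le _ _).trans (add_le_add (h a (Finset.mem_insert_self _ _))
      (ih fun i hi => h i (Finset.mem_insert_of_mem hi)))

/-- the places at which a cocycle is seen from -/
def seen {G : Type*} [Group G] {X : Type*} [MulAction G X] {A : Type*} [Group A]
    (S T : Finset G) (c : G → X → A) : Set X :=
  ⋃ p ∈ S ×ˢ T, {x | c p.1 (p.2 • x) ≠ 1}

theorem encard_seen {G : Type*} [Group G] {X : Type*} [MulAction G X] {A : Type*} [Group A]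
    (S T : Finset G) (c : G → X → A) (N : ℕ∞) (h : ∀ s ∈ S, {x | c s x ≠ 1}.encard ≤ N) :
    (seen S T c).encard ≤ (S.card * T.card : ℕ) * N := by
  rw [← Finset.card_product]
  refine encard_biUnion_le' _ _ N fun p hp => ?_
  have h1 : {x | c p.1 (p.2 • x) ≠ 1} = (fun x => p.2 • x) ⁻¹' {x | c p.1 x ≠ 1} := rfl
  rw [h1, Set.encard_preimage_of_injective_subset_range (MulAction.injective _)
    (by rw [(MulAction.surjective _).range_eq]; exact Set.subset_univ _)]
  exact h _ (Finset.mem_product.1 hp).1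

/-- **Counting pairs.** -/
theorem pairs_count (G : Type u1) [Group G] [Group.IsFinitelyPresented G]
    (hG : ∀ g : G, IsOfFinOrder g) (S : Set G) (hSf : S.Finite) (hS : Subgroup.closure S = ⊤) :
    ∃ C : ℕ, ∀ (X : Type u2) (Y : Type u3) [MulAction G X] [MulAction G Y]
      (A : Type u4) (B : Type u5) [Group A] [Group B] (c : G → X → A) (d : G → Y → B),
      IsCoc c → IsCoc d → ∀ N M : ℕ∞, (∀ s ∈ S, {x | c s x ≠ 1}.encard ≤ N) →
      (∀ s ∈ S, {y | d s y ≠ 1}.encard ≤ M) →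
      ∀ (I : Type u6) (z : I → X × Y), (∀ i j, ∀ g : G, g • z i = z j → i = j) →
        (∀ i, (∃ g : G, g • z i = z i ∧ c g (z i).1 ≠ 1) ∧
          ∃ g : G, g • z i = z i ∧ d g (z i).2 ≠ 1) →
        ENat.card I ≤ C * (N * M) := by
  classical
  obtain ⟨T, hT⟩ := pairs.{u1, u2, u3, u4, u5} G hG S hS
  refine ⟨(hSf.toFinset.card * T.card) * (hSf.toFinset.card * T.card), ?_⟩
  intro X Y _ _ A B _ _ c d hc hd N M hN hM I z hz hn
  have h1 : ∀ i, ∃ g : G, (g • z i) ∈
      seen hSf.toFinset T c ×ˢ seen hSf.toFinset T d := by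
    intro i
    by_contra hcon
    push Not at hcon
    have h2 := hT X Y A B c d hc hd (z i).1 (z i).2 (by
      intro g
      by_contra h3
      push Not at h3
      obtain ⟨⟨s, hs, t, ht, h4⟩, ⟨s', hs', t', ht', h5⟩⟩ := h3
      refine hcon g ⟨Set.mem_biUnion (x := (s, t)) ?_ h4, Set.mem_biUnion (x := (s', t')) ?_ h5⟩
      · exact Finset.mem_product.2 ⟨hSf.mem_toFinset.2 hs, ht⟩
      · exact Finset.mem_product.2 ⟨hSf.mem_toFinset.2 hs', ht'⟩)
    obtain ⟨⟨g1, h6, h7⟩, ⟨g2, h8, h9⟩⟩ := hn i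
    rcases h2 with h2 | h2
    · exact h7 (h2 g1 (congrArg Prod.fst h6) (congrArg Prod.snd h6))
    · exact h9 (h2 g2 (congrArg Prod.fst h8) (congrArg Prod.snd h8))
  choose g hg using h1
  have hinj : Function.Injective fun i => g i • z i := by
    intro i j hij
    refine hz i j ((g j)⁻¹ * g i) ?_
    rw [mul_smul, inv_smul_eq_iff]
    exact hij
  calc ENat.card I = (Set.univ : Set I).encard := (Set.encard_univ I).symm
    _ ≤ (seen hSf.toFinset T c ×ˢ seen hSf.toFinset T d).encard :=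
        Set.encard_le_encard_of_injOn (f := fun i => g i • z i) (fun i _ => hg i)
          hinj.injOn
    _ = (seen hSf.toFinset T c).encard * (seen hSf.toFinset T d).encard := Set.encard_prod
    _ ≤ ((hSf.toFinset.card * T.card : ℕ) * N) * ((hSf.toFinset.card * T.card : ℕ) * M) := by
        gcongr
        · exact encard_seen _ _ c N fun s hs => hN s (hSf.mem_toFinset.1 hs)
        · exact encard_seen _ _ d M fun s hs => hM s (hSf.mem_toFinset.1 hs)
    _ = _ := by push_cast; ring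

/-- **Wreath products.** -/
theorem wreath_bound (G : Type u1) [Group G] [Group.IsFinitelyPresented G]
    (hG : ∀ g : G, IsOfFinOrder g) (S : Set G) (hSf : S.Finite) (hS : Subgroup.closure S = ⊤) :
    ∃ C : ℕ, ∀ (Q : Type u2) [Group Q] (ψ : G →* Q) (A : Type u4) [Group A] (c : G → Q → A),
      (∀ g h x, c (g * h) x = c g (ψ h * x) * c h x) →
      ∀ N : ℕ∞, (∀ s ∈ S, {x | c s x ≠ 1}.encard ≤ N) →
      ∀ k x, ψ k = 1 → c k x ≠ 1 → ENat.card ψ.range ≤ C * (N * N) := by
  obtain ⟨C, hC⟩ := pairs_count.{u1, u2, u2, u4, u4, u2} G hG S hSf hS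
  refine ⟨C, fun Q _ ψ A _ c hc N hN k x hk hkx => ?_⟩
  let _ : MulAction G Q := MulAction.compHom Q ψ
  have hsm : ∀ (g : G) (q : Q), g • q = ψ g * q := fun _ _ => rfl
  have hc' : IsCoc c := hc
  refine hC Q Q A A c c hc' hc' N N hN hN ψ.range (fun q => (x, q * x)) ?_ ?_
  · intro q r g hg
    have h1 : ψ g * x = x := congrArg Prod.fst hg
    have h2 : ψ g * (q * x) = r * x := congrArg Prod.snd hg
    have h3 : ψ g = 1 := mul_eq_right.1 h1
    rw [h3, one_mul] at h2
    exact Subtype.ext (mul_right_cancel h2)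
  · rintro ⟨_, h, rfl⟩
    have h0 : ∀ y : Q, k • y = y := fun y => by rw [hsm, hk, one_mul]
    refine ⟨⟨k, Prod.ext (h0 _) (h0 _), hkx⟩, ⟨h * k * h⁻¹, Prod.ext ?_ ?_, ?_⟩⟩
    · change (h * k * h⁻¹) • x = x
      rw [hsm, map_mul, map_mul, hk, mul_one, ← map_mul, mul_inv_cancel, map_one, one_mul]
    · change (h * k * h⁻¹) • (ψ h * x) = ψ h * x
      rw [hsm, map_mul, map_mul, hk, mul_one, ← map_mul, mul_inv_cancel, map_one, one_mul]
    · change c (h * k * h⁻¹) (ψ h * x) ≠ 1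
      have h1 : c (h * k * h⁻¹ * h) x = c (h * k * h⁻¹) (ψ h * x) * c h x := hc _ _ _
      rw [inv_mul_cancel_right, hc, hk, one_mul] at h1
      intro h2
      rw [h2, one_mul] at h1
      exact hkx (mul_eq_left.1 h1)

/-- **Permutational wreath products.** -/
theorem rank_bound (G : Type u1) [Group G] [Group.IsFinitelyPresented G]
    (hG : ∀ g : G, IsOfFinOrder g) (S : Set G) (hSf : S.Finite) (hS : Subgroup.closure S = ⊤) :
    ∃ C : ℕ, ∀ (X : Type u2) [MulAction G X] [MulAction.IsPretransitive G X] (A : Type u4)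
      [Group A] (c : G → X → A), IsCoc c →
      ∀ N : ℕ∞, (∀ s ∈ S, {x | c s x ≠ 1}.encard ≤ N) →
      ∀ k x, (∀ y : X, k • y = y) → c k x ≠ 1 →
        ENat.card (MulAction.orbitRel.Quotient G (X × X)) ≤ C * (N * N) := by
  obtain ⟨C, hC⟩ := pairs_count.{u1, u2, u2, u4, u4, u2} G hG S hSf hS
  refine ⟨C, fun X _ _ A _ c hc N hN k x hk hkx => ?_⟩
  have hk' : ∀ y : X, ∃ g : G, (∀ z : X, g • z = z) ∧ c g y ≠ 1 := by
    intro y
    obtain ⟨h, rfl⟩ := MulAction.exists_smul_eq G x y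
    refine ⟨h * k * h⁻¹, fun z => ?_, ?_⟩
    · rw [mul_smul, mul_smul, hk, smul_inv_smul]
    · have h1 : c (h * k * h⁻¹ * h) x = c (h * k * h⁻¹) (h • x) * c h x := hc _ _ _
      rw [inv_mul_cancel_right, hc, hk] at h1
      intro h2
      rw [h2, one_mul] at h1
      exact hkx (mul_eq_left.1 h1)
  refine hC X X A A c c hc hc N N hN hN (MulAction.orbitRel.Quotient G (X × X))
    (fun o => o.out) ?_ ?_
  · intro o o' g hg
    rw [← Quotient.out_eq o, ← Quotient.out_eq o', ← hg]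
    exact (Quotient.sound (MulAction.orbitRel_apply.2 ⟨g, rfl⟩)).symm
  · intro o
    obtain ⟨g, h1, h2⟩ := hk' o.out.1
    obtain ⟨g', h3, h4⟩ := hk' o.out.2
    exact ⟨⟨g, Prod.ext (h1 _) (h1 _), h2⟩, ⟨g', Prod.ext (h3 _) (h3 _), h4⟩⟩

end Vale.Agent.P192.H121
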