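import Vale.Agent.P192.H121.Unif
import Vale.Agent.P192.H121.Lift

/-!
# P192: general linear groups over quotients of products of division rings
-/

namespace Vale.Agent.P192.H121.NC

open Matrix Vale.Agent.P192 Vale.Agent.P192.H903

theorem finite_range_of_le {G H : Type} [Group G] [Group H] (f : G →* H) (M : Subgroup G)
    [M.FiniteIndex] (h : M ≤ f.ker) : Finite f.range := by
  have h1 : f.ker.FiniteIndex := Subgroup.finiteIndex_of_le h
  have h2 : Finite (G ⧸ f.ker) := inferInstance
  exact Finite.of_equiv _ (QuotientGroup.quotientKerEquivRange f).toEquiv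

/-- **Quotients of products of division rings.** -/
theorem fpb_prod_quot {n : ℕ} {I : Type} (D : I → Type) [∀ i, DivisionRing (D i)] (p : I → ℕ)
    (hp : ∀ i, 0 < p i) [∀ i, CharP (D i) (p i)]
    (hD : ∀ i, FPB (Matrix (Fin n) (Fin n) (D i))ˣ) {A : Type} [Ring A]
    (π : (∀ i, D i) →+* A) (hπ : Function.Surjective π) :
    FPB (Matrix (Fin n) (Fin n) A)ˣ := by
  classical
  intro Γ _ hΓ hper φ
  have hfg : Group.FG Γ := fg_of_fp hΓ
  obtain ⟨M, hM, hMk⟩ := exists_uniform hper n
  obtain ⟨T, m, hT, hT0, hm, hlift⟩ := exists_lift hΓ π hπ φ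
  refine finite_range_of_le φ M ?_
  intro g hg
  rw [MonoidHom.mem_ker]
  refine Units.ext ?_
  rw [← hm, Units.val_one]
  -- the matrix of `g` is trivial at the indices where `T` vanishes
  have h1 : ∀ i, (∀ t ∈ T, t i = 0) → (Pi.evalRingHom D i).mapMatrix (m g) = 1 := by
    intro i hi
    obtain ⟨φ', hφ'⟩ := hlift (D i) (Pi.evalRingHom D i) hi
    have h2 := hMk (p i) (hp i) (D i) φ' (finite_range_of_finite_ker φ' (hD i Γ hΓ hper φ')) hg
    rw [hφ', MonoidHom.mem_ker.mp h2, Units.val_one]
  have h2 : ∀ a : ∀ i, D i, (∀ i, (∀ t ∈ T, t i = 0) → a i = 0) → π a = 0 := by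
    intro a ha
    have hT' : ∀ i, (∃ t ∈ T, t i ≠ 0) ∨ ∀ t ∈ T, t i = 0 := by
      intro i
      by_cases h : ∃ t ∈ T, t i ≠ 0
      · exact Or.inl h
      · push Not at h
        exact Or.inr h
    let c : I → (∀ i, D i) := fun i => if h : ∃ t ∈ T, t i ≠ 0 then h.choose else 0
    have hc : ∀ i, (∃ t ∈ T, t i ≠ 0) → c i ∈ T ∧ c i i ≠ 0 := by
      intro i h
      simp only [c, dif_pos h]
      exact h.choose_spec
    have h3 : a = ∑ t ∈ hT.toFinset, (fun i => if c i = t then a i * (t i)⁻¹ else 0) * t := by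
      funext i
      rw [Finset.sum_apply]
      rcases hT' i with h | h
      · rw [Finset.sum_eq_single (c i)]
        · rw [Pi.mul_apply, if_pos rfl, mul_assoc, inv_mul_cancel₀ (hc i h).2, mul_one]
        · intro t _ ht
          rw [Pi.mul_apply, if_neg (Ne.symm ht), zero_mul]
        · intro hn
          exact absurd (hT.mem_toFinset.mpr (hc i h).1) hn
      · rw [ha i h, Finset.sum_eq_zero]
        intro t ht
        rw [Pi.mul_apply, h t (hT.mem_toFinset.mp ht), mul_zero]
    rw [h3, map_sum, Finset.sum_eq_zero]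
    intro t ht
    rw [map_mul, hT0 t (hT.mem_toFinset.mp ht), mul_zero]
  have h3 : π.mapMatrix (m g - 1) = 0 := by
    ext a b
    refine h2 _ fun i hi => ?_
    have h4 : (Pi.evalRingHom D i).mapMatrix (m g - 1) = 0 := by
      rw [map_sub, map_one, h1 i hi, sub_self]
    exact congrFun (congrFun h4 a) b
  rw [map_sub, map_one, sub_eq_zero] at h3
  exact h3

end Vale.Agent.P192.H121.NC
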