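import Vale.Agent.P192.H121.Coef

/-!
# P192: quotients of monoid algebras by ideals of the monoid
-/

namespace Vale.Agent.P192.H121.NC

open Matrix Vale.Agent.P192 Vale.Agent.P192.H903

variable {M : Type} [Monoid M]

/-- the right syntactic congruence -/
def synt (J : Set M) : Setoid M where
  r u u' := ∀ v, u * v ∈ J ↔ u' * v ∈ J
  iseqv :=
    { refl := fun _ _ => Iff.rfl
      symm := fun h v => (h v).symm
      trans := fun h h' v => (h v).trans (h' v) }

/-- the states -/
abbrev St (J : Set M) : Type := Quotient (synt J)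

/-- the right action on the states -/
def St.act {J : Set M} (q : St J) (w : M) : St J :=
  Quotient.map' (s₁ := synt J) (s₂ := synt J) (fun u => u * w)
    (fun u u' h v => by rw [mul_assoc, mul_assoc]; exact h (w * v)) q

theorem St.act_mk {J : Set M} (u w : M) :
    St.act (J := J) (Quotient.mk (synt J) u) w = Quotient.mk (synt J) (u * w) := rfl

theorem St.act_mul {J : Set M} (q : St J) (w w' : M) : q.act (w * w') = (q.act w).act w' := by
  induction q using Quotient.ind with
  | _ u => rw [St.act_mk, St.act_mk, St.act_mk, mul_assoc]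

theorem St.act_one {J : Set M} (q : St J) : q.act 1 = q := by
  induction q using Quotient.ind with
  | _ u => rw [St.act_mk, mul_one]

/-- the dead state -/
def St.Dead {J : Set M} (q : St J) : Prop :=
  Quotient.liftOn q (fun u => u ∈ J) fun u u' h => by
    have := h 1
    rw [mul_one, mul_one] at this
    exact propext this

theorem St.dead_mk {J : Set M} (u : M) : St.Dead (J := J) (Quotient.mk (synt J) u) ↔ u ∈ J :=
  Iff.rfl

/-- two-sided ideals of monoids -/
def IsId (J : Set M) : Prop := ∀ u v w, w ∈ J → u * w * v ∈ J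

theorem IsId.dead_act {J : Set M} (hJ : IsId J) (q : St J) (w : M) (h : q.Dead) :
    (q.act w).Dead := by
  induction q using Quotient.ind with
  | _ u =>
    rw [St.act_mk, St.dead_mk]
    rw [St.dead_mk] at h
    have := hJ 1 w u h
    rwa [one_mul] at this

theorem IsId.dead_of_mem {J : Set M} (hJ : IsId J) (q : St J) (w : M) (h : w ∈ J) :
    (q.act w).Dead := by
  induction q using Quotient.ind with
  | _ u =>
    rw [St.act_mk, St.dead_mk]
    have := hJ u 1 w h
    rwa [mul_one] at this

/-- the live states -/
abbrev Live (J : Set M) : Type := {q : St J // ¬ q.Dead}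

open Classical in
/-- the transition matrices -/
noncomputable def trans (A : Type) [CommRing A] (J : Set M) (w : M) :
    Matrix (Live J) (Live J) (MonoidAlgebra A M) :=
  Matrix.of fun q q' => if q.1.act w = q'.1 then MonoidAlgebra.single w 1 else 0

open Classical in
theorem trans_apply (A : Type) [CommRing A] (J : Set M) (w : M) (q q' : Live J) :
    trans A J w q q' = if q.1.act w = q'.1 then MonoidAlgebra.single w 1 else 0 := rfl

open Classical in
/-- the representation by transition matrices -/
noncomputable def transHom (A : Type) [CommRing A] {J : Set M} (hJ : IsId J)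
    [Fintype (Live J)] : M →* Matrix (Live J) (Live J) (MonoidAlgebra A M) where
  toFun := trans A J
  map_one' := by
    ext1 q q'
    rw [trans_apply, St.act_one, Matrix.one_apply]
    by_cases h : q = q'
    · rw [if_pos h, if_pos (by rw [h])]; rfl
    · rw [if_neg h, if_neg (fun h2 => h (Subtype.ext h2))]
  map_mul' := fun w w' => by
    ext1 q q''
    rw [trans_apply, Matrix.mul_apply]
    by_cases hd : (q.1.act w).Dead
    · rw [if_neg, Finset.sum_eq_zero]
      · intro q' _
        rw [trans_apply, if_neg, zero_mul]
        intro h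
        exact q'.2 (h ▸ hd)
      · intro h
        rw [St.act_mul] at h
        exact q''.2 (h ▸ hJ.dead_act _ w' hd)
    · rw [Finset.sum_eq_single ⟨q.1.act w, hd⟩]
      · rw [trans_apply, trans_apply, if_pos rfl, St.act_mul]
        split_ifs
        · rw [MonoidAlgebra.single_mul_single, one_mul]
        · rw [mul_zero]
      · intro q' _ hq'
        rw [trans_apply, if_neg, zero_mul]
        intro h
        exact hq' (Subtype.ext h.symm)
      · intro h
        exact absurd (Finset.mem_univ _) h

open Classical in
/-- the representation of the algebra -/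
noncomputable def transRep (A : Type) [CommRing A] {J : Set M} (hJ : IsId J)
    [Fintype (Live J)] :
    MonoidAlgebra A M →+* Matrix (Live J) (Live J) (MonoidAlgebra A M) :=
  MonoidAlgebra.liftNCRingHom
    ((Matrix.scalar (Live J)).comp (MonoidAlgebra.singleOneRingHom : A →+* MonoidAlgebra A M))
    (transHom A hJ) fun _ _ => Matrix.scalar_commute _ (fun r =>
      MonoidAlgebra.single_commute (fun _ => Commute.one_left _) (fun _ => Commute.all _ _) r) _

open Classical in
theorem transRep_coeff (A : Type) [CommRing A] {J : Set M} (hJ : IsId J)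
    [Fintype (Live J)] (f : MonoidAlgebra A M) (q q' : Live J) (w : M) :
    (transRep A hJ f q q').coeff w = if q.1.act w = q'.1 then f.coeff w else 0 := by
  have h0 : ∀ (u : M) (a : A), transRep A hJ (MonoidAlgebra.single u a) q q' =
      if q.1.act u = q'.1 then MonoidAlgebra.single u a else 0 := by
    intro u a
    rw [transRep, MonoidAlgebra.liftNCRingHom_single, RingHom.comp_apply, Matrix.scalar_apply,
      Matrix.diagonal_mul]
    change MonoidAlgebra.single 1 a * trans A J u q q' = _
    rw [trans_apply]
    split_ifs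
    · rw [MonoidAlgebra.single_mul_single, one_mul, mul_one]
    · rw [mul_zero]
  conv_lhs => rw [← MonoidAlgebra.sum_coeff_single f]
  rw [Finsupp.sum, map_sum, Matrix.sum_apply, MonoidAlgebra.coeff_sum, Finsupp.finsetSum_apply]
  by_cases hw : w ∈ f.coeff.support
  · rw [Finset.sum_eq_single w]
    · rw [h0]
      split_ifs
      · rw [MonoidAlgebra.coeff_single, Finsupp.single_eq_same]
      · rfl
    · intro u _ hu
      rw [h0]
      split_ifs
      · rw [MonoidAlgebra.coeff_single, Finsupp.single_eq_of_ne (Ne.symm hu)]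
      · rfl
    · intro h
      exact absurd hw h
  · rw [Finset.sum_eq_zero]
    · rw [Finsupp.notMem_support_iff.mp hw, ite_self]
    · intro u hu
      rw [h0]
      split_ifs
      · rw [MonoidAlgebra.coeff_single, Finsupp.single_eq_of_ne]
        rintro rfl
        exact hw hu
      · rfl

theorem transRep_eq_zero_iff (A : Type) [CommRing A] {J : Set M} (hJ : IsId J)
    [Fintype (Live J)] (f : MonoidAlgebra A M) :
    transRep A hJ f = 0 ↔ ∀ w ∈ f.coeff.support, w ∈ J := by
  classical
  constructor
  · intro h w hw
    by_contra hwJ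
    have h1 : ¬ St.Dead (J := J) (Quotient.mk (synt J) 1) := by
      intro h2
      rw [St.dead_mk] at h2
      have := hJ w 1 1 h2
      rw [mul_one, mul_one] at this
      exact hwJ this
    have h2 : ¬ St.Dead (J := J) (Quotient.mk (synt J) w) := hwJ
    have h3 := transRep_coeff A hJ f ⟨_, h1⟩ ⟨_, h2⟩ w
    rw [h, Matrix.zero_apply, if_pos (by rw [St.act_mk, one_mul])] at h3
    exact (Finsupp.mem_support_iff.mp hw) h3.symm
  · intro h
    ext1 q q'
    refine MonoidAlgebra.ext (Finsupp.ext fun w => ?_)
    rw [transRep_coeff, Matrix.zero_apply]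
    split_ifs with hq
    · by_contra hne
      have h1 : (q.1.act w).Dead := hJ.dead_of_mem _ _ (h w (Finsupp.mem_support_iff.mpr hne))
      rw [hq] at h1
      exact q'.2 h1
    · rfl

/-- **Quotients by locally regular ideals.** -/
theorem fpb_quot (hM : Tame M) (A : Type) [CommRing A] (n : ℕ) (J : Set M)
    (hJ : ∀ W : Set M, W.Finite → W ⊆ J → ∃ J' : Set M, W ⊆ J' ∧ J' ⊆ J ∧ IsId J' ∧
      Finite (St J')) {R : Type} [Ring R] (π : MonoidAlgebra A M →+* R)
    (hπ : Function.Surjective π) (hker : ∀ f, (∀ w ∈ f.coeff.support, w ∈ J) → π f = 0)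
    (hker' : ∀ f, π f = 0 → ∀ w ∈ f.coeff.support, w ∈ J) :
    FPB (Matrix (Fin n) (Fin n) R)ˣ := by
  classical
  intro Γ _ hΓ hper φ
  have hfg : Group.FG Γ := fg_of_fp hΓ
  obtain ⟨T, m, hT, hT0, hm, hlift⟩ := exists_lift hΓ π hπ φ
  obtain ⟨J', hWJ', hJ'J, hId, hfin⟩ := hJ (⋃ t ∈ T, (t.coeff.support : Set M))
    (hT.biUnion fun t _ => t.coeff.support.finite_toSet) (by
      intro w hw
      rw [Set.mem_iUnion₂] at hw
      obtain ⟨t, ht, hw⟩ := hw
      exact hker' t (hT0 t ht) w hw)
  have _ : Fintype (Live J') := Fintype.ofFinite _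
  obtain ⟨φ', hφ'⟩ := hlift _ (transRep A hId) (by
    intro t ht
    rw [transRep_eq_zero_iff]
    intro w hw
    exact hWJ' (Set.mem_iUnion₂.mpr ⟨t, ht, hw⟩))
  have h1 : Finite φ'.range := by
    let e := Fintype.equivFin (Live J')
    let r : Matrix (Live J') (Live J') (MonoidAlgebra A M) ≃+*
        Matrix (Fin (Fintype.card (Live J'))) (Fin (Fintype.card (Live J')))
          (MonoidAlgebra A M) := Matrix.reindexRingEquiv _ e
    let e₂ : (Fin n × Fin (Fintype.card (Live J'))) ≃ Fin (n * Fintype.card (Live J')) :=
      finProdFinEquiv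
    let r₂ : Matrix (Fin n) (Fin n) (Matrix (Live J') (Live J') (MonoidAlgebra A M)) ≃+*
        Matrix (Fin (n * Fintype.card (Live J'))) (Fin (n * Fintype.card (Live J')))
          (MonoidAlgebra A M) :=
      ((r.mapMatrix).trans (Matrix.compRingEquiv _ _ _)).trans (Matrix.reindexRingEquiv _ e₂)
    let u := Units.mapEquiv r₂.toMulEquiv
    exact finite_range_of_injective φ' u.toMonoidHom u.injective
      (fgp_monoidAlgebra hM A _ Γ hfg hper _)
  have h2 := finite_range_of_finite_ker φ' h1
  refine finite_range_of_le φ φ'.ker ?_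
  intro g hg
  rw [MonoidHom.mem_ker] at hg ⊢
  refine Units.ext ?_
  rw [← hm, Units.val_one]
  have h3 := hφ' g
  rw [hg, Units.val_one] at h3
  have h4 : (transRep A hId).mapMatrix (m g - 1) = 0 := by rw [map_sub, map_one, h3, sub_self]
  have h5 : π.mapMatrix (m g - 1) = 0 := by
    ext1 i j
    refine hker _ fun w hw => hJ'J ?_
    exact (transRep_eq_zero_iff A hId _).mp (congrFun (congrFun h4 i) j) w hw
  rw [map_sub, map_one, sub_eq_zero] at h5
  exact h5

end Vale.Agent.P192.H121.NC
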