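import Vale.Agent.P192.H121.BoundX

/-!
# P192: large sets of small degree
-/

namespace Vale.Agent.P192.H121

open Monoid

section words

variable (q : ℕ) [NeZero q]

/-- words of length `n` without the letter zero -/
def words : ℕ → Finset (List (ZMod q))
  | 0 => {[]}
  | n + 1 => ((Finset.univ.erase (0 : ZMod q)) ×ˢ words n).image fun z => z.1 :: z.2

theorem mem_words {n : ℕ} {J : List (ZMod q)} : J ∈ words q n ↔ 0 ∉ J ∧ J.length = n := by
  induction n generalizing J with
  | zero =>
    simp only [words, Finset.mem_singleton, List.length_eq_zero_iff]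
    constructor
    · rintro rfl; simp
    · rintro ⟨-, h⟩; exact h
  | succ n ih =>
    simp only [words, Finset.mem_image, Finset.mem_product, Finset.mem_erase, Finset.mem_univ,
      and_true, Prod.exists]
    constructor
    · rintro ⟨b, J', ⟨hb, hJ'⟩, rfl⟩
      rw [ih] at hJ'
      refine ⟨?_, ?_⟩
      · rw [List.mem_cons, not_or]
        exact ⟨Ne.symm hb, hJ'.1⟩
      · rw [List.length_cons, hJ'.2]
    · rintro ⟨h0, hl⟩
      cases J with
      | nil => simp at hl
      | cons b J' =>
        rw [List.mem_cons, not_or] at h0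
        rw [List.length_cons] at hl
        exact ⟨b, J', ⟨Ne.symm h0.1, ih.2 ⟨h0.2, by omega⟩⟩, rfl⟩

theorem card_words (n : ℕ) : (words q n).card = (q - 1) ^ n := by
  induction n with
  | zero => simp [words]
  | succ n ih =>
    rw [words, Finset.card_image_of_injective, Finset.card_product, ih,
      Finset.card_erase_of_mem (Finset.mem_univ _), Finset.card_univ, ZMod.card, pow_succ,
      mul_comm]
    rintro ⟨a, b⟩ ⟨c, d⟩ h
    have := List.cons.inj h
    exact Prod.ext this.1 this.2

/-- the index set of the coordinates -/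
def Om (K : ℕ) : Finset (List (ZMod q)) :=
  (Finset.range (K + 1)).biUnion (words q) ∪ (words q K).image fun J => 0 :: J

theorem mem_Om {K : ℕ} {J : List (ZMod q)} :
    J ∈ Om q K ↔ (0 ∉ J ∧ J.length ≤ K) ∨ ∃ J', J = 0 :: J' ∧ 0 ∉ J' ∧ J'.length = K := by
  simp only [Om, Finset.mem_union, Finset.mem_biUnion, Finset.mem_range, mem_words,
    Finset.mem_image]
  constructor
  · rintro (⟨n, hn, h0, h1⟩ | ⟨J', ⟨h0, h1⟩, rfl⟩)
    · exact Or.inl ⟨h0, by omega⟩
    · exact Or.inr ⟨J', rfl, h0, h1⟩
  · rintro (⟨h0, h1⟩ | ⟨J', rfl, h0, h1⟩)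
    · exact Or.inl ⟨J.length, by omega, h0, rfl⟩
    · exact Or.inr ⟨J', ⟨h0, h1⟩, rfl⟩

theorem length_le_of_mem_Om {K : ℕ} {J : List (ZMod q)} (h : J ∈ Om q K) :
    J.length ≤ K + 1 := by
  rcases (mem_Om q).1 h with h | ⟨J', rfl, -, h⟩
  · omega
  · rw [List.length_cons, h]

theorem card_Om_le (hq : 3 ≤ q) (K : ℕ) : (Om q K).card ≤ 3 * (q - 1) ^ K := by
  have h1 : ∀ K : ℕ, ∑ j ∈ Finset.range (K + 1), (q - 1) ^ j ≤ 2 * (q - 1) ^ K := by
    intro K
    induction K with
    | zero => simp
    | succ K ih =>
      rw [Finset.sum_range_succ]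
      have h2 : 2 * (q - 1) ^ K ≤ (q - 1) ^ (K + 1) := by
        rw [pow_succ, mul_comm]
        exact Nat.mul_le_mul_left _ (by omega)
      omega
  calc (Om q K).card ≤ _ := Finset.card_union_le _ _
    _ ≤ ∑ j ∈ Finset.range (K + 1), (words q j).card + (words q K).card :=
        add_le_add Finset.card_biUnion_le Finset.card_image_le
    _ = ∑ j ∈ Finset.range (K + 1), (q - 1) ^ j + (q - 1) ^ K := by
        simp only [card_words]
    _ ≤ 2 * (q - 1) ^ K + (q - 1) ^ K := Nat.add_le_add_right (h1 K) _
    _ = 3 * (q - 1) ^ K := by ring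

end words

section space

variable (p q K : ℕ) [NeZero q]

/-- the vectors -/
abbrev Vec : Type := Om q K → ZMod p

variable {p q K}

/-- the value at a word -/
def ev (v : Vec p q K) (J : List (ZMod q)) : ZMod p := if h : J ∈ Om q K then v ⟨J, h⟩ else 0

theorem ev_add (v w : Vec p q K) (J : List (ZMod q)) : ev (v + w) J = ev v J + ev w J := by
  unfold ev; split_ifs <;> simp

theorem ev_sub (v w : Vec p q K) (J : List (ZMod q)) : ev (v - w) J = ev v J - ev w J := by
  unfold ev; split_ifs <;> simp

/-- multiplication by a letter -/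
def shD (a : ZMod q) (v : Vec p q K) : Vec p q K := fun J =>
  if J.1.head? = some a then ev v J.1.tail else 0

theorem shD_add (a : ZMod q) (v w : Vec p q K) : shD a (v + w) = shD a v + shD a w := by
  funext J
  simp only [shD, Pi.add_apply, ev_add]
  split_ifs <;> simp

theorem shD_sub (a : ZMod q) (v w : Vec p q K) : shD a (v - w) = shD a v - shD a w := by
  funext J
  simp only [shD, Pi.sub_apply, ev_sub]
  split_ifs <;> simp

theorem shD_inj (a : ZMod q) (v : Vec p q K) (h : v + shD a v = 0) : v = 0 := by
  have key : ∀ (n : ℕ) (J : Om q K), J.1.length = n → v J = 0 := by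
    intro n
    induction n with
    | zero =>
      intro J hJ
      have h1 := congrFun h J
      rw [List.length_eq_zero_iff] at hJ
      have h2 : shD a v J = 0 := by simp [shD, hJ]
      rw [Pi.add_apply, h2, add_zero] at h1
      exact h1
    | succ n ih =>
      intro J hJ
      have h1 := congrFun h J
      have h2 : shD a v J = 0 := by
        unfold shD ev
        split_ifs with h3 h4
        · exact ih ⟨J.1.tail, h4⟩ (by simp [hJ])
        · rfl
        · rfl
      rw [Pi.add_apply, h2, add_zero] at h1
      exact h1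
  funext J
  exact key _ J rfl

theorem sh_bij [NeZero p] (a : ZMod q) :
    Function.Bijective (fun v : Vec p q K => v + shD a v) := by
  rw [← Finite.injective_iff_bijective]
  intro v w h
  have h1 : (v - w) + shD a (v - w) = 0 := by
    rw [shD_sub]
    have h2 : v + shD a v = w + shD a w := h
    have h3 : v + shD a v - (w + shD a w) = 0 := sub_eq_zero.2 h2
    rw [← h3]
    abel
  exact sub_eq_zero.1 (shD_inj a _ h1)

/-- the permutation of a letter -/
noncomputable def shP [NeZero p] (a : ZMod q) : Equiv.Perm (Vec p q K) :=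
  Equiv.ofBijective _ (sh_bij a)

theorem shP_apply [NeZero p] (a : ZMod q) (v : Vec p q K) : shP a v = v + shD a v := rfl

end space

end Vale.Agent.P192.H121
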