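import Vale.Agent.P192.H121.Series

/-!
# P192: large sets of small degree, the action
-/

namespace Vale.Agent.P192.H121

open Monoid

/-- the permutations of the letters -/
noncomputable def letP {α : Type*} [DecidableEq α] (p q K : ℕ) [NeZero q] [NeZero p] (x y : α)
    (a : α) : Equiv.Perm (ZMod q × Vec p q K) :=
  if a = x then (Equiv.refl (ZMod q)).prodShear (fun i => shP i)
  else if a = y then (Equiv.addRight (1 : ZMod q)).prodCongr (Equiv.refl _) else 1

/-- the set on which the free group acts -/
def BX {α : Type*} (p q K : ℕ) [NeZero q] (_ _ : α) : Type := ZMod q × Vec p q K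

noncomputable instance {α : Type*} [DecidableEq α] (p q K : ℕ) [NeZero q] [NeZero p] (x y : α) :
    MulAction (FreeGroup α) (BX p q K x y) :=
  MulAction.compHom (ZMod q × Vec p q K) (FreeGroup.lift (letP p q K x y))

instance {α : Type*} (p q K : ℕ) [NeZero q] [NeZero p] (x y : α) : Finite (BX p q K x y) :=
  inferInstanceAs (Finite (ZMod q × Vec p q K))

section

variable {α : Type*} [DecidableEq α] {p q K : ℕ} [NeZero q] [NeZero p] {x y : α}

theorem smul_def' (a : α) (z : BX p q K x y) : FreeGroup.of a • z = letP p q K x y a z := by
  change (FreeGroup.lift (letP p q K x y) (FreeGroup.of a)) z = _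
  rw [FreeGroup.lift_apply_of]

theorem smul_x (z : BX p q K x y) : FreeGroup.of x • z = (z.1, z.2 + shD z.1 z.2) := by
  rw [smul_def']
  simp [letP, Equiv.prodShear, shP_apply]
  rfl

theorem smul_y (hxy : x ≠ y) (z : BX p q K x y) : FreeGroup.of y • z = (z.1 + 1, z.2) := by
  rw [smul_def']
  simp [letP, hxy.symm]
  rfl

theorem smul_other {a : α} (hx : a ≠ x) (hy : a ≠ y) (z : BX p q K x y) :
    FreeGroup.of a • z = z := by
  rw [smul_def']
  simp [letP, hx, hy]
  rfl

/-- functions of the first coordinate -/
theorem deg_fst (hxy : x ≠ y) (n : ℕ) (φ : ZMod q → ZMod p)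
    (h : (fun (ψ : ZMod q → ZMod p) i => ψ (i + 1) - ψ i)^[n] φ = 0) :
    Deg α n (fun z : BX p q K x y => φ z.1) := by
  induction n generalizing φ with
  | zero =>
    have h0 : φ = 0 := h
    rw [h0]
    rfl
  | succ n ih =>
    intro a
    by_cases hax : a = x
    · have : dif (FreeGroup.of a) (fun z : BX p q K x y => φ z.1) = 0 := by
        funext z
        simp [dif, hax, smul_x]
      rw [this]
      exact deg_zero n
    by_cases hay : a = y
    · have : dif (FreeGroup.of a) (fun z : BX p q K x y => φ z.1) =
          fun z => (fun i => φ (i + 1) - φ i) z.1 := by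
        funext z
        simp [dif, hay, smul_y hxy]
      rw [this]
      rw [Function.iterate_succ_apply] at h
      exact ih (fun i => φ (i + 1) - φ i) h
    · have : dif (FreeGroup.of a) (fun z : BX p q K x y => φ z.1) = 0 := by
        funext z
        simp [dif, smul_other hax hay]
      rw [this]
      exact deg_zero n

omit [NeZero p] in
theorem iterate_dif_eq_zero [Fact p.Prime] (e : ℕ) (hq : q = p ^ e) (φ : ZMod q → ZMod p) :
    (fun (ψ : ZMod q → ZMod p) i => ψ (i + 1) - ψ i)^[q] φ = 0 := by
  let T : Module.End (ZMod p) (ZMod q → ZMod p) :=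
    LinearMap.funLeft (ZMod p) (ZMod p) (fun i : ZMod q => i + 1)
  have hT : ∀ n : ℕ, ∀ ψ : ZMod q → ZMod p, (T ^ n) ψ = fun i => ψ (i + n) := by
    intro n
    induction n with
    | zero => intro ψ; funext i; simp
    | succ n ih =>
      intro ψ
      rw [pow_succ, Module.End.mul_apply, ih]
      funext i
      simp only [T, LinearMap.funLeft_apply]
      congr 1
      push_cast
      ring
  have h1 : ∀ (n : ℕ) (ψ : ZMod q → ZMod p),
      (fun (ψ : ZMod q → ZMod p) i => ψ (i + 1) - ψ i)^[n] ψ = ((T - 1) ^ n) ψ := by
    intro n
    induction n with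
    | zero => intro ψ; rfl
    | succ n ih =>
      intro ψ
      rw [Function.iterate_succ_apply, ih, pow_succ, Module.End.mul_apply]
      rfl
  rw [h1]
  have h2 : (T - 1) ^ q = T ^ q - 1 := by
    have : CharP (Module.End (ZMod p) (ZMod q → ZMod p)) p :=
      charP_of_injective_algebraMap
        (algebraMap (ZMod p) (Module.End (ZMod p) (ZMod q → ZMod p))).injective p
    have h3 : (T - 1) ^ (p ^ e) = T ^ (p ^ e) - 1 := by
      rw [sub_pow_char_pow_of_commute _ _ (Commute.one_right _), one_pow]
    rwa [← hq] at h3
  rw [h2]
  funext i
  rw [LinearMap.sub_apply, hT]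
  simp

theorem deg_ind_fst [Fact p.Prime] (hxy : x ≠ y) (e : ℕ) (hq : q = p ^ e) (t : ZMod q) :
    Deg α q (fun z : BX p q K x y => if z.1 = t then (1 : ZMod p) else 0) :=
  deg_fst hxy q (fun i => if i = t then 1 else 0) (iterate_dif_eq_zero e hq _)

/-- coordinates -/
theorem deg_coord [Fact p.Prime] (hxy : x ≠ y) (e : ℕ) (hq : q = p ^ e) (J : List (ZMod q)) :
    Deg α (q * J.length + 1) (fun z : BX p q K x y => ev z.2 J) := by
  have hq1 : 1 ≤ q := Nat.one_le_iff_ne_zero.2 (NeZero.ne q)
  have hother : ∀ (J : List (ZMod q)) (a : α), a ≠ x →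
      dif (FreeGroup.of a) (fun z : BX p q K x y => ev z.2 J) = 0 := by
    intro J a ha
    funext z
    by_cases hay : a = y
    · simp [dif, hay, smul_y hxy]
    · simp [dif, smul_other ha hay]
  induction J with
  | nil =>
    intro a
    by_cases hax : a = x
    · have : dif (FreeGroup.of a) (fun z : BX p q K x y => ev z.2 []) = 0 := by
        funext z
        simp only [dif, hax, smul_x, ev_add, Pi.zero_apply]
        have : ev (shD z.1 z.2) ([] : List (ZMod q)) = 0 := by
          unfold ev
          split_ifs
          · simp [shD]
          · rfl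
        rw [this]
        ring
      rw [this]
      exact deg_zero _
    · rw [hother [] a hax]
      exact deg_zero _
  | cons b J' ih =>
    intro a
    by_cases hax : a = x
    · by_cases hJ : b :: J' ∈ Om q K
      · have : dif (FreeGroup.of a) (fun z : BX p q K x y => ev z.2 (b :: J')) =
            (fun z : BX p q K x y => if z.1 = b then (1 : ZMod p) else 0) *
              fun z => ev z.2 J' := by
          funext z
          simp only [dif, hax, smul_x, ev_add, Pi.mul_apply]
          have : ev (shD z.1 z.2) (b :: J') = if z.1 = b then ev z.2 J' else 0 := by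
            unfold ev
            rw [dif_pos hJ]
            simp only [shD, List.head?_cons, List.tail_cons, Option.some.injEq]
            simp only [eq_comm (a := b)]
            rfl
          rw [this]
          split_ifs <;> ring
        rw [this]
        have h1 : Deg α (q - 1 + 1) (fun z : BX p q K x y => if z.1 = b then (1 : ZMod p) else 0) :=
          (deg_ind_fst hxy e hq b).mono (by omega)
        refine (h1.mul ih).mono ?_
        rw [List.length_cons, mul_add, mul_one]
        omega
      · have : dif (FreeGroup.of a) (fun z : BX p q K x y => ev z.2 (b :: J')) = 0 := by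
          funext z
          simp [dif, ev, hJ]
        rw [this]
        exact deg_zero _
    · rw [hother (b :: J') a hax]
      exact deg_zero _

/-- the total degree -/
theorem deg_BX [Fact p.Prime] (hxy : x ≠ y) (e : ℕ) (hq : q = p ^ e) (hq3 : 3 ≤ q)
    (f : BX p q K x y → ZMod p) :
    Deg α (q + 3 * (p - 1) * q * (K + 1) * (q - 1) ^ K) f := by
  have h1 := deg_all (α := α) (X := BX p q K x y) (ι := Option (Om q K))
    (fun o v z => match o with
      | none => if z.1 = v.1 then (1 : ZMod p) else 0
      | some J => if z.2 J = v.2 J then (1 : ZMod p) else 0) (by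
      intro o v
      cases o <;> simp) (by
      intro v z hvz
      by_contra hcon
      push Not at hcon
      apply hvz
      refine Prod.ext ?_ (funext fun J => ?_)
      · have := hcon none
        by_contra h
        exact this (if_neg (Ne.symm h))
      · have := hcon (some J)
        by_contra h
        exact this (if_neg (Ne.symm h)))
    (fun o => match o with
      | none => q - 1
      | some J => (p - 1) * (q * J.1.length)) (by
      intro o v
      cases o with
      | none =>
        have h5 := deg_ind_fst (K := K) (x := x) (y := y) hxy e hq v.1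
        refine h5.mono ?_
        change q ≤ q - 1 + 1
        omega
      | some J =>
        have h2 := deg_coord (K := K) (x := x) (y := y) hxy e hq J.1
        have h3 : (fun z : BX p q K x y => ev z.2 J.1) = fun z => z.2 J := by
          funext z
          unfold ev
          rw [dif_pos J.2]
        rw [h3] at h2
        exact deg_indicator h2 (v.2 J)) f
  refine h1.mono ?_
  rw [Fintype.sum_option]
  have h2 : ∑ J : Om q K, (p - 1) * (q * J.1.length) ≤ 3 * (p - 1) * q * (K + 1) * (q - 1) ^ K := by
    calc ∑ J : Om q K, (p - 1) * (q * J.1.length)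
        ≤ ∑ _J : Om q K, (p - 1) * (q * (K + 1)) := by
          refine Finset.sum_le_sum fun J _ => ?_
          gcongr
          exact length_le_of_mem_Om q J.2
      _ = (Om q K).card * ((p - 1) * (q * (K + 1))) := by
          rw [Finset.sum_const, smul_eq_mul, Finset.card_univ, Fintype.card_coe]
      _ ≤ (3 * (q - 1) ^ K) * ((p - 1) * (q * (K + 1))) :=
          Nat.mul_le_mul_right _ (card_Om_le q hq3 K)
      _ = _ := by ring
  change q - 1 + ∑ J : Om q K, (p - 1) * (q * J.1.length) + 1 ≤ _
  omega

end

end Vale.Agent.P192.H121
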