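import Vale.Agent.P192.H121.Series2

/-!
# P192: large sets of small degree, the size of an orbit
-/

namespace Vale.Agent.P192.H121

open Monoid

section

variable {α : Type*} [DecidableEq α] {p q K : ℕ} [NeZero q] [Fact p.Prime] {x y : α}

theorem shD_smul (a : ZMod q) (k : ZMod p) (v : Vec p q K) : shD a (k • v) = k • shD a v := by
  funext J
  simp only [shD, Pi.smul_apply, ev]
  split_ifs <;> simp

theorem shD_zero (a : ZMod q) : shD a (0 : Vec p q K) = 0 := by
  funext J
  simp [shD, ev]

/-- letters do not act on the top coordinates -/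
theorem shD_top (b : ZMod q) (w : Vec p q K) : shD b (shD 0 w) = 0 := by
  funext J
  obtain ⟨J, hJ⟩ := J
  cases J with
  | nil => simp [shD]
  | cons a J' =>
    have h0 : (0 : ZMod q) ∉ J' := by
      rcases (mem_Om q).1 hJ with ⟨h4, -⟩ | ⟨J'', h4, h5, -⟩
      · exact fun h => h4 (List.mem_cons_of_mem _ h)
      · rwa [(List.cons.inj h4).2]
    have h1 : J'.head? ≠ some 0 := by
      cases J' with
      | nil => simp
      | cons c J'' =>
        intro h
        rw [List.head?_cons, Option.some.injEq] at h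
        exact h0 (h ▸ List.mem_cons_self)
    have h2 : ev (shD 0 w) J' = 0 := by
      unfold ev
      split_ifs with h
      · simp [shD, h1]
      · rfl
    simp [shD, h2]

variable (x y) in
/-- a point -/
def mkB (i : ZMod q) (v : Vec p q K) : BX p q K x y := (i, v)

theorem pow_smul_y (hxy : x ≠ y) (n : ℕ) (i : ZMod q) (v : Vec p q K) :
    (FreeGroup.of y) ^ n • mkB x y i v = mkB x y (i + (n : ZMod q)) v := by
  induction n with
  | zero => rw [pow_zero, one_smul, Nat.cast_zero, add_zero]
  | succ n ih =>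
    rw [pow_succ', mul_smul, ih]
    refine (smul_y hxy _).trans ?_
    refine Prod.ext ?_ rfl
    change i + (n : ZMod q) + 1 = i + ((n + 1 : ℕ) : ZMod q)
    push_cast
    ring

/-- the group generated by the letters acts through the free group -/
theorem exists_word (hxy : x ≠ y) (h : Equiv.Perm (Vec p q K))
    (hh : h ∈ Subgroup.closure (Set.range fun i : ZMod q => (shP i : Equiv.Perm (Vec p q K)))) :
    ∃ w : FreeGroup α, ∀ v : Vec p q K, w • mkB x y 0 v = mkB x y 0 (h v) := by
  induction hh using Subgroup.closure_induction with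
  | mem _ hs =>
    obtain ⟨i, rfl⟩ := hs
    refine ⟨((FreeGroup.of y) ^ i.val)⁻¹ * (FreeGroup.of x * (FreeGroup.of y) ^ i.val),
      fun v => ?_⟩
    rw [mul_smul, mul_smul, inv_smul_eq_iff]
    have h1 : ∀ v : Vec p q K, (FreeGroup.of y) ^ i.val • mkB x y 0 v = mkB x y i v := by
      intro v
      rw [pow_smul_y hxy, ZMod.natCast_zmod_val, zero_add]
    rw [h1, h1]
    exact smul_x _
  | one => exact ⟨1, fun v => one_smul _ _⟩
  | mul g h _ _ ihg ihh =>
    obtain ⟨w1, h1⟩ := ihg
    obtain ⟨w2, h2⟩ := ihh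
    refine ⟨w1 * w2, fun v => ?_⟩
    rw [mul_smul, h2]
    exact h1 _
  | inv g _ ih =>
    obtain ⟨w, hw⟩ := ih
    refine ⟨w⁻¹, fun v => ?_⟩
    rw [inv_smul_eq_iff]
    have := hw (g⁻¹ v)
    rw [← Equiv.Perm.mul_apply, mul_inv_cancel, Equiv.Perm.one_apply] at this
    exact this.symm

/-- the base vector -/
def v0 : Vec p q K := fun J => if J.1 = [] then 1 else 0

/-- the group of the nonzero letters -/
def LB (p q K : ℕ) [NeZero q] [Fact p.Prime] : Subgroup (Equiv.Perm (Vec p q K)) :=
  Subgroup.closure {g | ∃ b : ZMod q, b ≠ 0 ∧ g = shP b}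

theorem LB_le : LB p q K ≤
    Subgroup.closure (Set.range fun i : ZMod q => (shP i : Equiv.Perm (Vec p q K))) := by
  refine Subgroup.closure_mono ?_
  rintro _ ⟨b, -, rfl⟩
  exact ⟨b, rfl⟩

theorem LB_top (g : Equiv.Perm (Vec p q K)) (hg : g ∈ LB p q K) (v w : Vec p q K) :
    g (v + shD 0 w) = g v + shD 0 w := by
  induction hg using Subgroup.closure_induction generalizing v with
  | mem _ hs =>
    obtain ⟨b, -, rfl⟩ := hs
    rw [shP_apply, shP_apply, shD_add, shD_top]
    abel
  | one => rfl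
  | mul g h _ _ ihg ihh => rw [Equiv.Perm.mul_apply, Equiv.Perm.mul_apply, ihh, ihg]
  | inv g _ ih =>
    rw [Equiv.Perm.inv_eq_iff_eq, ih, ← Equiv.Perm.mul_apply, mul_inv_cancel,
      Equiv.Perm.one_apply]

/-- translations of the top coordinates -/
def Pt (u : Vec p q K) : Prop :=
  ∃ h ∈ Subgroup.closure (Set.range fun i : ZMod q => (shP i : Equiv.Perm (Vec p q K))),
    ∀ w : Vec p q K, h (v0 + shD 0 w) = v0 + shD 0 w + u

theorem Pt_LB (g : Equiv.Perm (Vec p q K)) (hg : g ∈ LB p q K) :
    Pt (shD 0 (g v0) : Vec p q K) := by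
  refine ⟨g⁻¹ * (shP 0 * g), mul_mem (inv_mem (LB_le hg))
    (mul_mem (Subgroup.subset_closure ⟨0, rfl⟩) (LB_le hg)), fun w => ?_⟩
  rw [Equiv.Perm.mul_apply, Equiv.Perm.mul_apply, LB_top g hg, shP_apply, shD_add, shD_top,
    add_zero, add_assoc, ← shD_add, LB_top _ (inv_mem hg), ← Equiv.Perm.mul_apply,
    inv_mul_cancel, Equiv.Perm.one_apply, shD_add, add_assoc]

/-- the vectors whose tops are translations -/
def Qs : Submodule (ZMod p) (Vec p q K) where
  carrier := {a | Pt (shD 0 a)}
  add_mem' := by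
    rintro a b ⟨h, hh, h1⟩ ⟨h', hh', h2⟩
    refine ⟨h' * h, mul_mem hh' hh, fun w => ?_⟩
    rw [Equiv.Perm.mul_apply, h1, add_assoc, ← shD_add, h2, shD_add, shD_add]
    abel
  zero_mem' := ⟨1, one_mem _, fun w => by rw [shD_zero, add_zero, Equiv.Perm.one_apply]⟩
  smul_mem' := by
    intro k a ha
    have h1 : ∀ n : ℕ, Pt (shD 0 ((n : ZMod p) • a)) := by
      intro n
      induction n with
      | zero =>
        rw [Nat.cast_zero, zero_smul]
        exact ⟨1, one_mem _, fun w => by rw [shD_zero, add_zero, Equiv.Perm.one_apply]⟩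
      | succ n ih =>
        rw [Nat.cast_succ, add_smul, one_smul]
        obtain ⟨h, hh, h1⟩ := ih
        obtain ⟨h', hh', h2⟩ := ha
        refine ⟨h' * h, mul_mem hh' hh, fun w => ?_⟩
        rw [Equiv.Perm.mul_apply, h1, add_assoc, ← shD_add, h2, shD_add, shD_add]
        abel
    have h2 := h1 k.val
    rw [ZMod.natCast_zmod_val] at h2
    exact h2

theorem mem_Qs {a : Vec p q K} : a ∈ Qs (p := p) (q := q) (K := K) ↔ Pt (shD 0 a) := Iff.rfl

theorem span_shD (b : ZMod q) (hb : b ≠ 0) (v : Vec p q K)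
    (hv : v ∈ Submodule.span (ZMod p) {u : Vec p q K | ∃ g ∈ LB p q K, u = g v0}) :
    shD b v ∈ Submodule.span (ZMod p) {u : Vec p q K | ∃ g ∈ LB p q K, u = g v0} := by
  induction hv using Submodule.span_induction with
  | mem u hu =>
    obtain ⟨g, hg, rfl⟩ := hu
    have h1 : shD b (g v0) = ((shP b : Equiv.Perm (Vec p q K)) * g) v0 - g v0 := by
      rw [Equiv.Perm.mul_apply, shP_apply]
      abel
    rw [h1]
    refine Submodule.sub_mem _ (Submodule.subset_span ⟨_, mul_mem ?_ hg, rfl⟩)
      (Submodule.subset_span ⟨g, hg, rfl⟩)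
    exact Subgroup.subset_closure ⟨b, hb, rfl⟩
  | zero => rw [shD_zero]; exact Submodule.zero_mem _
  | add u v _ _ h1 h2 => rw [shD_add]; exact Submodule.add_mem _ h1 h2
  | smul k u _ h => rw [shD_smul]; exact Submodule.smul_mem _ _ h

/-- unit vectors -/
def eJ (J : List (ZMod q)) : Vec p q K := fun J' => if J'.1 = J then 1 else 0

theorem eJ_mem (n : ℕ) (hn : n ≤ K) (J : List (ZMod q)) (hJ : J ∈ words q n) :
    (eJ J : Vec p q K) ∈
      Submodule.span (ZMod p) {u : Vec p q K | ∃ g ∈ LB p q K, u = g v0} := by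
  induction n generalizing J with
  | zero =>
    rw [words, Finset.mem_singleton] at hJ
    subst hJ
    exact Submodule.subset_span ⟨1, one_mem _, rfl⟩
  | succ n ih =>
    rw [mem_words] at hJ
    cases J with
    | nil => simp at hJ
    | cons b J' =>
      rw [List.mem_cons, not_or, List.length_cons] at hJ
      have hJ' : J' ∈ words q n := (mem_words q).2 ⟨hJ.1.2, by omega⟩
      have h1 := span_shD b (Ne.symm hJ.1.1) _ (ih (by omega) J' hJ')
      have h2 : (shD b (eJ J') : Vec p q K) = eJ (b :: J') := by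
        have hmem : J' ∈ Om q K := (mem_Om q).2 (Or.inl ⟨hJ.1.2, by omega⟩)
        funext I
        obtain ⟨I, hI⟩ := I
        cases I with
        | nil => simp [shD, eJ]
        | cons c I' =>
          simp only [shD, eJ, ev, List.head?_cons, List.tail_cons, Option.some.injEq,
            List.cons.injEq]
          by_cases hc : c = b
          · by_cases hI' : I' = J'
            · simp [hc, hI', hmem]
            · simp [hc, hI']
          · simp [hc]
      rw [← h2]
      exact h1

/-- the size of the orbit -/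
theorem card_orbit (hxy : x ≠ y) :
    p ^ ((q - 1) ^ K) ≤ Nat.card (MulAction.orbit (FreeGroup α)
      (mkB x y 0 (v0 : Vec p q K))) := by
  classical
  let A : (words q K → ZMod p) → Vec p q K := fun a J =>
    if h : J.1 ∈ words q K then a ⟨J.1, h⟩ else 0
  have hA : ∀ a, A a ∈ Submodule.span (ZMod p) {u : Vec p q K | ∃ g ∈ LB p q K, u = g v0} := by
    intro a
    have h1 : A a = ∑ J : words q K, a J • (eJ J.1 : Vec p q K) := by
      funext I
      rw [Finset.sum_apply]
      by_cases hI : I.1 ∈ words q K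
      · rw [Finset.sum_eq_single ⟨I.1, hI⟩]
        · simp [A, eJ, hI]
        · intro J _ hJ
          have : I.1 ≠ J.1 := fun h => hJ (Subtype.ext h.symm)
          simp [eJ, this]
        · intro h
          exact absurd (Finset.mem_univ _) h
      · rw [Finset.sum_eq_zero]
        · simp [A, hI]
        · intro J _
          have : I.1 ≠ J.1 := fun h => hI (h ▸ J.2)
          simp [eJ, this]
    rw [h1]
    exact Submodule.sum_mem _ fun J _ => Submodule.smul_mem _ _ (eJ_mem K le_rfl J.1 J.2)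
  have hle : Submodule.span (ZMod p) {u : Vec p q K | ∃ g ∈ LB p q K, u = g v0} ≤
      Qs (p := p) (q := q) (K := K) := by
    rw [Submodule.span_le]
    rintro _ ⟨g, hg, rfl⟩
    exact Pt_LB g hg
  have hmem : ∀ a, mkB x y 0 (v0 + shD 0 (A a)) ∈
      MulAction.orbit (FreeGroup α) (mkB x y 0 (v0 : Vec p q K)) := by
    intro a
    obtain ⟨h, hh, h1⟩ := mem_Qs.1 (hle (hA a))
    obtain ⟨w, hw⟩ := exists_word (x := x) (y := y) hxy h hh
    refine ⟨w, ?_⟩
    have h2 := h1 0
    rw [shD_zero, add_zero] at h2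
    change w • (mkB x y 0 (v0 : Vec p q K)) = _
    rw [hw, h2]
  have hinj : Function.Injective fun a : words q K → ZMod p =>
      (⟨_, hmem a⟩ : MulAction.orbit (FreeGroup α) (mkB x y 0 (v0 : Vec p q K))) := by
    intro a b hab
    have h1 : (v0 + shD 0 (A a) : Vec p q K) = v0 + shD 0 (A b) :=
      congrArg Prod.snd (congrArg Subtype.val hab)
    have h2 := add_left_cancel h1
    funext J
    have hJ := (mem_words q).1 J.2
    have hJ0 : (0 : ZMod q) :: J.1 ∈ Om q K := (mem_Om q).2 (Or.inr ⟨J.1, rfl, hJ.1, hJ.2⟩)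
    have hJ1 : J.1 ∈ Om q K := (mem_Om q).2 (Or.inl ⟨hJ.1, hJ.2.le⟩)
    have h3 := congrFun h2 ⟨0 :: J.1, hJ0⟩
    simpa [shD, ev, hJ1, A] using h3
  have h1 := Nat.card_le_card_of_injective _ hinj
  rw [Nat.card_eq_fintype_card, Fintype.card_fun, ZMod.card, Fintype.card_coe, card_words] at h1
  exact h1

end

/-- **Deep relators.** -/
theorem deep_relators {α : Type*} [Fintype α] [DecidableEq α] (x y : α) (hxy : x ≠ y)
    (R : Finset (FreeGroup α)) (hT : TorsRel (R : Set (FreeGroup α))) (p : ℕ) [Fact p.Prime]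
    (e K : ℕ) (he : 3 ≤ p ^ e)
    (hR : ∀ r ∈ R, Depth p (p ^ e + 3 * (p - 1) * p ^ e * (K + 1) * (p ^ e - 1) ^ K + 1) r) :
    p ^ ((p ^ e - 1) ^ K) * Fintype.card α ≤ 1 + rsq R := by
  have hne : NeZero (p ^ e) := ⟨by omega⟩
  refine le_trans (Nat.mul_le_mul_right _ (card_orbit (K := K) (x := x) (y := y) hxy)) ?_
  exact bound_orbit R hT p _ (fun f => deg_BX hxy e rfl he f) hR _

end Vale.Agent.P192.H121
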