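import Vale.Agent.P192.H121.Magnus

/-!
# P192: quotients of free products by subgroups of `[K,K]K^p`
-/

namespace Vale.Agent.P192.H121

open Monoid

open scoped commutatorElement

/-- The subgroup `[K,K]K^p`. -/
def phi (p : ℕ) {P : Type*} [Group P] (K : Subgroup P) : Subgroup P :=
  ⁅K, K⁆ ⊔ Subgroup.closure ((fun k : P => k ^ p) '' K)

theorem pow_mem_phi {p : ℕ} {P : Type*} [Group P] {K : Subgroup P} {k : P} (hk : k ∈ K) {n : ℕ}
    (hn : p ∣ n) : k ^ n ∈ phi p K := by
  obtain ⟨m, rfl⟩ := hn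
  rw [mul_comm, pow_mul]
  exact Subgroup.mem_sup_right (Subgroup.subset_closure ⟨k ^ m, pow_mem hk m, rfl⟩)

instance phi_normal {p : ℕ} {P : Type*} [Group P] {K : Subgroup P} [hK : K.Normal] :
    (phi p K).Normal := by
  have : (Subgroup.closure ((fun k : P => k ^ p) '' (K : Set P))).Normal := by
    refine ⟨fun n hn g => ?_⟩
    induction hn using Subgroup.closure_induction with
    | mem x hx =>
      obtain ⟨k, hk, rfl⟩ := hx
      refine Subgroup.subset_closure ⟨g * k * g⁻¹, hK.conj_mem k hk g, ?_⟩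
      exact conj_pow
    | one => simp
    | mul x y _ _ hx hy =>
      have : g * (x * y) * g⁻¹ = (g * x * g⁻¹) * (g * y * g⁻¹) := by group
      rw [this]
      exact mul_mem hx hy
    | inv x _ hx =>
      have : g * x⁻¹ * g⁻¹ = (g * x * g⁻¹)⁻¹ := by group
      rw [this]
      exact inv_mem hx
  unfold phi
  infer_instance

theorem over_phi {p : ℕ} {P B : Type*} [Group P] [Group B] {π : P →* B}
    {c : P → B → Multiplicative (ZMod p)} (hc : Over π c) (m : P) (hm : m ∈ phi p π.ker) :
    π m = 1 ∧ ∀ x, c m x = 1 := by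
  let L : Subgroup P :=
    { carrier := {m | π m = 1 ∧ ∀ x, c m x = 1}
      one_mem' := ⟨map_one π, hc.one⟩
      mul_mem' := fun {a b} ha hb => ⟨by rw [map_mul, ha.1, hb.1, one_mul], fun x => by
        rw [hc, ha.2, hb.2, one_mul]⟩
      inv_mem' := fun {a} ha => ⟨by rw [map_inv, ha.1, inv_one], fun x => by
        rw [hc.inv, ha.2, inv_one]⟩ }
  have hmul : ∀ k ∈ π.ker, ∀ l ∈ π.ker, ∀ x, c (k * l) x = c k x * c l x := by
    intro k _ l hl x
    rw [hc, show π l = 1 from hl, one_mul]
  have h1 : phi p π.ker ≤ L := by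
    refine sup_le ?_ ?_
    · rw [Subgroup.commutator_le]
      intro g hg h hh
      have h0 : ⁅g, h⁆ ∈ π.ker := by
        rw [commutatorElement_def]
        exact mul_mem (mul_mem (mul_mem hg hh) (inv_mem hg)) (inv_mem hh)
      refine ⟨h0, fun x => ?_⟩
      have h2 : c (⁅g, h⁆ * (h * g)) x = c (g * h) x := by
        rw [commutatorElement_def]
        congr 1
        group
      rw [hmul _ h0 _ (mul_mem hh hg), hmul _ hh _ hg, hmul _ hg _ hh, mul_comm (c g x)] at h2
      exact mul_eq_right.1 h2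
    · rw [Subgroup.closure_le]
      rintro _ ⟨k, hk, rfl⟩
      have hkk : π k = 1 := hk
      refine ⟨by rw [map_pow, hkk, one_pow], fun x => ?_⟩
      have h2 : ∀ n : ℕ, c (k ^ n) x = c k x ^ n := by
        intro n
        induction n with
        | zero => rw [pow_zero, pow_zero, hc.one]
        | succ n ih => rw [pow_succ, pow_succ, hmul _ (pow_mem hk n) _ hk, ih]
      rw [h2]
      apply Multiplicative.toAdd.injective
      rw [toAdd_pow, toAdd_one, nsmul_eq_mul, CharP.cast_eq_zero, zero_mul]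
  exact h1 hm

/-- torsion passes from subgroups of finite index -/
theorem torsion_of_finiteIndex {P : Type*} [Group P] (D : Subgroup P) (hD : D.FiniteIndex)
    (h : ∀ d ∈ D, IsOfFinOrder d) (x : P) : IsOfFinOrder x := by
  obtain ⟨n, hn, -, hx⟩ := Subgroup.exists_pow_mem_of_index_ne_zero hD.index_ne_zero x
  have h1 := h _ hx
  exact h1.of_pow hn.ne'

theorem torsion_of_cover {Γ P B : Type*} [Group Γ] [Group P] [Group B]
    (hΓ : ∀ g : Γ, IsOfFinOrder g) (φ : Γ →* P) (hφ : φ.range.FiniteIndex) (f : P →* B)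
    (hf : Function.Surjective f) (b : B) : IsOfFinOrder b := by
  obtain ⟨x, rfl⟩ := hf b
  refine f.isOfFinOrder (torsion_of_finiteIndex φ.range hφ ?_ x)
  rintro _ ⟨γ, rfl⟩
  exact φ.isOfFinOrder (hΓ γ)

/-- **Free products.** -/
theorem free_product (Γ : Type*) [Group Γ] [Group.IsFinitelyPresented Γ]
    (hΓ : ∀ g : Γ, IsOfFinOrder g) {ι : Type*} {G : ι → Type*} [∀ i, Group (G i)] {B : Type*}
    [Group B] (β : ∀ i, G i →* B) (hβ : Function.Surjective (CoprodI.lift β)) (p : ℕ)
    [Fact p.Prime] (M : Subgroup (CoprodI G)) [M.Normal] (hM : M ≤ phi p (CoprodI.lift β).ker)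
    (φ : Γ →* CoprodI G ⧸ M) (hφ : φ.range.FiniteIndex) (i j : ι) (hij : i ≠ j) (u : G i)
    (v : G j) (hu : β i u ≠ 1) (hv : β j v ≠ 1) : Finite B := by
  classical
  have hMπ : ∀ m ∈ M, CoprodI.lift β m = 1 := by
    intro m hm
    obtain ⟨c, hc, -⟩ := exists_free_coc β (A := Multiplicative (ZMod p)) i 1
    exact (over_phi hc m (hM hm)).1
  have hB : ∀ b : B, IsOfFinOrder b := by
    refine torsion_of_cover hΓ φ hφ (QuotientGroup.lift M (CoprodI.lift β) hMπ) ?_
    intro b
    obtain ⟨a, rfl⟩ := hβ b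
    exact ⟨a, rfl⟩
  obtain ⟨c, hc, h1, -, w, x, h2, h3⟩ := exists_nontrivial β (Ne.symm hij)
    (Multiplicative.ofAdd (1 : ZMod p)) (by
      intro h
      exact one_ne_zero (Multiplicative.ofAdd.injective h)) u v hu hv hB
  exact cover_finite Γ hΓ (CoprodI.lift β) hβ c hc h1 M (fun m hm => over_phi hc m (hM hm)) φ hφ
    w h2 x h3

/-- **Free groups.** -/
theorem free_group (Γ : Type*) [Group Γ] [Group.IsFinitelyPresented Γ]
    (hΓ : ∀ g : Γ, IsOfFinOrder g) {α : Type*} (N M : Subgroup (FreeGroup α)) [N.Normal]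
    [M.Normal] (p : ℕ) [Fact p.Prime] (hM : M ≤ phi p N) (φ : Γ →* FreeGroup α ⧸ M)
    (hφ : φ.range.FiniteIndex) : Finite (FreeGroup α ⧸ N) := by
  classical
  have hphi : phi p N ≤ N := by
    refine sup_le (Subgroup.commutator_le_left N N) ?_
    rw [Subgroup.closure_le]
    rintro _ ⟨k, hk, rfl⟩
    exact pow_mem hk p
  have hB : ∀ b : FreeGroup α ⧸ N, IsOfFinOrder b := by
    refine torsion_of_cover hΓ φ hφ (QuotientGroup.lift M (QuotientGroup.mk' N) fun m hm =>
      (QuotientGroup.eq_one_iff m).2 (hphi (hM hm))) ?_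
    intro b
    obtain ⟨a, rfl⟩ := QuotientGroup.mk_surjective b
    exact ⟨a, rfl⟩
  by_cases h : ∃ i j : α, i ≠ j ∧ (QuotientGroup.mk' N) (FreeGroup.of i) ≠ 1 ∧
      (QuotientGroup.mk' N) (FreeGroup.of j) ≠ 1
  · obtain ⟨i, j, hij, hi, hj⟩ := h
    let G : α → Type := fun _ => FreeGroup Unit
    let β : ∀ a, G a →* FreeGroup α ⧸ N := fun a =>
      FreeGroup.lift fun _ => QuotientGroup.mk' N (FreeGroup.of a)
    let e : FreeGroup α ≃* CoprodI G := freeGroupEquivCoprodI
    have he : ∀ w, CoprodI.lift β (e w) = QuotientGroup.mk' N w := by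
      intro w
      have h1 : (CoprodI.lift β).comp e.toMonoidHom = QuotientGroup.mk' N := by
        ext a
        simp [e, G, β, freeGroupEquivCoprodI]
      exact DFunLike.congr_fun h1 w
    obtain ⟨c, hc, h1, -, w, x, h2, h3⟩ := exists_nontrivial β (Ne.symm hij)
      (Multiplicative.ofAdd (1 : ZMod p)) (by
        intro h
        exact one_ne_zero (Multiplicative.ofAdd.injective h)) (FreeGroup.of ())
      (FreeGroup.of ()) (by
        change FreeGroup.lift _ (FreeGroup.of ()) ≠ 1
        rw [FreeGroup.lift_apply_of]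
        exact hi) (by
        change FreeGroup.lift _ (FreeGroup.of ()) ≠ 1
        rw [FreeGroup.lift_apply_of]
        exact hj) hB
    have hc' : Over (QuotientGroup.mk' N) fun w => c (e w) := by
      intro v w x
      change c (e (v * w)) x = _
      rw [map_mul, hc, he]
    have hker : (QuotientGroup.mk' N).ker = N := QuotientGroup.ker_mk' N
    refine cover_finite Γ hΓ (QuotientGroup.mk' N) (QuotientGroup.mk'_surjective N)
      (fun w => c (e w)) hc' (fun w => h1 (e w)) M (fun m hm => ?_) φ hφ (e.symm w) ?_ x ?_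
    · refine over_phi hc' m ?_
      rw [hker]
      exact hM hm
    · rw [← he, e.apply_symm_apply, h2]
    · change c (e (e.symm w)) x ≠ 1
      rw [e.apply_symm_apply]
      exact h3
  · push Not at h
    by_cases h0 : ∃ i : α, (QuotientGroup.mk' N) (FreeGroup.of i) ≠ 1
    · obtain ⟨i, hi⟩ := h0
      have h1 : (⊤ : Subgroup (FreeGroup α ⧸ N)) ≤
          Subgroup.zpowers ((QuotientGroup.mk' N) (FreeGroup.of i)) := by
        rw [← MonoidHom.range_eq_top.2 (QuotientGroup.mk'_surjective N), MonoidHom.range_eq_map,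
          ← FreeGroup.closure_range_of, MonoidHom.map_closure, Subgroup.closure_le]
        rintro _ ⟨_, ⟨j, rfl⟩, rfl⟩
        by_cases hij : i = j
        · rw [hij]; exact Subgroup.mem_zpowers _
        · have : (QuotientGroup.mk' N) (FreeGroup.of j) = 1 := h i j hij hi
          rw [SetLike.mem_coe, this]
          exact one_mem _
      have h2 := finite_zpowers.2 (hB ((QuotientGroup.mk' N) (FreeGroup.of i)))
      have h3 : (Set.univ : Set (FreeGroup α ⧸ N)).Finite := h2.subset fun x _ => h1 trivial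
      exact Set.finite_univ_iff.1 h3
    · push Not at h0
      have h1 : (⊤ : Subgroup (FreeGroup α ⧸ N)) ≤ ⊥ := by
        rw [← MonoidHom.range_eq_top.2 (QuotientGroup.mk'_surjective N), MonoidHom.range_eq_map,
          ← FreeGroup.closure_range_of, MonoidHom.map_closure, Subgroup.closure_le]
        rintro _ ⟨_, ⟨j, rfl⟩, rfl⟩
        exact h0 j
      have h3 : (Set.univ : Set (FreeGroup α ⧸ N)).Finite :=
        (Set.finite_singleton (1 : FreeGroup α ⧸ N)).subset fun x _ =>
          Subgroup.mem_bot.1 (h1 trivial)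
      exact Set.finite_univ_iff.1 h3

/-- **Powers of relators.** -/
theorem power_shift (Γ : Type*) [Group Γ] [Group.IsFinitelyPresented Γ]
    (hΓ : ∀ g : Γ, IsOfFinOrder g) {α I : Type*} (r : I → FreeGroup α) (n : I → ℕ) (p : ℕ)
    [Fact p.Prime] (hn : ∀ i, p ∣ n i)
    (φ : Γ →* PresentedGroup (Set.range fun i => r i ^ n i)) (hφ : φ.range.FiniteIndex) :
    Finite (PresentedGroup (Set.range r)) := by
  refine free_group Γ hΓ (Subgroup.normalClosure (Set.range r))
    (Subgroup.normalClosure (Set.range fun i => r i ^ n i)) p ?_ φ hφ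
  refine Subgroup.normalClosure_le_normal ?_
  rintro _ ⟨i, rfl⟩
  exact pow_mem_phi (Subgroup.subset_normalClosure (Set.mem_range_self i)) (hn i)

end Vale.Agent.P192.H121
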