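import Vale.Agent.P192.H121.Mono

/-!
# P192: monomial algebras as quotients
-/

namespace Vale.Agent.P192.H121.NC

open Matrix Vale.Agent.P192 Vale.Agent.P192.H903

/-- the ideal of a monoid generated by a set -/
def genId {M : Type} [Monoid M] (W : Set M) : Set M := {z | ∃ w ∈ W, ∃ u v, z = u * w * v}

theorem isId_genId {M : Type} [Monoid M] (W : Set M) : IsId (genId W) := by
  rintro u v z ⟨w, hw, a, b, rfl⟩
  exact ⟨w, hw, u * a, b * v, by simp only [mul_assoc]⟩

/-- the elements of the monoid algebra supported on an ideal -/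
noncomputable def suppIdeal (K : Type) [CommRing K] {M : Type} [Monoid M] {J : Set M} (hJ : IsId J) :
    TwoSidedIdeal (MonoidAlgebra K M) :=
  TwoSidedIdeal.mk' {f | ∀ w ∈ f.coeff.support, w ∈ J}
    (fun w hw => by simp at hw)
    (fun {f g} hf hg w hw => by
      classical
      rw [MonoidAlgebra.coeff_add] at hw
      rcases Finset.mem_union.mp (Finsupp.support_add hw) with h | h
      · exact hf w h
      · exact hg w h)
    (fun {f} hf w hw => by
      rw [MonoidAlgebra.coeff_neg, Finsupp.support_neg] at hw
      exact hf w hw)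
    (fun {f g} hg w hw => by
      classical
      by_contra hwJ
      refine (Finsupp.mem_support_iff.mp hw) ?_
      rw [MonoidAlgebra.coeff_mul, Finsupp.sum]
      refine Finset.sum_eq_zero fun u _ => ?_
      rw [Finsupp.sum]
      refine Finset.sum_eq_zero fun v hv => ?_
      rw [if_neg]
      rintro rfl
      have := hJ u 1 v (hg v hv)
      rw [mul_one] at this
      exact hwJ this)
    (fun {f g} hf w hw => by
      classical
      by_contra hwJ
      refine (Finsupp.mem_support_iff.mp hw) ?_
      rw [MonoidAlgebra.coeff_mul, Finsupp.sum]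
      refine Finset.sum_eq_zero fun u hu => ?_
      rw [Finsupp.sum]
      refine Finset.sum_eq_zero fun v _ => ?_
      rw [if_neg]
      rintro rfl
      have := hJ 1 v u (hf u hu)
      rw [one_mul] at this
      exact hwJ this)

theorem mem_suppIdeal (K : Type) [CommRing K] {M : Type} [Monoid M] {J : Set M} (hJ : IsId J)
    (f : MonoidAlgebra K M) : f ∈ suppIdeal K hJ ↔ ∀ w ∈ f.coeff.support, w ∈ J :=
  TwoSidedIdeal.mem_mk' _ _ _ _ _ _ f

/-- the ideal generated by monomials -/
noncomputable abbrev monoIdeal (K : Type) [CommRing K] {M : Type} [Monoid M] (W : Set M) :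
    TwoSidedIdeal (MonoidAlgebra K M) :=
  TwoSidedIdeal.span {f | ∃ w ∈ W, f = MonoidAlgebra.single w 1}

theorem mem_monoIdeal (K : Type) [CommRing K] {M : Type} [Monoid M] (W : Set M)
    (f : MonoidAlgebra K M) : f ∈ monoIdeal K W ↔ ∀ w ∈ f.coeff.support, w ∈ genId W := by
  constructor
  · intro h
    rw [← mem_suppIdeal K (isId_genId W)]
    refine (TwoSidedIdeal.mem_span_iff.mp h) _ ?_
    rintro _ ⟨w, hw, rfl⟩
    rw [SetLike.mem_coe, mem_suppIdeal]
    intro u hu
    rw [MonoidAlgebra.coeff_single] at hu
    have := Finsupp.support_single_subset hu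
    rw [Finset.mem_singleton] at this
    subst this
    exact ⟨u, hw, 1, 1, by rw [one_mul, mul_one]⟩
  · intro h
    rw [← MonoidAlgebra.sum_coeff_single f, Finsupp.sum]
    refine sum_mem fun z hz => ?_
    obtain ⟨w, hw, u, v, rfl⟩ := h z hz
    have h1 : MonoidAlgebra.single (u * w * v) (f.coeff (u * w * v)) =
        MonoidAlgebra.single u (f.coeff (u * w * v)) * MonoidAlgebra.single w 1 *
          MonoidAlgebra.single v 1 := by
      rw [MonoidAlgebra.single_mul_single, MonoidAlgebra.single_mul_single, mul_one, mul_one]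
    rw [h1]
    exact TwoSidedIdeal.mul_mem_right _ _ _ (TwoSidedIdeal.mul_mem_left _ _ _
      (TwoSidedIdeal.subset_span ⟨w, hw, rfl⟩))

/-- **Quotients of tensor products of free algebras by monomials.** -/
theorem fpb_monomial (K : Type) [CommRing K] {m : ℕ} (X : Fin m → Type)
    (W : Set (∀ i, FreeMonoid (X i))) (n : ℕ) :
    FPB (Matrix (Fin n) (Fin n) (monoIdeal K W).ringCon.Quotient)ˣ := by
  have hker : ∀ f, (monoIdeal K W).ringCon.mk' f = 0 ↔ f ∈ monoIdeal K W := by
    intro f
    rw [TwoSidedIdeal.mem_iff, ← RingCon.eq]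
    exact Iff.rfl
  refine fpb_quot (tame_words X) K n (genId W) (fun V hV hVJ =>
      locally_regular _ (isId_genId W) V hV hVJ) (monoIdeal K W).ringCon.mk'
    (RingCon.mk'_surjective _) ?_ ?_
  · intro f hf
    rw [hker, mem_monoIdeal]
    exact hf
  · intro f hf
    rw [hker, mem_monoIdeal] at hf
    exact hf

/-- Division rings of finite dimension over their centres. -/
theorem fgp_of_center (D : Type) [DivisionRing D] [Module.Finite (Subring.center D) D] (n : ℕ) :
    FGP (Matrix (Fin n) (Fin n) D)ˣ := by
  classical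
  let b := Module.Free.chooseBasis (Subring.center D) D
  exact fgp_of_embedding (Algebra.leftMulMatrix b).toRingHom (Algebra.leftMulMatrix_injective b) n

end Vale.Agent.P192.H121.NC
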