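import Vale.Agent.P192.H121.Count

/-!
# P192: forms on the elementary abelian covering
-/

namespace Vale.Agent.P192.H121

open Monoid

variable {α X : Type*} [MulAction (FreeGroup α) X]

section form

variable {p : ℕ} [Fact p.Prime] {κ J : Type*} [Fintype κ] [Fintype J]

/-- the pairing given by a matrix -/
def pair (a : κ → J → ZMod p) (v : κ → ZMod p) : (J → ZMod p) →+ ZMod p where
  toFun u := ∑ k, ∑ j, a k j * v k * u j
  map_zero' := by simp
  map_add' u u' := by simp [mul_add, Finset.sum_add_distrib]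

theorem pair_apply (a : κ → J → ZMod p) (v : κ → ZMod p) (u : J → ZMod p) :
    pair a v u = ∑ k, ∑ j, a k j * v k * u j := rfl

theorem pair_add_left (a : κ → J → ZMod p) (v v' : κ → ZMod p) (u : J → ZMod p) :
    pair a (v + v') u = pair a v u + pair a v' u := by
  simp [pair_apply, mul_add, add_mul, Finset.sum_add_distrib]

/-- the form with matrix `a` -/
def form (c : X × α → κ → ZMod p) (b : X × α → J → ZMod p) :
    (κ → J → ZMod p) →ₗ[ZMod p] (Cov c × α → ZMod p) where
  toFun a e := pair a e.1.val (b (e.1.base, e.2))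
  map_add' a a' := by
    funext e
    simp [pair_apply, add_mul, Finset.sum_add_distrib]
  map_smul' t a := by
    funext e
    simp [pair_apply, Finset.mul_sum, mul_assoc]

theorem form_apply (c : X × α → κ → ZMod p) (b : X × α → J → ZMod p) (a : κ → J → ZMod p)
    (e : Cov c × α) : form c b a e = pair a e.1.val (b (e.1.base, e.2)) := rfl

theorem form_shift (c : X × α → κ → ZMod p) (b : X × α → J → ZMod p) (a : κ → J → ZMod p)
    (w : FreeGroup α) (x : X) (v v' : κ → ZMod p) :
    av (form c b a) w ⟨x, v + v'⟩ = av (form c b a) w ⟨x, v⟩ + pair a v' (av b w x) := by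
  rw [← av_shift]
  have h : (fun e : Cov c × α => form c b a (⟨e.1.base, e.1.val + v'⟩, e.2)) =
      form c b a + fun e : Cov c × α => pair a v' (b (e.1.base, e.2)) := by
    funext e
    change pair a (e.1.val + v') _ = pair a e.1.val _ + _
    rw [pair_add_left]
  rw [h, av_add, ← av_map (pair a v') (fun e : Cov c × α => b (e.1.base, e.2)), av_fst]

theorem form_zero (c : X × α → κ → ZMod p) (b : X × α → J → ZMod p) (a : κ → J → ZMod p)
    (w : FreeGroup α) (x : X) (v : κ → ZMod p) :
    av (form c b a) w ⟨x, v⟩ = av (form c b a) w ⟨x, 0⟩ + pair a v (av b w x) := by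
  rw [← form_shift, zero_add]

/-- the value on a product of two words which fix the base point -/
theorem form_mul (c : X × α → κ → ZMod p) (b : X × α → J → ZMod p) (a : κ → J → ZMod p)
    (w w' : FreeGroup α) (x₀ : X) (h' : w' • x₀ = x₀) :
    av (form c b a) (w * w') ⟨x₀, 0⟩ = av (form c b a) w ⟨x₀, 0⟩ +
      av (form c b a) w' ⟨x₀, 0⟩ + pair a (av c w' x₀) (av b w x₀) := by
  rw [av_mul, cov_smul]
  change av (form c b a) w ⟨w' • x₀, 0 + av c w' x₀⟩ + _ = _
  rw [h', zero_add, form_zero]
  abel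

/-- matrices whose form is trivial on the stabiliser of the covering -/
def Triv (c : X × α → κ → ZMod p) (b : X × α → J → ZMod p) (x₀ : X) :
    Submodule (ZMod p) (κ → J → ZMod p) where
  carrier := {a | ∀ w : FreeGroup α, w • (⟨x₀, 0⟩ : Cov c) = ⟨x₀, 0⟩ →
    av (form c b a) w ⟨x₀, 0⟩ = 0}
  zero_mem' w _ := by
    rw [map_zero]
    exact (avL (p := p) (M := ZMod p) w (⟨x₀, 0⟩ : Cov c)).map_zero
  add_mem' {a a'} h h' w hw := by
    rw [map_add, av_add, h w hw, h' w hw, add_zero]
  smul_mem' t a h w hw := by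
    rw [map_smul]
    have := (avL (p := p) (M := ZMod p) w (⟨x₀, 0⟩ : Cov c)).map_smul t (form c b a)
    rw [avL_apply, avL_apply] at this
    rw [this, h w hw, smul_zero]

/-- symmetry of the matrices in `Triv` -/
theorem triv_symm (c : X × α → κ → ZMod p) (b : X × α → J → ZMod p) (x₀ : X)
    {a : κ → J → ZMod p} (ha : ∀ w : FreeGroup α, w • (⟨x₀, 0⟩ : Cov c) = ⟨x₀, 0⟩ →
      av (form c b a) w ⟨x₀, 0⟩ = 0) (w w' : FreeGroup α)
    (h : w • x₀ = x₀) (h' : w' • x₀ = x₀) :
    pair a (av c w' x₀) (av b w x₀) = pair a (av c w x₀) (av b w' x₀) := by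
  have hww' : (w * w') • x₀ = x₀ := by rw [mul_smul, h', h]
  have hw'w : (w' * w) • x₀ = x₀ := by rw [mul_smul, h, h']
  have hinv : (w' * w)⁻¹ • x₀ = x₀ := inv_smul_eq_iff.2 hw'w.symm
  have hz : (w * w' * (w' * w)⁻¹) • x₀ = x₀ := by rw [mul_smul, hinv, hww']
  have hzc : av c (w * w' * (w' * w)⁻¹) x₀ = 0 := by
    rw [av_stab_mul c hinv, av_stab_inv c hw'w, av_stab_mul c h', av_stab_mul c h]
    abel
  have hzb : av b (w * w' * (w' * w)⁻¹) x₀ = 0 := by
    rw [av_stab_mul b hinv, av_stab_inv b hw'w, av_stab_mul b h', av_stab_mul b h]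
    abel
  have h1 := ha (w * w' * (w' * w)⁻¹) ((cov_stab c _ x₀ 0).2 ⟨hz, hzc⟩)
  have h2 := form_mul c b a (w * w' * (w' * w)⁻¹) (w' * w) x₀ hw'w
  rw [inv_mul_cancel_right, h1, hzb, map_zero, add_zero, zero_add, form_mul c b a w w' x₀ h',
    form_mul c b a w' w x₀ h] at h2
  have h3 : pair a (av c w' x₀) (av b w x₀) - pair a (av c w x₀) (av b w' x₀) = 0 := by
    linear_combination h2
  exact sub_eq_zero.1 h3

variable [DecidableEq κ] [DecidableEq J]

theorem finrank_triv_le (c : X × α → κ → ZMod p) (b : X × α → J → ZMod p) (x₀ : X)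
    (hc : Onto x₀ c) (hb : Onto x₀ b) :
    Module.finrank (ZMod p) (Triv c b x₀) ≤ Fintype.card J * Fintype.card J := by
  choose s hs hsb using fun j : J => hb (Pi.single j 1)
  let Θ : (κ → J → ZMod p) →ₗ[ZMod p] (J → J → ZMod p) :=
    { toFun := fun a i j => ∑ k, a k j * av c (s i) x₀ k
      map_add' := fun a a' => by
        funext i j
        simp [add_mul, Finset.sum_add_distrib]
      map_smul' := fun t a => by
        funext i j
        simp [Finset.mul_sum, mul_assoc] }
  have hΘ : ∀ a i j, Θ a i j = ∑ k, a k j * av c (s i) x₀ k := fun _ _ _ => rfl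
  have hinj : Function.Injective (Θ.domRestrict (Triv c b x₀)) := by
    rw [← LinearMap.ker_eq_bot, LinearMap.ker_eq_bot']
    rintro ⟨a, ha⟩ h0
    have h0' : Θ a = 0 := h0
    have hz : ∀ i j, ∑ k, a k j * av c (s i) x₀ k = 0 := fun i j => by
      rw [← hΘ, h0']; rfl
    ext k i
    obtain ⟨w, hw, hwc⟩ := hc (Pi.single k 1)
    have h1 := triv_symm c b x₀ ha w (s i) hw (hs i)
    rw [hwc, hsb, pair_apply, pair_apply] at h1
    have h2 : ∑ k', ∑ j, a k' j * av c (s i) x₀ k' * av b w x₀ j = 0 := by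
      rw [Finset.sum_comm]
      refine Finset.sum_eq_zero fun j _ => ?_
      rw [← Finset.sum_mul, hz, zero_mul]
    rw [h2] at h1
    have h3 : ∑ k', ∑ j, a k' j * (Pi.single k 1 : κ → ZMod p) k' *
        (Pi.single i 1 : J → ZMod p) j = a k i := by
      rw [Finset.sum_eq_single k, Finset.sum_eq_single i]
      · simp
      · intro j _ hj
        simp [Pi.single_eq_of_ne hj]
      · intro h; exact absurd (Finset.mem_univ _) h
      · intro k' _ hk'
        simp [Pi.single_eq_of_ne hk']
      · intro h; exact absurd (Finset.mem_univ _) h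
    rw [h3] at h1
    exact h1.symm
  have h := LinearMap.finrank_le_finrank_of_injective hinj
  rwa [Module.finrank_pi_fintype, Finset.sum_const, Module.finrank_fintype_fun_eq_card,
    Finset.card_univ, smul_eq_mul] at h

end form

end Vale.Agent.P192.H121
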