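import Vale.Agent.P192.H121.Step

/-!
# P192: the step which makes supports smaller
-/

namespace Vale.Agent.P192.H121

open Monoid

variable {α X : Type*} [MulAction (FreeGroup α) X]

noncomputable instance {M : Type*} [Fintype X] [Fintype M] (c : X × α → M) : Fintype (Cov c) :=
  Fintype.ofEquiv (X × M) ⟨fun y => ⟨y.1, y.2⟩, fun y => (y.base, y.val), fun _ => rfl,
    fun _ => rfl⟩

theorem card_cov {M : Type*} [AddCommGroup M] [Fintype X] [Fintype M] (c : X × α → M) :
    Fintype.card (Cov c) = Fintype.card X * Fintype.card M := by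
  rw [Fintype.card_congr (covEquiv c), Fintype.card_prod]

section step

variable {p : ℕ} [Fact p.Prime] {κ J : Type*} [Fintype κ] [Fintype J]
  [DecidableEq α] [Fintype X] [DecidableEq X]

theorem closed_form (R : Finset (FreeGroup α)) (c : X × α → κ → ZMod p)
    (b : X × α → J → ZMod p) (hb : AClosed (R : Set (FreeGroup α)) b) (A : Finset (X × α))
    (hA : ∀ e, e ∉ A → b e = 0) (a : κ → J → ZMod p)
    (h : ∀ q ∈ meets R A, av (form c b a) q.1 ⟨q.2, 0⟩ = 0) :
    AClosed (R : Set (FreeGroup α)) (form c b a) := by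
  rintro r hr ⟨x, v⟩
  rw [form_zero, hb r hr x, map_zero, add_zero]
  by_cases hm : (r, x) ∈ meets R A
  · exact h _ hm
  · apply av_eq_zero
    intro e he
    have h1 : (e.1.base, e.2) ∈ edges r.toWord x := by
      have := edges_map (fun y : Cov c => y.base) (fun _ _ => rfl) r.toWord (⟨x, 0⟩ : Cov c)
      rw [this]
      exact List.mem_map.2 ⟨e, he, rfl⟩
    have h2 : (e.1.base, e.2) ∉ A := by
      intro h3
      apply hm
      simp only [meets, Finset.mem_filter, Finset.mem_product, Finset.mem_univ, and_true]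
      exact ⟨hr, _, h1, h3⟩
    rw [form_apply, hA _ h2, map_zero]

variable [DecidableEq κ] [DecidableEq J] [Fintype α]


theorem card_lift (c : X × α → κ → ZMod p) (A : Finset (X × α)) [DecidableEq (X × α)] :
    (Finset.univ.filter fun e : Cov c × α => (e.1.base, e.2) ∈ A).card =
      A.card * p ^ Fintype.card κ := by
  classical
  have h1 : Fintype.card (κ → ZMod p) = p ^ Fintype.card κ := by
    rw [Fintype.card_fun, ZMod.card]
  rw [← h1, ← Finset.card_univ (α := κ → ZMod p), ← Finset.card_product]
  refine Finset.card_bij' (fun e _ => ((e.1.base, e.2), e.1.val))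
    (fun e _ => (⟨e.1.1, e.2⟩, e.1.2)) ?_ ?_ ?_ ?_
  · intro e he
    simpa using he
  · intro e he
    simpa using he
  · intro e _; rfl
  · intro e _; rfl

theorem step (R : Finset (FreeGroup α)) (x₀ : X)
    (c : X × α → κ → ZMod p) (hco : Onto x₀ c)
    (b : X × α → J → ZMod p) (hb : AClosed (R : Set (FreeGroup α)) b) (hbo : Onto x₀ b)
    (A : Finset (X × α)) (hA : ∀ e, e ∉ A → b e = 0) (u : ℕ)
    (hcount : u + 1 + Fintype.card J * Fintype.card J + rlen R * A.card ≤
      Fintype.card κ * Fintype.card J) :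
    ∃ (b' : Cov c × α → Fin u → ZMod p) (A' : Finset (Cov c × α)),
      AClosed (R : Set (FreeGroup α)) b' ∧ Onto (⟨x₀, 0⟩ : Cov c) b' ∧ (∀ e, e ∉ A' → b' e = 0) ∧
      p ^ (u + 1) * A'.card + A.card * p ^ Fintype.card κ ≤
        p ^ (u + 1) * (A.card * p ^ Fintype.card κ) := by
  classical
  -- the linear conditions
  let Λ : (κ → J → ZMod p) →ₗ[ZMod p] ({q // q ∈ meets R A} → ZMod p) :=
    LinearMap.pi fun q =>
      (avL (p := p) (M := ZMod p) q.1.1 (⟨q.1.2, 0⟩ : Cov c)).comp (form c b)
  have hΛ : ∀ a q, Λ a q = av (form c b a) q.1.1 ⟨q.1.2, 0⟩ := fun _ _ => rfl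
  obtain ⟨C, hC⟩ := Submodule.exists_isCompl (Triv c b x₀)
  have hM : Module.finrank (ZMod p) (κ → J → ZMod p) = Fintype.card κ * Fintype.card J := by
    rw [Module.finrank_pi_fintype, Finset.sum_const, Module.finrank_fintype_fun_eq_card,
      Finset.card_univ, smul_eq_mul]
  have hCdim : Module.finrank (ZMod p) (Triv c b x₀) + Module.finrank (ZMod p) C =
      Fintype.card κ * Fintype.card J := by
    rw [← hM]
    exact Submodule.finrank_add_eq_of_isCompl hC
  have hTriv := finrank_triv_le c b x₀ hco hbo
  let W := LinearMap.ker (Λ.domRestrict C)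
  have hWdim : u + 1 ≤ Module.finrank (ZMod p) W := by
    have h1 := LinearMap.finrank_range_add_finrank_ker (Λ.domRestrict C)
    have h2 : Module.finrank (ZMod p) (LinearMap.range (Λ.domRestrict C)) ≤
        rlen R * A.card := by
      refine (Submodule.finrank_le _).trans ?_
      rw [Module.finrank_fintype_fun_eq_card, Fintype.card_coe]
      exact card_meets_le R A
    change u + 1 ≤ Module.finrank (ZMod p) (LinearMap.ker (Λ.domRestrict C))
    omega
  let T : Fin (u + 1) → W := fun i => Module.finBasis (ZMod p) W (Fin.castLE hWdim i)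
  have hT : LinearIndependent (ZMod p) T :=
    (Module.finBasis (ZMod p) W).linearIndependent.comp _ (Fin.castLE_injective hWdim)
  let T' : Fin (u + 1) → (κ → J → ZMod p) := fun i => ((T i : C) : κ → J → ZMod p)
  have hT' : LinearIndependent (ZMod p) T' := by
    have h1 : LinearIndependent (ZMod p) fun i => (T i : C) :=
      hT.map' W.subtype (Submodule.ker_subtype W)
    exact h1.map' C.subtype (Submodule.ker_subtype C)
  have hT'C : ∀ i, T' i ∈ C := fun i => (T i : C).2
  have hT'Λ : ∀ i, Λ (T' i) = 0 := fun i => (T i).2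
  -- the lifted support and the pigeonhole
  let E : Finset (Cov c × α) := Finset.univ.filter fun e => (e.1.base, e.2) ∈ A
  have hE : E.card = A.card * p ^ Fintype.card κ := card_lift c A
  let F : Cov c × α → (Fin (u + 1) → ZMod p) := fun e i => form c b (T' i) e
  have hp0 : 0 < p := (Fact.out : p.Prime).pos
  have hcardF : Fintype.card (Fin (u + 1) → ZMod p) = p ^ (u + 1) := by
    rw [Fintype.card_fun, ZMod.card, Fintype.card_fin]
  obtain ⟨f, -, hf⟩ : ∃ f ∈ (Finset.univ : Finset (Fin (u + 1) → ZMod p)),
      (E.card : ℚ) / (p ^ (u + 1) : ℕ) ≤ (E.filter fun e => F e = f).card := by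
    refine Finset.exists_le_card_fiber_of_nsmul_le_card_of_maps_to
      (fun _ _ => Finset.mem_univ _) Finset.univ_nonempty ?_
    rw [Finset.card_univ, hcardF, nsmul_eq_mul]
    rw [mul_div_cancel₀]
    have : 0 < p ^ (u + 1) := pow_pos hp0 _
    positivity
  have hf' : E.card ≤ p ^ (u + 1) * (E.filter fun e => F e = f).card := by
    have h1 : (0 : ℚ) < (p ^ (u + 1) : ℕ) := by
      have : 0 < p ^ (u + 1) := pow_pos hp0 _
      exact_mod_cast this
    rw [div_le_iff₀ h1] at hf
    have h2 : (E.card : ℚ) ≤ ((p ^ (u + 1) * (E.filter fun e => F e = f).card : ℕ) : ℚ) := by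
      rw [Nat.cast_mul, mul_comm]
      exact hf
    exact_mod_cast h2
  -- vectors orthogonal to `f`
  let φ : (Fin (u + 1) → ZMod p) →ₗ[ZMod p] ZMod p :=
    ∑ i, f i • LinearMap.proj i
  have hφ : ∀ l, φ l = ∑ i, f i * l i := by
    intro l
    simp [φ]
  have hKdim : u ≤ Module.finrank (ZMod p) (LinearMap.ker φ) := by
    have h1 := LinearMap.finrank_range_add_finrank_ker φ
    have h2 : Module.finrank (ZMod p) (LinearMap.range φ) ≤ 1 := by
      refine (Submodule.finrank_le _).trans ?_
      rw [Module.finrank_self]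
    rw [Module.finrank_fintype_fun_eq_card, Fintype.card_fin] at h1
    omega
  let μ : Fin u → LinearMap.ker φ := fun j =>
    Module.finBasis (ZMod p) (LinearMap.ker φ) (Fin.castLE hKdim j)
  have hμ : LinearIndependent (ZMod p) μ :=
    (Module.finBasis (ZMod p) (LinearMap.ker φ)).linearIndependent.comp _
      (Fin.castLE_injective hKdim)
  let μ' : Fin u → (Fin (u + 1) → ZMod p) := fun j => (μ j : Fin (u + 1) → ZMod p)
  have hμ' : LinearIndependent (ZMod p) μ' :=
    hμ.map' (LinearMap.ker φ).subtype (Submodule.ker_subtype _)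
  have hμφ : ∀ j, ∑ i, f i * μ' j i = 0 := fun j => by
    rw [← hφ]
    exact (μ j).2
  let S : Fin u → (κ → J → ZMod p) := fun j => ∑ i, μ' j i • T' i
  have hSC : ∀ j, S j ∈ C := fun j =>
    Submodule.sum_mem _ fun i _ => Submodule.smul_mem _ _ (hT'C i)
  have hSΛ : ∀ j, Λ (S j) = 0 := fun j => by
    simp only [S, map_sum, map_smul, hT'Λ, smul_zero, Finset.sum_const_zero]
  let b' : Cov c × α → Fin u → ZMod p := fun e j => form c b (S j) e
  have hb'F : ∀ e j, b' e j = ∑ i, μ' j i * F e i := by
    intro e j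
    simp only [b', S, map_sum, map_smul, Finset.sum_apply, Pi.smul_apply, smul_eq_mul, F]
  refine ⟨b', E.filter fun e => F e ≠ f, ?_, ?_, ?_, ?_⟩
  · intro r hr y
    funext j
    rw [av_apply]
    refine closed_form R c b hb A hA (S j) (fun q hq => ?_) r hr y
    have := congrFun (hSΛ j) ⟨q, hq⟩
    rwa [hΛ] at this
  · refine onto_of_indep _ _ fun l hl => ?_
    have hsum : (fun e => ∑ j, l j * b' e j) = form c b (∑ j, l j • S j) := by
      funext e
      simp only [b', map_sum, map_smul, Finset.sum_apply, Pi.smul_apply, smul_eq_mul]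
    rw [hsum] at hl
    have h1 : (∑ j, l j • S j) ∈ Triv c b x₀ := hl
    have h2 : (∑ j, l j • S j) ∈ C :=
      Submodule.sum_mem _ fun j _ => Submodule.smul_mem _ _ (hSC j)
    have h3 : (∑ j, l j • S j) = 0 := Submodule.disjoint_def.1 hC.disjoint _ h1 h2
    have h4 : ∑ i, (∑ j, l j * μ' j i) • T' i = 0 := by
      rw [← h3]
      simp only [S, Finset.smul_sum, smul_smul, Finset.sum_smul]
      exact Finset.sum_comm
    have h5 := (Fintype.linearIndependent_iff.1 hT') _ h4
    have h6 : ∑ j, l j • μ' j = 0 := by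
      funext i
      simpa using h5 i
    have h7 := (Fintype.linearIndependent_iff.1 hμ') _ h6
    exact funext h7
  · intro e he
    funext j
    by_cases heE : (e.1.base, e.2) ∈ A
    · have h1 : F e = f := by
        by_contra h
        exact he (Finset.mem_filter.2 ⟨Finset.mem_filter.2 ⟨Finset.mem_univ _, heE⟩, h⟩)
      rw [hb'F, h1]
      have := hμφ j
      simp only [Pi.zero_apply]
      rw [← this]
      exact Finset.sum_congr rfl fun i _ => mul_comm _ _
    · change form c b (S j) e = 0
      rw [form_apply, hA _ heE, map_zero]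
  · have h1 : (E.filter fun e => F e = f).card + (E.filter fun e => F e ≠ f).card = E.card :=
      Finset.card_filter_add_card_filter_not _
    rw [← hE]
    calc p ^ (u + 1) * (E.filter fun e => F e ≠ f).card + E.card
        ≤ p ^ (u + 1) * (E.filter fun e => F e ≠ f).card +
          p ^ (u + 1) * (E.filter fun e => F e = f).card := by gcongr
      _ = p ^ (u + 1) * ((E.filter fun e => F e = f).card +
          (E.filter fun e => F e ≠ f).card) := by ring
      _ = p ^ (u + 1) * E.card := by rw [h1]

end step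

end Vale.Agent.P192.H121
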