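import Vale.Agent.P192.H121.Groups

/-!
# P192: supports of cocycles on finite sets, and infinite p-groups with power relators
-/

namespace Vale.Agent.P192.H121

open Monoid Filter

section supports

variable {G : Type*} [Group G] {X : Type*} [MulAction G X] {A : Type*} [Group A]

/-- `c` is a cocycle on the `G`-set `X` with values in `A`. -/
def IsCoc (c : G → X → A) : Prop := ∀ g h x, c (g * h) x = c g (h • x) * c h x

theorem IsCoc.one {c : G → X → A} (hc : IsCoc c) (x : X) : c 1 x = 1 := by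
  have := hc 1 1 x
  rw [mul_one, one_smul] at this
  exact left_eq_mul.1 this

theorem ncard_mul [Finite X] {c : G → X → A} (hc : IsCoc c) (g h : G) :
    {x | c (g * h) x ≠ 1}.ncard ≤ {x | c g x ≠ 1}.ncard + {x | c h x ≠ 1}.ncard := by
  have h1 : {x | c (g * h) x ≠ 1} ⊆ (fun x => h • x) ⁻¹' {x | c g x ≠ 1} ∪ {x | c h x ≠ 1} := by
    intro x hx
    by_contra h2
    simp only [Set.mem_union, Set.mem_preimage, Set.mem_ofPred_eq, not_or, not_not] at h2
    apply hx
    rw [hc, h2.1, h2.2, one_mul]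
  have h3 : ((fun x => h • x) ⁻¹' {x | c g x ≠ 1}).ncard = {x | c g x ≠ 1}.ncard :=
    Set.ncard_preimage_of_injective_subset_range (MulAction.injective h)
      (by rw [(MulAction.surjective h).range_eq]; exact Set.subset_univ _)
  calc _ ≤ _ := Set.ncard_le_ncard h1 (Set.toFinite _)
    _ ≤ _ := Set.ncard_union_le _ _
    _ = _ := by rw [h3]

theorem ncard_inv [Finite X] {c : G → X → A} (hc : IsCoc c) (g : G) :
    {x | c g⁻¹ x ≠ 1}.ncard = {x | c g x ≠ 1}.ncard := by
  have h1 : ∀ x, c g⁻¹ x = (c g (g⁻¹ • x))⁻¹ := by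
    intro x
    have := hc g g⁻¹ x
    rw [mul_inv_cancel, hc.one] at this
    exact eq_inv_of_mul_eq_one_right this.symm
  have h2 : {x | c g⁻¹ x ≠ 1} = (fun x => g⁻¹ • x) ⁻¹' {x | c g x ≠ 1} := by
    ext x
    simp [h1]
  rw [h2]
  exact Set.ncard_preimage_of_injective_subset_range (MulAction.injective _)
    (by rw [(MulAction.surjective _).range_eq]; exact Set.subset_univ _)

end supports

/-- the length bound for supports -/
theorem exists_length {G : Type*} [Group G] (S : Set G) (hS : Subgroup.closure S = ⊤) (g : G) :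
    ∃ l : ℕ, ∀ (X : Type*) [MulAction G X] [Finite X] (A : Type*) [Group A] (c : G → X → A),
      IsCoc c → ∀ N : ℕ, (∀ s ∈ S, {x | c s x ≠ 1}.ncard ≤ N) →
        {x | c g x ≠ 1}.ncard ≤ l * N := by
  have hg : g ∈ Subgroup.closure S := by rw [hS]; trivial
  induction hg using Subgroup.closure_induction with
  | mem s hs => exact ⟨1, fun X _ _ A _ c _ N h => by rw [one_mul]; exact h s hs⟩
  | one => exact ⟨0, fun X _ _ A _ c hc N _ => by simp [hc.one]⟩
  | mul g h _ _ ih1 ih2 =>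
    obtain ⟨l1, h1⟩ := ih1
    obtain ⟨l2, h2⟩ := ih2
    refine ⟨l1 + l2, fun X _ _ A _ c hc N hN => (ncard_mul hc g h).trans ?_⟩
    rw [add_mul]
    exact add_le_add (h1 X A c hc N hN) (h2 X A c hc N hN)
  | inv g _ ih =>
    obtain ⟨l, h⟩ := ih
    exact ⟨l, fun X _ _ A _ c hc N hN => by rw [ncard_inv hc]; exact h X A c hc N hN⟩

/-- **Small supports.** -/
theorem support_bound (G : Type*) [Group G] [Group.IsFinitelyPresented G]
    (hG : ∀ g : G, IsOfFinOrder g) (S : Set G) (hS : Subgroup.closure S = ⊤) :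
    ∃ C : ℕ, ∀ (X : Type*) [MulAction G X] [Finite X] [MulAction.IsPretransitive G X] (x₀ : X)
      (A : Type*) [Group A] (c : G → X → A), IsCoc c →
      ∀ N : ℕ, (∀ s ∈ S, {x | c s x ≠ 1}.ncard ≤ N) →
      ∀ (p : ℕ) [Fact p.Prime] (m : ℕ)
        (l : MulAction.stabilizer G x₀ →* Multiplicative (Fin m → ZMod p)),
        Function.Surjective l → C * N < m → ∀ g : G, g • x₀ = x₀ → c g x₀ = 1 := by
  classical
  obtain ⟨n, φ, hφ, T, hTf, hTφ⟩ := (inferInstance : Group.IsFinitelyPresented G).out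
  obtain ⟨R, rfl⟩ := hTf.exists_finset_coe
  have hT : TorsRel (R : Set (FreeGroup (Fin n))) := by
    intro w
    obtain ⟨k, hk, hk1⟩ := isOfFinOrder_iff_pow_eq_one.1 (hG (φ w))
    refine ⟨k - 1, ?_⟩
    rw [Nat.sub_add_cancel hk, hTφ, MonoidHom.mem_ker, map_pow]
    exact hk1
  have hRφ : ∀ r ∈ R, φ r = 1 := by
    intro r hr
    have : r ∈ φ.ker := by
      rw [← hTφ]
      exact Subgroup.subset_normalClosure hr
    exact this
  choose len hlen using fun a : Fin n => exists_length S hS (φ (FreeGroup.of a))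
  refine ⟨(1 + rlen R * rlen R) * ∑ a, len a, ?_⟩
  intro X _ _ _ x₀ A _ c hc N hN p _ m l hl hm g hg
  letI : Fintype X := Fintype.ofFinite X
  letI : MulAction (FreeGroup (Fin n)) X := MulAction.compHom X φ
  have hsm : ∀ (w : FreeGroup (Fin n)) (x : X), w • x = φ w • x := fun _ _ => rfl
  have ht : ∀ x : X, ∃ w : FreeGroup (Fin n), w • x₀ = x := by
    intro x
    obtain ⟨g, hg⟩ := MulAction.exists_smul_eq G x₀ x
    obtain ⟨w, rfl⟩ := hφ g
    exact ⟨w, hg⟩
  let b : X → Fin n → A := fun x a => c (φ (FreeGroup.of a)) x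
  have hb : ∀ w x, c (φ w) x = cval b w x :=
    cval_unique b (fun w x => c (φ w) x) (fun _ _ => rfl)
      (fun v w x => by
        change c (φ (v * w)) x = c (φ v) (φ w • x) * c (φ w) x
        rw [map_mul, hc])
  let ψ : MulAction.stabilizer (FreeGroup (Fin n)) x₀ →* MulAction.stabilizer G x₀ :=
    { toFun := fun w => ⟨φ w, w.2⟩
      map_one' := Subtype.ext (map_one φ)
      map_mul' := fun v w => Subtype.ext (map_mul φ _ _) }
  obtain ⟨c', h1, h2⟩ := exists_coc x₀ ht (l.comp ψ)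
  have h3 : AClosed (R : Set (FreeGroup (Fin n))) c' := by
    intro r hr x
    obtain ⟨v, hv, hav⟩ := h2 r x (by rw [hsm, hRφ r hr, one_smul])
    rw [hav]
    have h4 : ψ ⟨v⁻¹ * r * v, hv⟩ = 1 := by
      apply Subtype.ext
      change φ (v⁻¹ * r * v) = 1
      rw [map_mul, map_mul, hRφ r hr, mul_one, ← map_mul, inv_mul_cancel, map_one]
    rw [MonoidHom.comp_apply, h4, map_one]
    rfl
  have h4 : Onto x₀ c' := by
    intro v
    obtain ⟨⟨g, hg⟩, hgv⟩ := hl (Multiplicative.ofAdd v)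
    obtain ⟨w, rfl⟩ := hφ g
    have h5 : w ∈ MulAction.stabilizer (FreeGroup (Fin n)) x₀ := hg
    refine ⟨w, h5, ?_⟩
    have h6 := h1 ⟨w, h5⟩
    change av c' w x₀ = _ at h6
    rw [h6]
    exact congrArg Multiplicative.toAdd hgv
  let E : Finset (X × Fin n) := Finset.univ.filter fun e => b e.1 e.2 ≠ 1
  have hE : E.card ≤ (∑ a, len a) * N := by
    have h5 : E ⊆ Finset.univ.biUnion fun a : Fin n =>
        (Finset.univ.filter fun x : X => b x a ≠ 1).image fun x => (x, a) := by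
      intro e he
      simp only [Finset.mem_biUnion, Finset.mem_univ, true_and, Finset.mem_image,
        Finset.mem_filter]
      exact ⟨e.2, e.1, (Finset.mem_filter.1 he).2, rfl⟩
    calc E.card ≤ _ := Finset.card_le_card h5
      _ ≤ ∑ a : Fin n, ((Finset.univ.filter fun x : X => b x a ≠ 1).image
            fun x => (x, a)).card := Finset.card_biUnion_le
      _ ≤ ∑ a : Fin n, len a * N := by
          refine Finset.sum_le_sum fun a _ => Finset.card_image_le.trans ?_
          have h6 := hlen a X A c hc N hN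
          rwa [Set.ncard_eq_toFinset_card', Set.toFinset_ofPred] at h6
      _ = (∑ a, len a) * N := by rw [Finset.sum_mul]
  obtain ⟨w, rfl⟩ := hφ g
  rw [hb]
  refine trivial_of_small hT (fun r hr x => by rw [hsm, hRφ r hr, one_smul]) x₀ c' h3 h4 b
    (fun r hr x => by rw [← hb, hRφ r hr, hc.one]) E
    (fun e he => by
      by_contra h
      exact he (Finset.mem_filter.2 ⟨Finset.mem_univ _, h⟩))
    (by
      rw [Fintype.card_fin]
      refine lt_of_le_of_lt ?_ hm
      rw [mul_assoc]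
      exact Nat.mul_le_mul_left _ hE) w hg

/-- Infinite `p`-groups given by power relators. -/
theorem exists_pgroup (p : ℕ) [Fact p.Prime] (α : Type) [Fintype α] (δ : ℝ) (hδ0 : 0 < δ)
    (hδ1 : δ < Fintype.card α - 1) :
    ∃ (s : ℕ → FreeGroup α) (e : ℕ → ℕ), (∀ J : Finset ℕ, ∑ i ∈ J, 1 / (p : ℝ) ^ e i ≤ δ) ∧
      IsPGroup p (PresentedGroup (Set.range fun i => s i ^ (p ^ e i))) ∧
      Infinite (PresentedGroup (Set.range fun i => s i ^ (p ^ e i))) := by
  have hp : p.Prime := Fact.out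
  have hp1 : (1 : ℝ) < p := by exact_mod_cast hp.one_lt
  have hp2 : (2 : ℝ) ≤ p := by exact_mod_cast hp.two_le
  obtain ⟨s, hs⟩ := exists_surjective_nat (FreeGroup α)
  obtain ⟨N, hN⟩ := exists_pow_lt_of_lt_one (show (0 : ℝ) < δ / 2 by positivity)
    (show (1 / (p : ℝ)) < 1 by rw [div_lt_one (by positivity)]; exact hp1)
  have hsum : ∀ J : Finset ℕ, ∑ i ∈ J, 1 / (p : ℝ) ^ (i + N) ≤ δ := by
    intro J
    have h1 : ∀ i : ℕ, 1 / (p : ℝ) ^ (i + N) ≤ (1 / p) ^ N * (1 / 2) ^ i := by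
      intro i
      rw [pow_add, ← one_div_mul_one_div, mul_comm, ← one_div_pow, ← one_div_pow]
      gcongr
    have h2 : ∑ i ∈ J, (1 / 2 : ℝ) ^ i ≤ 2 := by
      have h3 := summable_geometric_two.sum_le_tsum J (fun i _ => by positivity)
      rw [tsum_geometric_two] at h3
      exact h3
    calc ∑ i ∈ J, 1 / (p : ℝ) ^ (i + N) ≤ ∑ i ∈ J, (1 / (p : ℝ)) ^ N * (1 / 2) ^ i :=
          Finset.sum_le_sum fun i _ => h1 i
      _ = (1 / (p : ℝ)) ^ N * ∑ i ∈ J, (1 / 2 : ℝ) ^ i := by rw [Finset.mul_sum]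
      _ ≤ (1 / (p : ℝ)) ^ N * 2 := by gcongr
      _ ≤ δ := by linarith
  refine ⟨s, fun i => i + N, hsum, ?_, ?_⟩
  · intro x
    obtain ⟨w, rfl⟩ := PresentedGroup.mk_surjective _ x
    obtain ⟨i, rfl⟩ := hs w
    refine ⟨i + N, ?_⟩
    rw [← map_pow]
    exact PresentedGroup.mk_eq_one_iff.2 (Subgroup.subset_normalClosure ⟨i, rfl⟩)
  · by_contra hcon
    rw [not_infinite_iff_finite] at hcon
    obtain ⟨K', -, m, h3, h4⟩ := next_subgroup s (fun i => i + N) δ hsum ⊥ inferInstance
    rw [Subgroup.relIndex_bot_right] at h3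
    have h5 : m = 0 := by
      by_contra h6
      have h7 := Nat.one_lt_pow h6 hp.one_lt
      omega
    rw [h5] at h4
    have h6 : (0 : ℝ) ≤ (⊥ : Subgroup (PresentedGroup
      (Set.range fun i => s i ^ (p ^ (i + N))))).index := Nat.cast_nonneg _
    have h7 : (0 : ℝ) ≤ Fintype.card α - 1 - δ := by linarith
    have h8 := mul_nonneg h6 h7
    rw [Nat.cast_zero] at h4
    linarith

end Vale.Agent.P192.H121
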