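import Vale.Agent.P192.H121.Red

/-!
# P192: twisted Hahn series as matrices of Hahn series
-/

namespace Vale.Agent.P192.H121.NC

open Matrix Vale.Agent.P192 Vale.Agent.P192.H903

variable {Γ : Type} [AddCommGroup Γ] [LinearOrder Γ] [IsOrderedAddMonoid Γ] {L : Type} [Field L]

/-- a ring homomorphism applied to the coefficients -/
noncomputable def serMap (σ : L →+* L) : HahnSeries Γ L →+* HahnSeries Γ L where
  toFun x := x.map σ
  map_zero' := by ext; simp
  map_one' := HahnSeries.map_one (RingHom.toMonoidWithZeroHom σ)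
  map_add' x y := HahnSeries.map_add (σ : L →+ L)
  map_mul' x y := HahnSeries.map_mul (σ : L →ₙ+* L)

theorem coeff_serMap (σ : L →+* L) (x : HahnSeries Γ L) (k : Γ) :
    (serMap σ x).coeff k = σ (x.coeff k) := rfl

theorem coeff_mul_bot {x y : HahnSeries Γ L} {k l : Γ} (hx : ∀ i < k, x.coeff i = 0)
    (hy : ∀ j < l, y.coeff j = 0) : (x * y).coeff (k + l) = x.coeff k * y.coeff l := by
  rw [HahnSeries.coeff_mul]
  rw [Finset.sum_eq_single (k, l)]
  · rintro ⟨i, j⟩ hij hne
    rw [Finset.mem_antidiagonal] at hij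
    obtain ⟨h1, h2, h3⟩ := hij
    rw [HahnSeries.mem_support] at h1 h2
    simp only at h1 h2 h3
    have h4 : k ≤ i := by
      by_contra h
      exact h1 (hx i (not_le.mp h))
    have h5 : l ≤ j := by
      by_contra h
      exact h2 (hy j (not_le.mp h))
    have h6 : k = i := by
      by_contra h
      exact absurd h3.symm (add_lt_add_of_lt_of_le (lt_of_le_of_ne h4 h) h5).ne
    subst h6
    exact absurd (by rw [add_left_cancel h3]) hne
  · intro h
    rw [Finset.mem_antidiagonal] at h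
    by_contra hne
    refine h ⟨?_, ?_, rfl⟩
    · exact left_ne_zero_of_mul hne
    · exact right_ne_zero_of_mul hne

omit [IsOrderedAddMonoid Γ] in
/-- the least exponent in a finite family -/
theorem exists_min_exp {ι : Type} [Finite ι] (f : ι → HahnSeries Γ L) (hf : f ≠ 0) :
    ∃ k : Γ, (∀ i, ∀ j < k, (f i).coeff j = 0) ∧ ∃ i, (f i).coeff k ≠ 0 := by
  classical
  have _ := Fintype.ofFinite ι
  obtain ⟨i0, hi0⟩ := Function.ne_iff.mp hf
  obtain ⟨i, hi, hmin⟩ := Finset.exists_min_image (Finset.univ.filter fun i => f i ≠ 0)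
    (fun i => (f i).order) ⟨i0, by simpa using hi0⟩
  refine ⟨(f i).order, ?_, i, ?_⟩
  · intro j t ht
    by_cases hj : f j = 0
    · rw [hj, HahnSeries.coeff_zero]
    · have := hmin j (by simpa using hj)
      exact HahnSeries.coeff_eq_zero_of_lt_order (lt_of_lt_of_le ht this)
  · rw [← HahnSeries.leadingCoeff_eq]
    exact HahnSeries.leadingCoeff_ne_zero.mpr (by simpa using hi)

variable {Λ : Type} [AddCommGroup Λ] [Fintype Λ] [DecidableEq Λ] (θ : Γ →+ Λ)

/-- the two conditions -/
def IsTw (σ : Λ → L →+* L) (x : Matrix Λ Λ (HahnSeries Γ L)) : Prop :=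
  (∀ c, x.submatrix (Equiv.addRight c) (Equiv.addRight c) = (serMap (σ c)).mapMatrix x) ∧
    ∀ a b k, (x a b).coeff k ≠ 0 → θ k = a - b

variable {θ}

theorem IsTw.shift {σ : Λ → L →+* L} {x : Matrix Λ Λ (HahnSeries Γ L)} (hx : IsTw θ σ x)
    (a b c : Λ) (k : Γ) : (x (a + c) (b + c)).coeff k = σ c ((x a b).coeff k) := by
  have h := congrFun (congrFun (hx.1 c) a) b
  exact congrArg (fun y : HahnSeries Γ L => y.coeff k) h

/-- Nonzero twisted series act without kernel. -/
theorem IsTw.mulVec_ne_zero {σ : Λ → L →+* L} {x : Matrix Λ Λ (HahnSeries Γ L)}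
    (hx : IsTw θ σ x) (hx0 : x ≠ 0) (v : Λ → HahnSeries Γ L) (hv : v ≠ 0) : x *ᵥ v ≠ 0 := by
  obtain ⟨k, hk1, ⟨a0, b0⟩, hk2⟩ := exists_min_exp (fun ab : Λ × Λ => x ab.1 ab.2) (by
    intro h
    apply hx0
    ext1 a b
    exact congrFun h (a, b))
  obtain ⟨l, hl1, c, hl2⟩ := exists_min_exp v hv
  have h1 : (x (θ k + c) c).coeff k ≠ 0 := by
    have h2 : (x (a0 + (c - b0)) (b0 + (c - b0))).coeff k ≠ 0 := by
      rw [hx.shift]
      exact (map_ne_zero (σ (c - b0))).mpr hk2
    have h3 := hx.2 a0 b0 k hk2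
    rwa [show a0 + (c - b0) = θ k + c by rw [h3]; abel, add_sub_cancel] at h2
  intro h
  have h2 := congrArg (fun y : HahnSeries Γ L => y.coeff (k + l)) (congrFun h (θ k + c))
  simp only [Matrix.mulVec, dotProduct, Pi.zero_apply, HahnSeries.coeff_zero,
    HahnSeries.coeff_sum] at h2
  rw [Finset.sum_eq_single c] at h2
  · rw [coeff_mul_bot (fun i hi => hk1 (_, _) i hi) (hl1 c)] at h2
    exact mul_ne_zero h1 hl2 h2
  · intro b _ hb
    rw [coeff_mul_bot (fun i hi => hk1 (_, _) i hi) (hl1 b)]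
    by_contra hne
    have h3 : θ k = (θ k + c) - b := hx.2 _ _ _ (left_ne_zero_of_mul hne)
    rw [add_sub_assoc] at h3
    exact hb (sub_eq_zero.mp (left_eq_add.mp h3)).symm
  · intro h
    exact absurd (Finset.mem_univ c) h

theorem IsTw.isUnit {σ : Λ → L →+* L} {x : Matrix Λ Λ (HahnSeries Γ L)}
    (hx : IsTw θ σ x) (hx0 : x ≠ 0) : IsUnit x := by
  rw [Matrix.isUnit_iff_isUnit_det, isUnit_iff_ne_zero]
  intro h
  obtain ⟨v, hv, hv0⟩ := Matrix.exists_mulVec_eq_zero_iff.mpr h
  exact hx.mulVec_ne_zero hx0 v hv hv0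

variable (θ)

/-- the part of a Hahn series with exponents in a class -/
noncomputable def part (d : Λ) (x : HahnSeries Γ L) : HahnSeries Γ L where
  coeff k := if θ k = d then x.coeff k else 0
  isPWO_support' := x.isPWO_support.mono fun k hk => by
    rw [Function.mem_support] at hk
    exact fun h => hk (by rw [h, ite_self])

omit [IsOrderedAddMonoid Γ] [Fintype Λ] in
theorem coeff_part (d : Λ) (x : HahnSeries Γ L) (k : Γ) :
    (part θ d x).coeff k = if θ k = d then x.coeff k else 0 := rfl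

omit [IsOrderedAddMonoid Γ] [Fintype Λ] in
theorem part_eq_iff (d : Λ) (x : HahnSeries Γ L) :
    part θ d x = x ↔ ∀ k, x.coeff k ≠ 0 → θ k = d := by
  constructor
  · intro h k hk
    by_contra hne
    rw [← h, coeff_part, if_neg hne] at hk
    exact hk rfl
  · intro h
    ext k
    rw [coeff_part]
    split_ifs with hk
    · rfl
    · by_contra hne
      exact hk (h k (Ne.symm hne))

omit [IsOrderedAddMonoid Γ] [Fintype Λ] in
theorem part_sum (d : Λ) {ι : Type} (s : Finset ι) (f : ι → HahnSeries Γ L) :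
    part θ d (∑ i ∈ s, f i) = ∑ i ∈ s, part θ d (f i) := by
  ext k
  rw [coeff_part, HahnSeries.coeff_sum, HahnSeries.coeff_sum]
  simp only [coeff_part]
  split_ifs
  · rfl
  · rw [Finset.sum_const_zero]

omit [Fintype Λ] in
theorem mul_part {x : HahnSeries Γ L} {a : Λ} (hx : part θ a x = x) (y : HahnSeries Γ L)
    (d : Λ) : part θ (a + d) (x * y) = x * part θ d y := by
  rw [part_eq_iff] at hx
  ext k
  rw [coeff_part, HahnSeries.coeff_mul, HahnSeries.coeff_mul_right' (y := part θ d y)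
    y.isPWO_support (fun j hj => by
      rw [HahnSeries.mem_support, coeff_part] at hj
      exact fun h => hj (by rw [h, ite_self]))]
  have h1 : ∀ ij ∈ Finset.antidiagonal x.isPWO_support y.isPWO_support k,
      θ ij.1 = a ∧ ij.1 + ij.2 = k := by
    intro ij hij
    rw [Finset.mem_antidiagonal] at hij
    exact ⟨hx _ hij.1, hij.2.2⟩
  split_ifs with hk
  · refine Finset.sum_congr rfl fun ij hij => ?_
    obtain ⟨h2, h3⟩ := h1 ij hij
    rw [coeff_part, if_pos]
    rw [← h3, map_add, h2] at hk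
    exact add_left_cancel hk
  · symm
    refine Finset.sum_eq_zero fun ij hij => ?_
    obtain ⟨h2, h3⟩ := h1 ij hij
    rw [coeff_part, if_neg, mul_zero]
    intro h4
    exact hk (by rw [← h3, map_add, h2, h4])

omit [IsOrderedAddMonoid Γ] [Fintype Λ] in
theorem part_one_apply (a b : Λ) :
    part θ (a - b) ((1 : Matrix Λ Λ (HahnSeries Γ L)) a b) =
      (1 : Matrix Λ Λ (HahnSeries Γ L)) a b := by
  rw [part_eq_iff]
  intro k hk
  rw [Matrix.one_apply] at hk
  split_ifs at hk with h
  · rw [HahnSeries.coeff_one] at hk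
    split_ifs at hk with h2
    · rw [h, sub_self, h2, map_zero]
    · exact absurd rfl hk
  · rw [HahnSeries.coeff_zero] at hk
    exact absurd rfl hk

theorem part_mul_apply {x : Matrix Λ Λ (HahnSeries Γ L)}
    (hx : ∀ a b, part θ (a - b) (x a b) = x a b) (y : Matrix Λ Λ (HahnSeries Γ L)) (a b : Λ) :
    part θ (a - b) ((x * y) a b) = (x * Matrix.of fun c d => part θ (c - d) (y c d)) a b := by
  rw [Matrix.mul_apply, Matrix.mul_apply, part_sum]
  refine Finset.sum_congr rfl fun c _ => ?_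
  have h := mul_part θ (hx a c) (y c b) (c - b)
  rwa [sub_add_sub_cancel] at h

/-- twisted Hahn series, as matrices -/
noncomputable def Tw (σ : Λ → L →+* L) : Subring (Matrix Λ Λ (HahnSeries Γ L)) where
  carrier := {x | (∀ c, x.submatrix (Equiv.addRight c) (Equiv.addRight c) =
    (serMap (σ c)).mapMatrix x) ∧ ∀ a b, part θ (a - b) (x a b) = x a b}
  mul_mem' := by
    rintro x y ⟨hx1, hx2⟩ ⟨hy1, hy2⟩
    refine ⟨?_, ?_⟩
    · intro c
      rw [map_mul, ← hx1, ← hy1, Matrix.submatrix_mul_equiv]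
    · intro a b
      rw [part_mul_apply θ hx2]
      have : (Matrix.of fun c d => part θ (c - d) (y c d)) = y := by
        ext1 c d
        exact hy2 c d
      rw [this]
  one_mem' := by
    refine ⟨fun c => ?_, part_one_apply θ⟩
    rw [map_one, Matrix.submatrix_one_equiv]
  add_mem' := by
    rintro x y ⟨hx1, hx2⟩ ⟨hy1, hy2⟩
    refine ⟨?_, ?_⟩
    · intro c
      rw [map_add, ← hx1, ← hy1, Matrix.submatrix_add]; rfl
    · intro a b
      have h1 := (part_eq_iff θ _ _).mp (hx2 a b)
      have h2 := (part_eq_iff θ _ _).mp (hy2 a b)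
      rw [part_eq_iff, Matrix.add_apply]
      intro k hk
      rw [HahnSeries.coeff_add] at hk
      by_cases h3 : (x a b).coeff k = 0
      · rw [h3, zero_add] at hk
        exact h2 k hk
      · exact h1 k h3
  zero_mem' := by
    refine ⟨?_, ?_⟩
    · intro c
      rw [map_zero]; rfl
    · intro a b
      rw [part_eq_iff, Matrix.zero_apply]
      intro k hk
      exact absurd HahnSeries.coeff_zero hk
  neg_mem' := by
    rintro x ⟨hx1, hx2⟩
    refine ⟨?_, ?_⟩
    · intro c
      rw [map_neg, ← hx1]; rfl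
    · intro a b
      have h1 := (part_eq_iff θ _ _).mp (hx2 a b)
      rw [part_eq_iff, Matrix.neg_apply]
      intro k hk
      rw [HahnSeries.coeff_neg, neg_ne_zero] at hk
      exact h1 k hk

variable {θ}

theorem mem_Tw {σ : Λ → L →+* L} {x : Matrix Λ Λ (HahnSeries Γ L)} :
    x ∈ Tw θ σ ↔ IsTw θ σ x := by
  refine and_congr Iff.rfl ?_
  exact forall_congr' fun a => forall_congr' fun b => part_eq_iff θ _ _

theorem Tw.inv_mem {σ : Λ → L →+* L} {x y : Matrix Λ Λ (HahnSeries Γ L)} (hx : x ∈ Tw θ σ)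
    (h1 : x * y = 1) (h2 : y * x = 1) : y ∈ Tw θ σ := by
  obtain ⟨hx1, hx2⟩ := hx
  refine ⟨?_, ?_⟩
  · intro c
    have h3 : (serMap (σ c)).mapMatrix y * (serMap (σ c)).mapMatrix x = 1 := by
      rw [← map_mul, h2, map_one]
    have h4 : x.submatrix (Equiv.addRight c) (Equiv.addRight c) *
        y.submatrix (Equiv.addRight c) (Equiv.addRight c) = 1 := by
      rw [Matrix.submatrix_mul_equiv, h1, Matrix.submatrix_one_equiv]
    rw [hx1] at h4
    exact (left_inv_eq_right_inv h3 h4).symm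
  · have h3 : (x * Matrix.of fun c d => part θ (c - d) (y c d)) = 1 := by
      ext1 a b
      rw [← part_mul_apply θ hx2, h1, part_one_apply]
    have h4 := left_inv_eq_right_inv h2 h3
    intro a b
    exact (congrFun (congrFun h4 a) b).symm

/-- **Twisted Hahn series form a division ring.** -/
noncomputable instance (σ : Λ → L →+* L) : DivisionRing (Tw θ σ) :=
  DivisionRing.ofIsUnitOrEqZero fun a => by
    by_cases ha : a = 0
    · exact Or.inr ha
    · refine Or.inl ?_
      obtain ⟨u, hu⟩ := (mem_Tw.mp a.2).isUnit (fun h => ha (Subtype.ext h))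
      have h1 : (a : Matrix Λ Λ (HahnSeries Γ L)) * (u⁻¹ : (Matrix Λ Λ (HahnSeries Γ L))ˣ)
          = 1 := by rw [← hu, Units.mul_inv]
      have h2 : ((u⁻¹ : (Matrix Λ Λ (HahnSeries Γ L))ˣ) : Matrix Λ Λ (HahnSeries Γ L)) *
          a = 1 := by rw [← hu, Units.inv_mul]
      refine ⟨⟨a, ⟨_, Tw.inv_mem a.2 h1 h2⟩, Subtype.ext h1, Subtype.ext h2⟩, rfl⟩

end Vale.Agent.P192.H121.NC
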