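import Vale.Agent.P192.H903.Ring

/-!
# P192: finite quotients of a finitely generated periodic group inside skew linear groups

A finitely generated periodic group has a subgroup of finite index contained in the kernel of
every homomorphism with finite image to `GL n D`, for all division rings `D` of positive
characteristic.
-/

namespace Vale.Agent.P192.H121.NC

open Matrix Vale.Agent.P192.H903

/-- `N` is contained in all kernels of linear representations of degree at most `n` over
commutative rings -/
def KillsLin (n : ℕ) {G : Type} [Group G] (N : Subgroup G) : Prop :=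
  ∀ k ≤ n, ∀ (F : Type) [CommRing F] (f : G →* GL (Fin k) F), N ≤ f.ker

theorem exists_kills_one {G : Type} [Group G] [Group.FG G] (hG : ∀ x : G, IsOfFinOrder x)
    (k : ℕ) : ∃ N : Subgroup G, N.FiniteIndex ∧
      ∀ (F : Type) [CommRing F] (f : G →* GL (Fin k) F), N ≤ f.ker := by
  classical
  let I := {M : Subgroup G // ∃ (F : Type) (_ : CommRing F) (f : G →* GL (Fin k) F), f.ker = M}
  choose F inst f hf using fun i : I => i.2
  let φ₀ : G →* Matrix (Fin k) (Fin k) (∀ i, F i) :=
    { toFun := fun g => Matrix.of fun a b i => (f i g : Matrix (Fin k) (Fin k) (F i)) a b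
      map_one' := by
        ext a b i
        simp only [map_one, Units.val_one, Matrix.of_apply, Matrix.one_apply]
        split_ifs <;> rfl
      map_mul' := fun g h => by
        ext a b i
        simp only [map_mul, Units.val_mul, Matrix.of_apply, Matrix.mul_apply, Finset.sum_apply,
          Pi.mul_apply] }
  let φ : G →* GL (Fin k) (∀ i, F i) := φ₀.toHomUnits
  have hfin : Finite φ.range := finite_of_fg_periodic hG φ
  refine ⟨φ.ker, finite_range_of_finite_ker φ hfin, ?_⟩
  intro F' _ f' g hg
  let i : I := ⟨f'.ker, F', inferInstance, f', rfl⟩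
  have h1 : g ∈ (f i).ker := by
    rw [MonoidHom.mem_ker] at hg ⊢
    refine Units.ext ?_
    ext a b
    have h2 : (φ g : Matrix (Fin k) (Fin k) (∀ i, F i)) = 1 := by rw [hg]; rfl
    have h3 := congrFun (congrFun (congrFun h2 a) b) i
    refine Eq.trans (show _ = _ from h3) ?_
    rw [Units.val_one, Matrix.one_apply, Matrix.one_apply]
    split_ifs <;> rfl
  rw [hf i] at h1
  exact h1

theorem exists_kills {G : Type} [Group G] [Group.FG G] (hG : ∀ x : G, IsOfFinOrder x)
    (n : ℕ) : ∃ N : Subgroup G, N.FiniteIndex ∧ KillsLin n N := by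
  choose N hN h using fun k : Fin (n + 1) => exists_kills_one hG (k : ℕ)
  refine ⟨⨅ k, N k, Subgroup.finiteIndex_iInf hN, ?_⟩
  intro k hk F _ f
  exact (iInf_le N ⟨k, by omega⟩).trans (h ⟨k, by omega⟩ F f)

/-- Orthogonal idempotents: matrix algebras inside the endomorphisms of a space of dimension
`m` have degree at most `m`. -/
theorem card_le_finrank {D : Type} [DivisionRing D] {V : Type} [AddCommGroup V] [Module D V]
    [Module.Finite D V] {ι : Type} [Fintype ι] (e : ι → Module.End D V)
    (h1 : ∀ i, e i * e i = e i) (h2 : ∀ i j, i ≠ j → e i * e j = 0) (h3 : ∀ i, e i ≠ 0) :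
    Fintype.card ι ≤ Module.finrank D V := by
  have h4 : ∀ i, ∃ v, e i v ≠ 0 := by
    intro i
    by_contra h
    push Not at h
    exact h3 i (LinearMap.ext h)
  choose v hv using h4
  have h5 : LinearIndependent D (fun i => e i (v i)) := by
    classical
    rw [Fintype.linearIndependent_iff]
    intro c hc i
    have h6 := congrArg (e i) hc
    rw [map_sum, map_zero, Finset.sum_eq_single i] at h6
    · rw [map_smul] at h6
      have h7 : e i (e i (v i)) = e i (v i) := by
        have := LinearMap.congr_fun (h1 i) (v i)
        exact this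
      rw [h7] at h6
      exact (smul_eq_zero.mp h6).resolve_right (hv i)
    · intro j _ hj
      rw [map_smul]
      have := LinearMap.congr_fun (h2 i j (Ne.symm hj)) (v j)
      have h8 : e i (e j (v j)) = 0 := this
      rw [h8, smul_zero]
    · intro h
      exact absurd (Finset.mem_univ i) h
  exact h5.fintype_card_le_finrank

/-- The semisimple case. -/
theorem semisimple_case {G : Type} [Group G] {n : ℕ} {N : Subgroup G} (hN : KillsLin n N)
    {D : Type} [DivisionRing D] {V : Type} [AddCommGroup V] [Module D V] [Module.Finite D V]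
    (hV : Module.finrank D V ≤ n) (R : Subring (Module.End D V)) [Finite R]
    [IsSemisimpleRing R] (ρ : G →* R) (g : G) (hg : g ∈ N) : ρ g = 1 := by
  obtain ⟨k, F, d, instF, hd, ⟨e⟩⟩ := IsSemisimpleRing.exists_ringEquiv_pi_matrix_divisionRing R
  refine e.injective ?_
  rw [map_one]
  funext i
  have hF : Finite (F i) := by
    refine Finite.of_surjective (fun x : R => e x i 0 0) ?_
    intro c
    refine ⟨e.symm (fun j => Matrix.of fun a b => if h : j = i then h ▸ c else 0), ?_⟩
    simp
  have hdi : d i ≤ n := by
    refine le_trans ?_ hV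
    have h1 := card_le_finrank (D := D) (V := V) (ι := Fin (d i))
      (fun a => ((e.symm (Pi.single i (Matrix.single a a 1)) : R) : Module.End D V)) ?_ ?_ ?_
    · rwa [Fintype.card_fin] at h1
    · intro a
      rw [← Subring.coe_mul, ← map_mul, ← Pi.single_mul, Matrix.single_mul_single_same, mul_one]
    · intro a b hab
      rw [← Subring.coe_mul, ← map_mul, ← Pi.single_mul, Matrix.single_mul_single_of_ne _ _ _ _ hab,
        Pi.single_zero, map_zero, Subring.coe_zero]
    · intro a h
      rw [← Subring.coe_zero, Subtype.coe_inj, map_eq_zero_iff e.symm e.symm.injective,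
        Pi.single_eq_zero_iff] at h
      have h2 := congrFun (congrFun h a) a
      rw [Matrix.single_apply_same] at h2
      exact one_ne_zero h2
  let _ : Field (F i) := littleWedderburn (F i)
  let f₀ : G →* Matrix (Fin (d i)) (Fin (d i)) (F i) :=
    ((Pi.evalMonoidHom (fun j => Matrix (Fin (d j)) (Fin (d j)) (F j)) i).comp
      (e : R →* _)).comp ρ
  have h1 := hN (d i) hdi (F i) f₀.toHomUnits hg
  rw [MonoidHom.mem_ker] at h1
  have h2 := congrArg Units.val h1
  exact h2

/-- the subring of the endomorphism ring generated by a representation -/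
abbrev gen {G : Type} [Group G] {D : Type} [DivisionRing D] {V : Type} [AddCommGroup V]
    [Module D V] (ρ : G →* Module.End D V) : Subring (Module.End D V) :=
  Subring.closure (Set.range ρ)

theorem finite_range_of_ker {G M : Type} [Group G] [Monoid M] (ρ : G →* M)
    [h : ρ.ker.FiniteIndex] : (Set.range ρ).Finite := by
  have h1 : Finite (G ⧸ ρ.ker) := inferInstance
  have h2 : Set.range ρ ⊆ Set.range (QuotientGroup.lift ρ.ker ρ le_rfl) := by
    rintro _ ⟨g, rfl⟩
    exact ⟨QuotientGroup.mk g, rfl⟩
  exact (Set.finite_range _).subset h2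

theorem finite_gen {G : Type} [Group G] {p : ℕ} (hp : 0 < p) {D : Type} [DivisionRing D]
    [CharP D p] {V : Type} [AddCommGroup V] [Module D V] (ρ : G →* Module.End D V)
    [ρ.ker.FiniteIndex] : Finite (gen ρ) := by
  have h1 := finite_range_of_ker ρ
  have h2 : Finite (AddSubgroup.closure (Set.range ρ)) := by
    have : AddGroup.FG (AddSubgroup.closure (Set.range ρ)) := by
      have : Finite (Set.range ρ) := h1
      exact AddGroup.closure_finite_fg _
    refine AddCommGroup.finite_of_fg_isAddTorsion _ ?_
    intro x
    rw [isOfFinAddOrder_iff_nsmul_eq_zero]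
    refine ⟨p, hp, ?_⟩
    refine Subtype.ext ?_
    rw [AddSubgroup.coe_nsmul, AddSubgroup.coe_zero]
    ext v
    rw [LinearMap.smul_apply, LinearMap.zero_apply, ← Nat.cast_smul_eq_nsmul D,
      CharP.cast_eq_zero, zero_smul]
  have h3 : ((gen ρ : Subring _) : Set (Module.End D V)) ⊆
      (AddSubgroup.closure (Set.range ρ) : Set (Module.End D V)) := by
    intro x hx
    have h4 := Subring.mem_closure_iff.mp hx
    have h5 : ((Submonoid.closure (Set.range ρ) : Submonoid (Module.End D V)) :
        Set (Module.End D V)) = Set.range ρ := by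
      rw [← MonoidHom.coe_mrange, Submonoid.closure_eq]
    rw [h5] at h4
    exact h4
  exact Set.Finite.subset h2 h3

theorem derivedSeries_skew {G : Type} [Group G] {n : ℕ} {N : Subgroup G} (hN : KillsLin n N)
    {p : ℕ} (hp : 0 < p) {D : Type} [DivisionRing D] [CharP D p] :
    ∀ m ≤ n, ∀ (V : Type) [AddCommGroup V] [Module D V] [Module.Finite D V],
      Module.finrank D V ≤ m → ∀ (ρ : G →* Module.End D V), ρ.ker.FiniteIndex →
      ∀ g ∈ derivedSeries N m, ρ g = 1 := by
  intro m
  induction m with
  | zero =>
    intro _ V _ _ _ hV ρ _ g _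
    have : Subsingleton V := Module.finrank_zero_iff.mp (Nat.le_zero.mp hV)
    ext v
    exact Subsingleton.elim _ _
  | succ m ih =>
    intro hm V _ _ _ hV ρ hker g hg
    have hfin : Finite (gen ρ) := finite_gen hp ρ
    let ρ' : G →* gen ρ := ρ.codRestrict (gen ρ) fun g => Subring.subset_closure ⟨g, rfl⟩
    have hart : IsArtinianRing (gen ρ) := inferInstance
    by_cases hJ : Ring.jacobson (gen ρ) = ⊥
    · have hss : IsSemisimpleRing (gen ρ) := IsArtinianRing.isSemisimpleRing_iff_jacobson.mpr hJ
      have h1 := semisimple_case hN (hV.trans hm) (gen ρ) ρ' g g.2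
      exact congrArg Subtype.val h1
    · -- the kernel of the radical
      let W : Submodule D V := ⨅ r : Ring.jacobson (gen ρ),
        LinearMap.ker ((r : gen ρ) : Module.End D V)
      have hWmem : ∀ v, v ∈ W ↔ ∀ r ∈ Ring.jacobson (gen ρ), (r : Module.End D V) v = 0 := by
        intro v
        simp only [W, Submodule.mem_iInf, LinearMap.mem_ker, Subtype.forall]
      have hWtop : W ≠ ⊤ := by
        intro h
        apply hJ
        rw [eq_bot_iff]
        intro r hr
        rw [Ideal.mem_bot]
        refine Subtype.ext ?_
        ext v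
        have h1 : v ∈ W := by rw [h]; exact Submodule.mem_top
        exact (hWmem v).mp h1 r hr
      have hWbot : W ≠ ⊥ := by
        have hnil : IsNilpotent (Ring.jacobson (gen ρ)) := IsSemiprimaryRing.isNilpotent
        classical
        obtain ⟨k, hk⟩ : ∃ k, Ring.jacobson (gen ρ) ^ k ≠ ⊥ ∧
            Ring.jacobson (gen ρ) ^ (k + 1) = ⊥ := by
          have h0 : Nat.find hnil ≠ 0 := by
            intro h
            have h1 := Nat.find_spec hnil
            rw [h, Submodule.pow_zero, Ideal.zero_eq_bot, Ideal.one_eq_top] at h1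
            exact hJ (eq_bot_iff.mpr (h1 ▸ le_top))
          obtain ⟨k, hk⟩ := Nat.exists_eq_succ_of_ne_zero h0
          refine ⟨k, ?_, ?_⟩
          · exact Nat.find_min hnil (m := k) (by omega)
          · have h1 := Nat.find_spec hnil
            rw [hk] at h1
            exact h1
        obtain ⟨hk1, hk2⟩ := hk
        obtain ⟨r, hr, hr0⟩ := Submodule.exists_mem_ne_zero_of_ne_bot hk1
        have h1 : ∃ v, (r : Module.End D V) v ≠ 0 := by
          by_contra h
          push Not at h
          exact hr0 (Subtype.ext (LinearMap.ext h))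
        obtain ⟨v, hv⟩ := h1
        intro h
        have h2 : (r : Module.End D V) v ∈ W := by
          rw [hWmem]
          intro s hs
          have h3 : s * r ∈ Ring.jacobson (gen ρ) ^ (k + 1) := by
            rw [Ideal.IsTwoSided.pow_succ]
            exact Ideal.mul_mem_mul hs hr
          rw [hk2, Ideal.mem_bot] at h3
          have h4 : (s : Module.End D V) * (r : Module.End D V) = 0 := by
            rw [← Subring.coe_mul, h3, Subring.coe_zero]
          exact LinearMap.congr_fun h4 v
        rw [h, Submodule.mem_bot] at h2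
        exact hv h2
      have hinv : ∀ g, ∀ v ∈ W, ρ g v ∈ W := by
        intro g v hv
        rw [hWmem] at hv ⊢
        intro r hr
        have h1 : r * ρ' g ∈ Ring.jacobson (gen ρ) := Ideal.mul_mem_right _ _ hr
        exact hv _ h1
      let ρW : G →* Module.End D W :=
        { toFun := fun g => (ρ g).restrict (hinv g)
          map_one' := by
            ext x
            simp
          map_mul' := fun g h => by
            ext x
            simp }
      let ρQ : G →* Module.End D (V ⧸ W) :=
        { toFun := fun g => W.mapQ W (ρ g) (hinv g)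
          map_one' := by
            ext x
            simp
          map_mul' := fun g h => by
            ext x
            simp }
      have hdim := Submodule.finrank_quotient_add_finrank W
      have hW1 : 0 < Module.finrank D W := by
        have : Nontrivial W := Submodule.nontrivial_iff_ne_bot.mpr hWbot
        exact Module.finrank_pos
      have hW2 : 0 < Module.finrank D (V ⧸ W) := by
        have : Nontrivial (V ⧸ W) := Submodule.Quotient.nontrivial_iff.mpr hWtop
        exact Module.finrank_pos
      have kW : ρ.ker ≤ ρW.ker := by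
        intro x hx
        rw [MonoidHom.mem_ker] at hx ⊢
        ext v
        change ρ x v = v
        rw [hx]; rfl
      have kQ : ρ.ker ≤ ρQ.ker := by
        intro x hx
        rw [MonoidHom.mem_ker] at hx ⊢
        ext v
        change W.mkQ (ρ x v) = W.mkQ v
        rw [hx]; rfl
      have hW3 := ih (by omega) W (by omega) ρW (Subgroup.finiteIndex_of_le kW)
      have hQ3 := ih (by omega) (V ⧸ W) (by omega) ρQ (Subgroup.finiteIndex_of_le kQ)
      have fixW : ∀ g ∈ derivedSeries N m, ∀ v ∈ W, ρ g v = v := by
        intro g hg v hv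
        have h1 := LinearMap.congr_fun (hW3 g hg) ⟨v, hv⟩
        exact congrArg Subtype.val h1
      have fixQ : ∀ g ∈ derivedSeries N m, ∀ v, ρ g v - v ∈ W := by
        intro g hg v
        have h2 := LinearMap.congr_fun (hQ3 g hg) (W.mkQ v)
        have h3 : W.mkQ (ρ g v) = W.mkQ v := h2
        rw [← Submodule.ker_mkQ W, LinearMap.mem_ker, map_sub, h3, sub_self]
      have hcomm : ∀ g ∈ derivedSeries N m, ∀ h ∈ derivedSeries N m,
          ρ (g * h : N) = ρ (h * g : N) := by
        intro g hg h hh
        ext v
        have h1 : ρ g (ρ h v - v) = ρ h v - v := fixW g hg _ (fixQ h hh v)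
        have h2 : ρ h (ρ g v - v) = ρ g v - v := fixW h hh _ (fixQ g hg v)
        rw [map_sub, sub_eq_iff_eq_add] at h1 h2
        rw [Subgroup.coe_mul, Subgroup.coe_mul, map_mul, map_mul]
        change ρ g (ρ h v) = ρ h (ρ g v)
        rw [h1, h2]
        abel
      have hle : derivedSeries N (m + 1) ≤ (ρ.comp N.subtype).ker := by
        rw [derivedSeries_succ, Subgroup.commutator_le]
        intro g hg h hh
        rw [MonoidHom.mem_ker, commutatorElement_def]
        have : g * h * g⁻¹ * h⁻¹ = g * h * (h * g)⁻¹ := by group
        rw [this, map_mul]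
        have h3 : (ρ.comp N.subtype) (g * h) = (ρ.comp N.subtype) (h * g) := hcomm g hg h hh
        rw [h3, ← map_mul, mul_inv_cancel, map_one]
      exact hle hg

/-- A finitely generated periodic group has a subgroup of finite index which is contained in the
kernels of all homomorphisms with finite images to `GL n D`, `D` a division ring of positive
characteristic. -/
theorem exists_uniform {G : Type} [Group G] [Group.FG G] (hG : ∀ x : G, IsOfFinOrder x)
    (n : ℕ) : ∃ M : Subgroup G, M.FiniteIndex ∧
      ∀ (p : ℕ), 0 < p → ∀ (D : Type) [DivisionRing D] [CharP D p]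
        (f : G →* (Matrix (Fin n) (Fin n) D)ˣ), f.ker.FiniteIndex → M ≤ f.ker := by
  obtain ⟨N, hN, hk⟩ := exists_kills hG n
  have hN' : ∀ x : N, IsOfFinOrder x := fun x => by
    rw [← Submonoid.isOfFinOrder_coe]
    exact hG _
  refine ⟨(derivedSeries N n).map N.subtype, ⟨?_⟩, ?_⟩
  · rw [Subgroup.index_map]
    simp only [Subgroup.ker_subtype, sup_bot_eq, Subgroup.range_subtype]
    exact Nat.mul_ne_zero (index_derivedSeries hN' n) hN.index_ne_zero
  · intro p hp D _ _ f hf
    let ρ : G →* Module.End D (Fin n → D) :=
      { toFun := fun g => Matrix.vecMulLinear (((f g)⁻¹ : (Matrix (Fin n) (Fin n) D)ˣ) :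
          Matrix (Fin n) (Fin n) D)
        map_one' := by
          ext v
          simp
        map_mul' := fun g h => by
          refine LinearMap.ext fun v => ?_
          change v ᵥ* (((f (g * h))⁻¹ : (Matrix (Fin n) (Fin n) D)ˣ) : Matrix (Fin n) (Fin n) D) =
            (v ᵥ* (((f h)⁻¹ : (Matrix (Fin n) (Fin n) D)ˣ) : Matrix (Fin n) (Fin n) D)) ᵥ*
              (((f g)⁻¹ : (Matrix (Fin n) (Fin n) D)ˣ) : Matrix (Fin n) (Fin n) D)
          rw [Matrix.vecMul_vecMul, ← Units.val_mul, ← _root_.mul_inv_rev, map_mul] }
    have hρ : ∀ g, ρ g = 1 → f g = 1 := by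
      intro g hg
      have h1 : (((f g)⁻¹ : (Matrix (Fin n) (Fin n) D)ˣ) : Matrix (Fin n) (Fin n) D) = 1 := by
        ext i j
        have h2 := congrFun (LinearMap.congr_fun hg (Pi.single i 1)) j
        have h3 : (Pi.single i 1 ᵥ* (((f g)⁻¹ : (Matrix (Fin n) (Fin n) D)ˣ) :
          Matrix (Fin n) (Fin n) D)) j = (Pi.single i 1 : Fin n → D) j := h2
        rw [Matrix.single_one_vecMul] at h3
        rw [Matrix.one_apply]
        refine Eq.trans (show _ = _ from h3) ?_
        rw [Pi.single_apply]
        simp only [eq_comm]
      exact inv_eq_one.mp (Units.ext h1)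
    have hle : f.ker ≤ ρ.ker := by
      intro g hg
      rw [MonoidHom.mem_ker] at hg ⊢
      ext v
      simp [ρ, hg]
    have hfi := Subgroup.finiteIndex_of_le hle
    rintro _ ⟨g, hg, rfl⟩
    rw [MonoidHom.mem_ker]
    refine hρ _ ?_
    refine derivedSeries_skew hk hp n le_rfl (Fin n → D) ?_ ρ hfi g hg
    simp

end Vale.Agent.P192.H121.NC
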