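import Vale.Agent.P192.H121.Tw

/-!
# P192: algebras of direct products of free monoids inside products of division rings
-/

namespace Vale.Agent.P192.H121.NC

open Matrix

section lists

variable {L X : Type} [Field L] {ℓ : ℕ}

/-- the monomial of a word -/
def monL (t : X → ZMod ℓ → L) : List X → ZMod ℓ → L
  | [], _ => 1
  | x :: w, b => t x (b + w.length) * monL t w b

theorem monL_append (t : X → ZMod ℓ → L) (w w' : List X) (b : ZMod ℓ) :
    monL t (w ++ w') b = monL t w (b + w'.length) * monL t w' b := by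
  induction w with
  | nil => rw [List.nil_append, monL, one_mul]
  | cons x w ih =>
    rw [List.cons_append, monL, ih, monL, List.length_append, Nat.cast_add, mul_assoc,
      show b + ((w.length : ZMod ℓ) + (w'.length : ZMod ℓ)) = b + w'.length + w.length by ring]

theorem map_monL (t : X → ZMod ℓ → L) (σ : L →+* L) (c : ZMod ℓ)
    (ht : ∀ x j, σ (t x j) = t x (j + c)) (w : List X) (b : ZMod ℓ) :
    σ (monL t w b) = monL t w (b + c) := by
  induction w with
  | nil => rw [monL, monL, map_one]
  | cons x w ih =>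
    rw [monL, monL, map_mul, ih, ht, add_right_comm]

end lists

variable {m : ℕ} {X : Fin m → Type} {ℓ : ℕ}

/-- exponents -/
abbrev Ex (m : ℕ) : Type := Lex (Fin m → ℤ)

/-- reduction of the exponents -/
def red (m ℓ : ℕ) : Ex m →+ (Fin m → ZMod ℓ) where
  toFun k := fun i => ((ofLex k i : ℤ) : ZMod ℓ)
  map_zero' := by
    funext i
    exact Int.cast_zero
  map_add' k k' := by
    funext i
    exact Int.cast_add _ _

/-- lengths -/
def len (w : ∀ i, FreeMonoid (X i)) : Ex m :=
  toLex fun i => ((FreeMonoid.toList (w i)).length : ℤ)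

theorem red_len (w : ∀ i, FreeMonoid (X i)) (i : Fin m) :
    red m ℓ (len w) i = ((FreeMonoid.toList (w i)).length : ZMod ℓ) := by
  change (((FreeMonoid.toList (w i)).length : ℤ) : ZMod ℓ) = _
  rw [Int.cast_natCast]

theorem len_mul (w w' : ∀ i, FreeMonoid (X i)) : len (w * w') = len w + len w' := by
  refine ofLex.injective (funext fun i => ?_)
  change ((FreeMonoid.toList (w i * w' i)).length : ℤ) = (FreeMonoid.toList (w i)).length +
    (FreeMonoid.toList (w' i)).length
  rw [FreeMonoid.toList_mul, List.length_append, Nat.cast_add]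

variable {K L : Type} [Field K] [Field L] [Algebra K L]

/-- the monomial of a tuple of words -/
def mon (t : ∀ i, X i → ZMod ℓ → L) (w : ∀ i, FreeMonoid (X i)) (b : Fin m → ZMod ℓ) : L :=
  ∏ i, monL (t i) (FreeMonoid.toList (w i)) (b i)

theorem mon_mul (t : ∀ i, X i → ZMod ℓ → L) (w w' : ∀ i, FreeMonoid (X i))
    (b : Fin m → ZMod ℓ) :
    mon t (w * w') b = mon t w (b + red m ℓ (len w')) * mon t w' b := by
  rw [mon, mon, mon, ← Finset.prod_mul_distrib]
  refine Finset.prod_congr rfl fun i _ => ?_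
  rw [Pi.mul_apply, FreeMonoid.toList_mul, monL_append, Pi.add_apply, red_len]

variable [NeZero ℓ]

/-- the matrix of a tuple of words -/
noncomputable def word (t : ∀ i, X i → ZMod ℓ → L) :
    (∀ i, FreeMonoid (X i)) →* Matrix (Fin m → ZMod ℓ) (Fin m → ZMod ℓ) (HahnSeries (Ex m) L)
    where
  toFun w := Matrix.of fun a b =>
    if a = b + red m ℓ (len w) then HahnSeries.single (len w) (mon t w b) else 0
  map_one' := by
    ext1 a b
    have h1 : len (1 : ∀ i, FreeMonoid (X i)) = 0 := rfl
    have h2 : mon t (1 : ∀ i, FreeMonoid (X i)) b = 1 := by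
      rw [mon]
      exact Finset.prod_eq_one fun i _ => rfl
    rw [Matrix.of_apply, h1, h2, map_zero, add_zero, Matrix.one_apply]
    rfl
  map_mul' w w' := by
    ext1 a b
    rw [Matrix.of_apply, Matrix.mul_apply, Finset.sum_eq_single (b + red m ℓ (len w')),
      Matrix.of_apply, Matrix.of_apply, if_pos rfl, mon_mul, len_mul, map_add, add_assoc,
      add_comm (red m ℓ (len w)) (red m ℓ (len w'))]
    · split_ifs
      · rw [HahnSeries.single_mul_single]
      · rw [zero_mul]
    · intro c _ hc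
      rw [Matrix.of_apply, Matrix.of_apply, if_neg hc, mul_zero]
    · intro h
      exact absurd (Finset.mem_univ _) h

theorem word_apply (t : ∀ i, X i → ZMod ℓ → L) (w : ∀ i, FreeMonoid (X i))
    (a b : Fin m → ZMod ℓ) : word t w a b =
      if a = b + red m ℓ (len w) then HahnSeries.single (len w) (mon t w b) else 0 := rfl

theorem word_mem (σ : (Fin m → ZMod ℓ) → L →+* L) (t : ∀ i, X i → ZMod ℓ → L)
    (ht : ∀ c i x j, σ c (t i x j) = t i x (j + c i)) (w : ∀ i, FreeMonoid (X i)) :
    word t w ∈ Tw (red m ℓ) σ := by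
  refine ⟨fun c => ?_, ?_⟩
  · ext1 a b
    change word t w (a + c) (b + c) = serMap (σ c) (word t w a b)
    rw [word_apply, word_apply]
    by_cases h : a = b + red m ℓ (len w)
    · rw [if_pos h, if_pos (by rw [h, add_right_comm])]
      have h1 : mon t w (b + c) = σ c (mon t w b) := by
        rw [mon, mon, map_prod]
        exact Finset.prod_congr rfl fun i _ => (map_monL (t i) (σ c) (c i) (ht c i) _ _).symm
      rw [h1]
      ext k
      rw [coeff_serMap, HahnSeries.coeff_single, HahnSeries.coeff_single]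
      split_ifs
      · rfl
      · rw [map_zero]
    · rw [if_neg h, if_neg, map_zero]
      intro h2
      rw [add_right_comm] at h2
      exact h (add_right_cancel h2)
  · intro a b
    rw [part_eq_iff, word_apply]
    intro k hk
    by_cases h : a = b + red m ℓ (len w)
    · rw [if_pos h, HahnSeries.coeff_single] at hk
      split_ifs at hk with h2
      · rw [h2, h, add_sub_cancel_left]
      · exact absurd rfl hk
    · rw [if_neg h, HahnSeries.coeff_zero] at hk
      exact absurd rfl hk

/-- scalars -/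
noncomputable def scal (K : Type) [Field K] (L : Type) [Field L] [Algebra K L] (m ℓ : ℕ)
    [NeZero ℓ] : K →+* Matrix (Fin m → ZMod ℓ) (Fin m → ZMod ℓ) (HahnSeries (Ex m) L) :=
  (Matrix.scalar (Fin m → ZMod ℓ)).comp (HahnSeries.C.comp (algebraMap K L))

theorem scal_apply (c : K) (a b : Fin m → ZMod ℓ) :
    scal K L m ℓ c a b = if a = b then HahnSeries.single 0 (algebraMap K L c) else 0 := by
  rw [scal, RingHom.comp_apply, Matrix.scalar_apply, Matrix.diagonal_apply]
  rfl

theorem scal_mem (σ : (Fin m → ZMod ℓ) → L →+* L)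
    (hσ : ∀ d c, σ d (algebraMap K L c) = algebraMap K L c) (c : K) :
    scal K L m ℓ c ∈ Tw (red m ℓ) σ := by
  refine ⟨fun d => ?_, ?_⟩
  · ext1 a b
    change scal K L m ℓ c (a + d) (b + d) = serMap (σ d) (scal K L m ℓ c a b)
    rw [scal_apply, scal_apply]
    by_cases h : a = b
    · rw [if_pos h, if_pos (by rw [h])]
      ext k
      rw [coeff_serMap, HahnSeries.coeff_single]
      split_ifs
      · exact (hσ d c).symm
      · rw [map_zero]
    · rw [if_neg h, if_neg (fun h2 => h (add_right_cancel h2)), map_zero]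
  · intro a b
    rw [part_eq_iff, scal_apply]
    intro k hk
    by_cases h : a = b
    · rw [if_pos h, HahnSeries.coeff_single] at hk
      split_ifs at hk with h2
      · rw [h2, h, map_zero, sub_self]
      · exact absurd rfl hk
    · rw [if_neg h, HahnSeries.coeff_zero] at hk
      exact absurd rfl hk

theorem scal_commute (c : K)
    (x : Matrix (Fin m → ZMod ℓ) (Fin m → ZMod ℓ) (HahnSeries (Ex m) L)) :
    Commute (scal K L m ℓ c) x :=
  Matrix.scalar_commute _ (fun r => Commute.all _ r) x

/-- the representation of the algebra -/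
noncomputable def rep₀ (K : Type) [Field K] [Algebra K L] (t : ∀ i, X i → ZMod ℓ → L) :
    MonoidAlgebra K (∀ i, FreeMonoid (X i)) →+*
      Matrix (Fin m → ZMod ℓ) (Fin m → ZMod ℓ) (HahnSeries (Ex m) L) :=
  MonoidAlgebra.liftNCRingHom (scal K L m ℓ) (word t) fun c _ => scal_commute c _

theorem rep₀_eq (t : ∀ i, X i → ZMod ℓ → L) (f : MonoidAlgebra K (∀ i, FreeMonoid (X i))) :
    rep₀ K t f = ∑ w ∈ f.coeff.support, scal K L m ℓ (f.coeff w) * word t w := by
  conv_lhs => rw [← MonoidAlgebra.sum_coeff_single f]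
  rw [Finsupp.sum, map_sum]
  refine Finset.sum_congr rfl fun w _ => ?_
  rw [rep₀, MonoidAlgebra.liftNCRingHom_single]

theorem rep₀_mem (σ : (Fin m → ZMod ℓ) → L →+* L)
    (hσ : ∀ d (c : K), σ d (algebraMap K L c) = algebraMap K L c)
    (t : ∀ i, X i → ZMod ℓ → L) (ht : ∀ c i x j, σ c (t i x j) = t i x (j + c i))
    (f : MonoidAlgebra K (∀ i, FreeMonoid (X i))) : rep₀ K t f ∈ Tw (red m ℓ) σ := by
  rw [rep₀_eq]
  exact sum_mem fun w _ => mul_mem (scal_mem σ hσ _) (word_mem σ t ht w)

theorem rep₀_coeff (t : ∀ i, X i → ZMod ℓ → L) (f : MonoidAlgebra K (∀ i, FreeMonoid (X i)))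
    (k : Ex m) :
    (rep₀ K t f (red m ℓ k) 0).coeff k = ∑ w ∈ f.coeff.support with len w = k,
      algebraMap K L (f.coeff w) * mon t w 0 := by
  classical
  rw [rep₀_eq, Finset.sum_filter, Matrix.sum_apply, HahnSeries.coeff_sum]
  refine Finset.sum_congr rfl fun w _ => ?_
  have h0 : (scal K L m ℓ (f.coeff w) * word t w) (red m ℓ k) 0 =
      HahnSeries.single 0 (algebraMap K L (f.coeff w)) * word t w (red m ℓ k) 0 := by
    rw [Matrix.mul_apply, Finset.sum_eq_single (red m ℓ k)]
    · rw [scal_apply, if_pos rfl]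
    · intro b _ hb
      rw [scal_apply, if_neg (Ne.symm hb), zero_mul]
    · intro h
      exact absurd (Finset.mem_univ _) h
  rw [h0, word_apply, zero_add]
  by_cases h : len w = k
  · rw [if_pos h, h, if_pos rfl, HahnSeries.single_mul_single, zero_add,
      HahnSeries.coeff_single_same]
  · rw [if_neg h]
    split_ifs
    · rw [HahnSeries.single_mul_single, zero_add, HahnSeries.coeff_single_of_ne (Ne.symm h)]
    · rw [mul_zero, HahnSeries.coeff_zero]

section field

variable (K : Type) [Field K] {m : ℕ} (X : Fin m → Type) (ℓ : ℕ)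

/-- the variables -/
abbrev Va : Type := Σ i : Fin m, X i × ZMod ℓ

/-- rational functions in the variables -/
abbrev FF : Type := FractionRing (MvPolynomial (Va X ℓ) K)

/-- the variables -/
noncomputable def tv (i : Fin m) (x : X i) (j : ZMod ℓ) : FF K X ℓ :=
  algebraMap (MvPolynomial (Va X ℓ) K) _ (MvPolynomial.X ⟨i, x, j⟩)

/-- the shift of the variables -/
noncomputable def sig₀ (c : Fin m → ZMod ℓ) :
    MvPolynomial (Va X ℓ) K →+* MvPolynomial (Va X ℓ) K :=
  (MvPolynomial.rename (fun p : Va X ℓ => (⟨p.1, p.2.1, p.2.2 + c p.1⟩ : Va X ℓ)) :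
    MvPolynomial (Va X ℓ) K →ₐ[K] _).toRingHom

theorem sig₀_injective (c : Fin m → ZMod ℓ) : Function.Injective (sig₀ K X ℓ c) :=
  MvPolynomial.rename_injective _ (by
    rintro ⟨i, x, j⟩ ⟨i', x', j'⟩ h
    obtain ⟨rfl, h2⟩ := Sigma.mk.inj_iff.mp h
    rw [heq_iff_eq, Prod.mk.injEq] at h2
    have e1 : x = x' := h2.1
    have e2 : j = j' := add_right_cancel h2.2
    rw [e1, e2])

/-- the shift of the variables -/
noncomputable def sig (c : Fin m → ZMod ℓ) : FF K X ℓ →+* FF K X ℓ :=
  IsFractionRing.map (sig₀_injective K X ℓ c)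

theorem sig_algebraMap (c : Fin m → ZMod ℓ) (a : MvPolynomial (Va X ℓ) K) :
    sig K X ℓ c (algebraMap _ _ a) = algebraMap _ _ (sig₀ K X ℓ c a) := by
  rw [sig, IsFractionRing.map]
  exact IsLocalization.map_eq _ a

theorem sig_scalar (d : Fin m → ZMod ℓ) (c : K) :
    sig K X ℓ d (algebraMap K _ c) = algebraMap K _ c := by
  rw [IsScalarTower.algebraMap_apply K (MvPolynomial (Va X ℓ) K) (FF K X ℓ), sig_algebraMap]
  congr 1
  exact (MvPolynomial.rename _).commutes c

theorem sig_tv (c : Fin m → ZMod ℓ) (i : Fin m) (x : X i) (j : ZMod ℓ) :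
    sig K X ℓ c (tv K X ℓ i x j) = tv K X ℓ i x (j + c i) := by
  rw [tv, sig_algebraMap, tv]
  congr 1
  exact MvPolynomial.rename_X _ _

end field

/-- the exponents of the monomial of a word -/
noncomputable def expoL {X : Type} (ℓ : ℕ) : List X → (X × ZMod ℓ →₀ ℕ)
  | [] => 0
  | x :: w => Finsupp.single (x, (w.length : ZMod ℓ)) 1 + expoL ℓ w

omit [NeZero ℓ] in
theorem expoL_eq_zero {X : Type} (w : List X) (j : ℕ) (hw : w.length ≤ j) (hj : j < ℓ) (x : X) :
    expoL ℓ w (x, (j : ZMod ℓ)) = 0 := by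
  induction w with
  | nil => rfl
  | cons y w ih =>
    rw [List.length_cons] at hw
    rw [expoL, Finsupp.add_apply, ih (by omega), add_zero, Finsupp.single_eq_of_ne]
    intro h
    rw [Prod.mk.injEq, ZMod.natCast_eq_natCast_iff', Nat.mod_eq_of_lt hj,
      Nat.mod_eq_of_lt (by omega)] at h
    omega

omit [NeZero ℓ] in
theorem expoL_inj {X : Type} (w v : List X) (h : w.length = v.length) (hℓ : w.length ≤ ℓ)
    (he : expoL ℓ w = expoL ℓ v) : w = v := by
  induction w generalizing v with
  | nil => exact (List.length_eq_zero_iff.mp h.symm).symm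
  | cons x w ih =>
    rcases v with _ | ⟨y, v⟩
    · simp at h
    · rw [List.length_cons] at hℓ
      rw [List.length_cons, List.length_cons, Nat.add_right_cancel_iff] at h
      rw [expoL, expoL, ← h] at he
      have h1 := DFunLike.congr_fun he (x, (w.length : ZMod ℓ))
      rw [Finsupp.add_apply, Finsupp.add_apply, expoL_eq_zero w _ le_rfl (by omega),
        expoL_eq_zero v _ h.symm.le (by omega), Finsupp.single_eq_same, add_zero, add_zero] at h1
      have h2 : y = x := by
        by_contra hne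
        rw [Finsupp.single_eq_of_ne] at h1
        · exact one_ne_zero h1
        · intro h3
          rw [Prod.mk.injEq] at h3
          exact hne h3.1.symm
      subst h2
      rw [ih v h (by omega) (add_left_cancel he)]

/-- the exponents of the monomial of a tuple of words -/
noncomputable def expo (ℓ : ℕ) (w : ∀ i, FreeMonoid (X i)) : Va X ℓ →₀ ℕ :=
  ∑ i, (expoL ℓ (FreeMonoid.toList (w i))).embDomain
    ⟨fun p => (⟨i, p⟩ : Va X ℓ), fun _ _ h => eq_of_heq (Sigma.mk.inj_iff.mp h).2⟩

omit [NeZero ℓ] in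
theorem expo_apply (w : ∀ i, FreeMonoid (X i)) (i : Fin m) (p : X i × ZMod ℓ) :
    expo ℓ w ⟨i, p⟩ = expoL ℓ (FreeMonoid.toList (w i)) p := by
  rw [expo, Finsupp.finsetSum_apply, Finset.sum_eq_single i]
  · exact Finsupp.embDomain_apply_self _ _ p
  · intro j _ hj
    refine Finsupp.embDomain_of_notMem_range _ _ _ ?_
    rintro ⟨q, hq⟩
    exact hj (Sigma.mk.inj_iff.mp hq).1
  · intro h
    exact absurd (Finset.mem_univ _) h

omit [NeZero ℓ] in
theorem expo_inj (w v : ∀ i, FreeMonoid (X i)) (h : len w = len v)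
    (hℓ : ∀ i, (FreeMonoid.toList (w i)).length ≤ ℓ) (he : expo ℓ w = expo ℓ v) : w = v := by
  funext i
  refine FreeMonoid.toList.injective (expoL_inj (ℓ := ℓ) _ _ ?_ (hℓ i) ?_)
  · have h1 := congrFun (congrArg ofLex h) i
    exact_mod_cast (show ((FreeMonoid.toList (w i)).length : ℤ) =
      (FreeMonoid.toList (v i)).length from h1)
  · refine Finsupp.ext fun p => ?_
    rw [← expo_apply, ← expo_apply, he]

omit [NeZero ℓ] in
theorem monL_tv (K : Type) [Field K] (i : Fin m) (w : List (X i)) :
    monL (tv K X ℓ i) w 0 = algebraMap (MvPolynomial (Va X ℓ) K) _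
      (MvPolynomial.monomial ((expoL ℓ w).embDomain
        ⟨fun p => (⟨i, p⟩ : Va X ℓ), fun _ _ h => eq_of_heq (Sigma.mk.inj_iff.mp h).2⟩)
          (1 : K)) := by
  induction w with
  | nil =>
    rw [monL, expoL, Finsupp.embDomain_zero]
    exact (map_one _).symm
  | cons x w ih =>
    rw [monL, ih, expoL, zero_add, tv, ← map_mul, MvPolynomial.X, MvPolynomial.monomial_mul,
      one_mul, Finsupp.embDomain_add, Finsupp.embDomain_single]
    rfl

omit [NeZero ℓ] in
theorem mon_tv (K : Type) [Field K] (w : ∀ i, FreeMonoid (X i)) :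
    mon (tv K X ℓ) w 0 = algebraMap (MvPolynomial (Va X ℓ) K) _
      (MvPolynomial.monomial (expo ℓ w) (1 : K)) := by
  rw [mon, expo, MvPolynomial.monomial_sum_one, map_prod]
  exact Finset.prod_congr rfl fun i _ => monL_tv K i _

/-- **Tensor products of free algebras embed in products of division rings of twisted
series.** -/
theorem exists_rep_ne_zero {K : Type} [Field K] (f : MonoidAlgebra K (∀ i, FreeMonoid (X i)))
    (hf : f ≠ 0) : ∃ (ℓ : ℕ) (_ : NeZero ℓ) (τ : MonoidAlgebra K (∀ i, FreeMonoid (X i)) →+*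
      Tw (red m ℓ) (sig K X ℓ)), τ f ≠ 0 := by
  classical
  obtain ⟨w₀, hw₀⟩ : ∃ w, f.coeff w ≠ 0 := by
    by_contra h
    push Not at h
    exact hf (MonoidAlgebra.ext (Finsupp.ext h))
  obtain ⟨k, hk⟩ : ∃ k, ∀ i, (FreeMonoid.toList (w₀ i)).length ≤ k :=
    ⟨∑ i, (FreeMonoid.toList (w₀ i)).length, fun i =>
      Finset.single_le_sum (f := fun i => (FreeMonoid.toList (w₀ i)).length)
        (fun _ _ => Nat.zero_le _) (Finset.mem_univ i)⟩
  refine ⟨k + 1, inferInstance, (rep₀ K (tv K X (k + 1))).codRestrict _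
    (rep₀_mem (sig K X (k + 1)) (sig_scalar K X _) _ (sig_tv K X _)), ?_⟩
  intro h
  have h1 : rep₀ K (tv K X (k + 1)) f = 0 := congrArg Subtype.val h
  have h2 := rep₀_coeff (tv K X (k + 1)) f (len w₀)
  rw [h1, Matrix.zero_apply, HahnSeries.coeff_zero] at h2
  have h3 : algebraMap (MvPolynomial (Va X (k + 1)) K) (FF K X (k + 1))
      (∑ w ∈ f.coeff.support with len w = len w₀,
        MvPolynomial.monomial (expo (k + 1) w) (f.coeff w)) = 0 := by
    rw [map_sum, ← h2.symm]
    refine Finset.sum_congr rfl fun w _ => ?_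
    rw [mon_tv, IsScalarTower.algebraMap_apply K (MvPolynomial (Va X (k + 1)) K), ← map_mul,
      MvPolynomial.algebraMap_eq, MvPolynomial.C_mul_monomial, mul_one]
  rw [map_eq_zero_iff _ (IsFractionRing.injective _ _)] at h3
  have h4 := congrArg (MvPolynomial.coeff (expo (k + 1) w₀)) h3
  rw [MvPolynomial.coeff_sum, MvPolynomial.coeff_zero, Finset.sum_eq_single w₀] at h4
  · rw [MvPolynomial.coeff_monomial, if_pos rfl] at h4
    exact hw₀ h4
  · intro w hw hne
    rw [Finset.mem_filter] at hw
    rw [MvPolynomial.coeff_monomial, if_neg]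
    intro h5
    refine hne (expo_inj (ℓ := k + 1) w₀ w hw.2.symm (fun i => ?_) h5.symm).symm
    exact (hk i).trans (Nat.le_succ k)
  · intro h5
    rw [Finset.mem_filter] at h5
    exact absurd ⟨Finsupp.mem_support_iff.mpr hw₀, rfl⟩ h5

end Vale.Agent.P192.H121.NC
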